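import Vale.Agent.P213.Omega

/-!
P213. Augmented directed complexes with a basis and Steiner's functor `nu` (Steiner 2004).
The chain group is the free abelian group on the basis `B`, graded by `deg`; positive chains
are the chains with nonnegative coefficients; the augmentation is the sum of the coefficients.
-/

open CategoryTheory

namespace Vale.Agent.P213

/-- Sum of the coefficients of a chain. -/
noncomputable def aug {B : Type} : (B →₀ ℤ) →+ ℤ :=
  Finsupp.liftAddHom (fun _ => AddMonoidHom.id ℤ)

/-- The chain `x` is homogeneous of degree `i`. -/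
def IsDeg {B : Type} (deg : B → ℕ) (i : ℕ) (x : B →₀ ℤ) : Prop :=
  ∀ b, x b ≠ 0 → deg b = i

/-- An augmented directed complex with basis `B`. -/
structure BADC : Type 1 where
  B : Type
  deg : B → ℕ
  d : (B →₀ ℤ) →+ (B →₀ ℤ)
  d_deg : ∀ b c, d (Finsupp.single b 1) c ≠ 0 → deg c + 1 = deg b
  d_d : ∀ x, d (d x) = 0
  aug_d : ∀ b, deg b = 1 → aug (d (Finsupp.single b 1)) = 0

/-- Additive maps between chain groups. -/
abbrev Lin (B B' : Type) : Type := (B →₀ ℤ) →+ (B' →₀ ℤ)

noncomputable abbrev linId (B : Type) : Lin B B := AddMonoidHom.id _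

noncomputable abbrev linComp {B B' B'' : Type} (f : Lin B B') (g : Lin B' B'') : Lin B B'' :=
  AddMonoidHom.comp g f

/-- Positive chains go to positive chains. -/
abbrev IsPosMap {B B' : Type} (f : Lin B B') : Prop := ∀ x, 0 ≤ x → 0 ≤ f x

/-- Degrees are preserved. -/
abbrev IsDegMap {B B' : Type} (deg : B → ℕ) (deg' : B' → ℕ) (f : Lin B B') : Prop :=
  ∀ i x, IsDeg deg i x → IsDeg deg' i (f x)

/-- Compatibility with the differentials. -/
abbrev IsChainMap {B B' : Type} (d : Lin B B) (d' : Lin B' B') (f : Lin B B') : Prop :=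
  ∀ x, d' (f x) = f (d x)

/-- Compatibility with the augmentations. -/
abbrev IsAugMap {B B' : Type} (deg : B → ℕ) (f : Lin B B') : Prop :=
  ∀ x, IsDeg deg 0 x → aug (f x) = aug x

/-- Morphisms: degree preserving, positive, augmentation preserving chain maps. -/
@[ext]
structure BADC.Hom (K L : BADC) : Type where
  f : Lin K.B L.B
  nonneg : IsPosMap f
  deg : IsDegMap K.deg L.deg f
  comm : IsChainMap K.d L.d f
  aug : IsAugMap K.deg f

noncomputable def BADC.Hom.id (K : BADC) : K.Hom K where
  f := linId K.B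
  nonneg := by intro _ h; exact h
  deg := by intro _ _ h; exact h
  comm := by intro _; rfl
  aug := by intro _ _; rfl

noncomputable def BADC.Hom.comp {K L M : BADC} (f : K.Hom L) (g : L.Hom M) : K.Hom M where
  f := linComp f.f g.f
  nonneg := by intro x h; exact g.nonneg _ (f.nonneg x h)
  deg := by intro i x h; exact g.deg i _ (f.deg i x h)
  comm := by intro x; simp only [AddMonoidHom.comp_apply]; rw [g.comm, f.comm]
  aug := by
    intro x h; simp only [AddMonoidHom.comp_apply]; rw [g.aug _ (f.deg 0 x h), f.aug x h]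

noncomputable instance : Category BADC where
  Hom := BADC.Hom
  id := BADC.Hom.id
  comp := BADC.Hom.comp
  id_comp _ := rfl
  comp_id _ := rfl
  assoc _ _ _ := rfl

/-- Double sequences of chains: `x false i` and `x true i` are the negative and positive
entries in degree `i`. -/
abbrev Raw (B : Type) : Type := Bool → ℕ → (B →₀ ℤ)

/-- The n-source (`α = false`) and n-target (`α = true`) of a double sequence. -/
noncomputable def rbd {B : Type} (α : Bool) (n : ℕ) (x : Raw B) : Raw B :=
  fun ε i => if i < n then x ε i else if i = n then x α n else 0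

/-- Steiner's composite `x + y - (n-target of x)`. -/
noncomputable def rcomp {B : Type} (n : ℕ) (x y : Raw B) : Raw B := x + y - rbd true n x

/-- Steiner's conditions on a double sequence (apart from finiteness). -/
structure IsTab (K : BADC) (x : Raw K.B) : Prop where
  nonneg : ∀ ε i, 0 ≤ x ε i
  deg : ∀ ε i, IsDeg K.deg i (x ε i)
  aug : ∀ ε, aug (x ε 0) = 1
  d : ∀ ε i, K.d (x ε (i + 1)) = x true i - x false i

section
variable {B : Type}

lemma rbd_add (α : Bool) (n : ℕ) (x y : Raw B) : rbd α n (x + y) = rbd α n x + rbd α n y := by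
  funext ε i
  simp only [rbd, Pi.add_apply]
  split_ifs <;> simp

lemma rbd_sub (α : Bool) (n : ℕ) (x y : Raw B) : rbd α n (x - y) = rbd α n x - rbd α n y := by
  funext ε i
  simp only [rbd, Pi.sub_apply]
  split_ifs <;> simp

lemma rbd_rbd_le (α β : Bool) (m n : ℕ) (x : Raw B) (h : m ≤ n) :
    rbd β n (rbd α m x) = rbd α m x := by
  funext ε i
  simp only [rbd]
  split_ifs <;> first | rfl | omega

lemma rbd_rbd_lt (α β : Bool) (m n : ℕ) (x : Raw B) (h : m < n) :
    rbd β m (rbd α n x) = rbd β m x := by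
  funext ε i
  simp only [rbd]
  split_ifs <;> first | rfl | omega

/-- Double sequences of chains, with no condition, satisfy the axioms. -/
@[reducible]
noncomputable def rawOmega (B : Type) : PreOmega where
  C := Raw B
  bd := rbd
  comp := rcomp
  bd_bd_le := rbd_rbd_le
  bd_bd_lt := rbd_rbd_lt
  src_comp n x y h := by
    simp only [rcomp, rbd_sub, rbd_add, rbd_rbd_le _ _ _ _ _ le_rfl, h]; abel
  tgt_comp n x y _ := by
    simp only [rcomp, rbd_sub, rbd_add, rbd_rbd_le _ _ _ _ _ le_rfl]; abel
  bd_comp_gt α m n x y hmn _ := by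
    simp only [rcomp, rbd_sub, rbd_add, rbd_rbd_le _ _ _ _ _ hmn.le, rbd_rbd_lt _ _ _ _ _ hmn]
  id_comp n x := by
    simp only [rcomp, rbd_rbd_le _ _ _ _ _ le_rfl]; abel
  comp_id n x := by
    simp only [rcomp]; abel
  assoc n x y z h _ := by
    simp only [rcomp, rbd_sub, rbd_add, rbd_rbd_le _ _ _ _ _ le_rfl]; abel
  exchange m n x y x' y' hmn h₁ _ _ := by
    have e : rbd true m x = rbd true m y := by
      rw [← rbd_rbd_lt true true m n x hmn, h₁, rbd_rbd_lt _ _ _ _ _ hmn]
    simp only [rcomp, rbd_sub, rbd_add, rbd_rbd_le _ _ _ _ _ hmn.le, rbd_rbd_lt _ _ _ _ _ hmn, e]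
    abel

end

lemma IsTab.rbd {K : BADC} {x : Raw K.B} (h : IsTab K x) (α : Bool) (n : ℕ) :
    IsTab K (rbd α n x) where
  nonneg ε i := by
    simp only [P213.rbd]; split_ifs
    exacts [h.nonneg _ _, h.nonneg _ _, le_rfl]
  deg ε i := by
    simp only [P213.rbd]; split_ifs with h₁ h₂
    · exact h.deg _ _
    · rw [h₂]; exact h.deg _ _
    · intro b hb; simp at hb
  aug ε := by
    simp only [P213.rbd]; split_ifs with h₁ h₂
    · exact h.aug _
    · rw [← h₂]; exact h.aug _
    · omega
  d ε i := by
    simp only [P213.rbd]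
    by_cases h₁ : i + 1 < n
    · rw [if_pos h₁, if_pos (by omega), if_pos (by omega)]; exact h.d _ _
    · by_cases h₂ : i + 1 = n
      · rw [if_neg h₁, if_pos h₂, if_pos (by omega), if_pos (by omega), ← h₂]; exact h.d _ _
      · rw [if_neg h₁, if_neg h₂, if_neg (by omega), if_neg (show ¬ i < n by omega)]; simp

lemma rcomp_apply {B : Type} {n : ℕ} {x y : Raw B} (h : rbd true n x = rbd false n y)
    (ε : Bool) (i : ℕ) :
    rcomp n x y ε i =
      if i < n then x ε i else if i = n then (if ε then y true n else x false n)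
      else x ε i + y ε i := by
  have e := congrFun (congrFun h ε) i
  simp only [rcomp, rbd, Pi.sub_apply, Pi.add_apply] at e ⊢
  split_ifs at e ⊢ with h₁ h₂ h₃
  · rw [← e]; abel
  · subst h₂ h₃; abel
  · subst h₂; rw [e]; simp at h₃; subst h₃; abel
  · abel

lemma IsTab.rcomp {K : BADC} {x y : Raw K.B} (hx : IsTab K x) (hy : IsTab K y) (n : ℕ)
    (h : P213.rbd true n x = P213.rbd false n y) : IsTab K (rcomp n x y) where
  nonneg ε i := by
    rw [rcomp_apply h]; split_ifs
    exacts [hx.nonneg _ _, hy.nonneg _ _, hx.nonneg _ _, add_nonneg (hx.nonneg _ _) (hy.nonneg _ _)]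
  deg ε i := by
    rw [rcomp_apply h]; split_ifs with h₁ h₂
    · exact hx.deg _ _
    · rw [h₂]; exact hy.deg _ _
    · rw [h₂]; exact hx.deg _ _
    · intro b hb
      by_cases hb' : x ε i b = 0
      · exact hy.deg ε i b (by simpa [hb'] using hb)
      · exact hx.deg ε i b hb'
  aug ε := by
    simp only [P213.rcomp, Pi.sub_apply, Pi.add_apply, map_sub, map_add, hx.aug, hy.aug,
      (hx.rbd true n).aug]
    rfl
  d ε i := by
    simp only [P213.rcomp, Pi.sub_apply, Pi.add_apply, map_sub, map_add, hx.d, hy.d,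
      (hx.rbd true n).d]
    abel

/-- A morphism of complexes acts entrywise on double sequences. -/
noncomputable def rmap {K L : BADC} (f : K ⟶ L) (x : Raw K.B) : Raw L.B := fun ε i => f.f (x ε i)

lemma IsTab.rmap {K L : BADC} (f : K ⟶ L) {x : Raw K.B} (h : IsTab K x) :
    IsTab L (rmap f x) where
  nonneg ε i := f.nonneg _ (h.nonneg ε i)
  deg ε i := f.deg _ _ (h.deg ε i)
  aug ε := by simp only [P213.rmap]; rw [f.aug _ (h.deg ε 0), h.aug]
  d ε i := by simp only [P213.rmap]; rw [f.comm, h.d, map_sub]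

lemma rmap_rbd {K L : BADC} (f : K ⟶ L) (α : Bool) (n : ℕ) (x : Raw K.B) :
    rmap f (rbd α n x) = rbd α n (rmap f x) := by
  funext ε i
  simp only [rmap, rbd]
  split_ifs <;> simp

lemma rmap_rcomp {K L : BADC} (f : K ⟶ L) (n : ℕ) (x y : Raw K.B) :
    rmap f (rcomp n x y) = rcomp n (rmap f x) (rmap f y) := by
  rw [rcomp, rcomp, ← rmap_rbd]
  funext ε i
  simp [rmap]

/-- Cells of `nu K`: double sequences satisfying Steiner's conditions, with only finitely
many nonzero entries. -/
@[ext]
structure Cell (K : BADC) : Type where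
  val : Raw K.B
  tab : IsTab K val
  fin : ∃ n, rbd false n val = val

noncomputable def Cell.bd {K : BADC} (α : Bool) (n : ℕ) (x : Cell K) : Cell K :=
  ⟨rbd α n x.val, x.tab.rbd α n, n, rbd_rbd_le _ _ _ _ _ le_rfl⟩

open Classical in
noncomputable def Cell.comp {K : BADC} (n : ℕ) (x y : Cell K) : Cell K :=
  if h : rbd true n x.val = rbd false n y.val then
    ⟨rcomp n x.val y.val, x.tab.rcomp y.tab n h, (rawOmega K.B).fin_comp n _ _ h x.fin y.fin⟩
  else x

lemma Cell.comp_val {K : BADC} (n : ℕ) (x y : Cell K)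
    (h : rbd true n x.val = rbd false n y.val) :
    (Cell.comp n x y).val = rcomp n x.val y.val := by
  rw [Cell.comp, dif_pos h]

/-- Steiner's omega-category of an augmented directed complex. -/
@[reducible]
noncomputable def nuObj (K : BADC) : OmegaCat where
  toPreOmega := (rawOmega K.B).induced (Cell K) Cell.val (fun _ _ h => Cell.ext h)
    Cell.bd Cell.comp (fun _ _ _ => rfl) Cell.comp_val
  fin x := by
    obtain ⟨k, hk⟩ := x.fin
    exact ⟨k, Cell.ext hk⟩

noncomputable def Cell.map {K L : BADC} (f : K ⟶ L) (x : Cell K) : Cell L :=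
  ⟨rmap f x.val, x.tab.rmap f, by
    obtain ⟨k, hk⟩ := x.fin
    exact ⟨k, by rw [← rmap_rbd, hk]⟩⟩

noncomputable def nuMap {K L : BADC} (f : K ⟶ L) : nuObj K ⟶ nuObj L where
  toFun := Cell.map f
  map_bd α n x := Cell.ext (rmap_rbd f α n x.val)
  map_comp n x y h := by
    have h₂ : rbd true n x.val = rbd false n y.val := congrArg Cell.val h
    have h₃ : rbd true n (Cell.map f x).val = rbd false n (Cell.map f y).val := by
      change rbd true n (rmap f x.val) = rbd false n (rmap f y.val)
      rw [← rmap_rbd, ← rmap_rbd, h₂]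
    apply Cell.ext
    change rmap f (Cell.comp n x y).val = (Cell.comp n (Cell.map f x) (Cell.map f y)).val
    rw [Cell.comp_val _ _ _ h₂, Cell.comp_val _ _ _ h₃, rmap_rcomp]
    rfl

/-- Steiner's functor from augmented directed complexes to omega-categories. -/
noncomputable def nu : BADC ⥤ OmegaCat where
  obj := nuObj
  map := nuMap
  map_id _ := rfl
  map_comp _ _ := rfl

end Vale.Agent.P213
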