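import Vale.Agent.P213.StBasic

/-!
P213: the cylinder `D₁ ⊗ K` of a complex. Basis: `(some false, b) = 0 ⊗ b`,
`(some true, b) = 1 ⊗ b`, `(none, b) = e ⊗ b`, with `d (e ⊗ b) = 1 ⊗ b - 0 ⊗ b - e ⊗ d b`.

Plan.
* `Good (cyl K)`: atoms are `map (cylι ε) (atom b)` and `cylCell (atom b)`. Order:
  `0 ⊗ _ < e ⊗ _ < 1 ⊗ _`; inside the two ends the order of `K`, in the middle the opposite one.
* `cylCell x` has the entry `e ⊗ x (!ε) (i - 1) + ε ⊗ x ε i` in position `(ε, i)`.
-/

open CategoryTheory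

namespace Vale.Agent.P213

/-- The inclusion of chains `x ↦ o ⊗ x`. -/
noncomputable def cinj {B : Type} (o : Option Bool) : (B →₀ ℤ) →+ (Option Bool × B →₀ ℤ) :=
  Finsupp.mapDomain.addMonoidHom (fun b => (o, b))

@[simp] lemma cinj_single {B : Type} (o : Option Bool) (b : B) (n : ℤ) :
    cinj o (Finsupp.single b n) = Finsupp.single (o, b) n := by
  simp [cinj]

lemma cinj_apply {B : Type} (o o' : Option Bool) (x : B →₀ ℤ) (b : B) :
    cinj o x (o', b) = if o' = o then x b else 0 := by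
  split_ifs with h
  · subst h
    exact Finsupp.mapDomain_apply (fun _ _ h => (Prod.ext_iff.1 h).2) x b
  · exact Finsupp.mapDomain_of_notMem_range _ _ (by rintro ⟨c, hc⟩; exact h (Prod.ext_iff.1 hc).1.symm)

lemma cinj_nonneg {B : Type} (o : Option Bool) {x : B →₀ ℤ} (hx : 0 ≤ x) : 0 ≤ cinj o x := by
  rintro ⟨o', b⟩
  change (0 : ℤ) ≤ cinj o x (o', b)
  rw [cinj_apply]
  split_ifs
  exacts [hx b, le_rfl]

lemma aug_cinj {B : Type} (o : Option Bool) (x : B →₀ ℤ) : aug (cinj o x) = aug x :=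
  DFunLike.congr_fun (addHom_ext (f := aug.comp (cinj o)) (g := aug) fun b => by simp) x

lemma cinj_ne {B : Type} {o o' : Option Bool} {x : B →₀ ℤ} {b : B} (h : cinj o x (o', b) ≠ 0) :
    o' = o ∧ x b ≠ 0 := by
  rw [cinj_apply] at h
  split_ifs at h with h'
  exacts [⟨h', h⟩, absurd rfl h]

/-- The differential of the cylinder. -/
noncomputable def cylD (K : BADC) : (Option Bool × K.B →₀ ℤ) →+ (Option Bool × K.B →₀ ℤ) :=
  lin fun p => if p.1 = none then
      Finsupp.single (some true, p.2) 1 - Finsupp.single (some false, p.2) 1 -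
        cinj none (K.d (Finsupp.single p.2 1))
    else cinj p.1 (K.d (Finsupp.single p.2 1))

lemma cylD_some (K : BADC) (ε : Bool) (x : K.B →₀ ℤ) :
    cylD K (cinj (some ε) x) = cinj (some ε) (K.d x) :=
  DFunLike.congr_fun (addHom_ext (f := (cylD K).comp (cinj (some ε)))
    (g := (cinj (some ε)).comp K.d) fun b => by simp [cylD]) x

lemma cylD_none (K : BADC) (x : K.B →₀ ℤ) :
    cylD K (cinj none x) = cinj (some true) x - cinj (some false) x - cinj none (K.d x) :=
  DFunLike.congr_fun (addHom_ext (f := (cylD K).comp (cinj none))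
    (g := cinj (some true) - cinj (some false) - (cinj none).comp K.d) fun b => by simp [cylD]) x

lemma cylD_single_some (K : BADC) (ε : Bool) (b : K.B) :
    cylD K (Finsupp.single (some ε, b) 1) = cinj (some ε) (K.d (Finsupp.single b 1)) := by
  rw [← cinj_single, cylD_some]

lemma cylD_single_none (K : BADC) (b : K.B) :
    cylD K (Finsupp.single (none, b) 1) = cinj (some true) (Finsupp.single b 1) -
      cinj (some false) (Finsupp.single b 1) - cinj none (K.d (Finsupp.single b 1)) := by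
  rw [← cinj_single, cylD_none]

lemma cylD_none_apply (K : BADC) (b c : K.B) (o : Option Bool) :
    cylD K (Finsupp.single (none, b) 1) (o, c) = match o with
      | none => - K.d (Finsupp.single b 1) c
      | some false => - (Finsupp.single b 1 : K.B →₀ ℤ) c
      | some true => (Finsupp.single b 1 : K.B →₀ ℤ) c := by
  rw [cylD_single_none, Finsupp.sub_apply, Finsupp.sub_apply, cinj_apply, cinj_apply, cinj_apply]
  rcases o with _ | _ | _ <;> simp

@[reducible]
noncomputable def cyl (K : BADC) : BADC where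
  B := Option Bool × K.B
  deg p := if p.1 = none then K.deg p.2 + 1 else K.deg p.2
  d := lin fun p => if p.1 = none then
      Finsupp.single (some true, p.2) 1 - Finsupp.single (some false, p.2) 1 -
        cinj none (K.d (Finsupp.single p.2 1))
    else cinj p.1 (K.d (Finsupp.single p.2 1))
  d_deg := by
    rintro ⟨_ | ε, b⟩ ⟨o, c⟩ h
    · replace h : cylD K (Finsupp.single (none, b) 1) (o, c) ≠ 0 := h
      rw [cylD_none_apply] at h
      rcases o with _ | _ | _
      · simpa using K.d_deg b c (by simpa using h)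
      · simp [(Finsupp.single_apply_ne_zero.1 (neg_ne_zero.1 h)).1]
      · simp [(Finsupp.single_apply_ne_zero.1 h).1]
    · replace h : cylD K (Finsupp.single (some ε, b) 1) (o, c) ≠ 0 := h
      rw [cylD_single_some] at h
      obtain ⟨rfl, h'⟩ := cinj_ne h
      simpa using K.d_deg b c h'
  d_d x := by
    refine DFunLike.congr_fun (addHom_ext (f := (cylD K).comp (cylD K)) (g := 0) ?_) x
    rintro ⟨_ | ε, b⟩
    · rw [AddMonoidHom.comp_apply, cylD_single_none, map_sub, map_sub, cylD_some, cylD_some,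
        cylD_none, K.d_d]
      simp
    · rw [AddMonoidHom.comp_apply, cylD_single_some, cylD_some, K.d_d]
      simp
  aug_d := by
    rintro ⟨_ | ε, b⟩ h
    · change aug (cylD K (Finsupp.single (none, b) 1)) = 0
      have h₀ : IsDeg K.deg 0 (Finsupp.single b 1) := fun c hc => by
        rw [(Finsupp.single_apply_ne_zero.1 hc).1]
        simpa using h
      rw [cylD_single_none, h₀.d_zero]
      simp
    · change aug (cylD K (Finsupp.single (some ε, b) 1)) = 0
      rw [cylD_single_some, aug_cinj]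
      exact K.aug_d b (by simpa using h)

variable {K L M : BADC}

lemma cyl_d_some (ε : Bool) (x : K.B →₀ ℤ) :
    (cyl K).d (cinj (some ε) x) = cinj (some ε) (K.d x) :=
  cylD_some K ε x

lemma cyl_d_none (x : K.B →₀ ℤ) :
    (cyl K).d (cinj none x) = cinj (some true) x - cinj (some false) x - cinj none (K.d x) :=
  cylD_none K x

lemma isDeg_single_cyl (b : K.B) : IsDeg K.deg (K.deg b) (Finsupp.single b 1) :=
  fun c hc => by rw [(Finsupp.single_apply_ne_zero.1 hc).1]

lemma isDeg_cinj_some (ε : Bool) {i : ℕ} {x : K.B →₀ ℤ} (h : IsDeg K.deg i x) :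
    IsDeg (cyl K).deg i (cinj (some ε) x) := by
  rintro ⟨o, b⟩ hb
  obtain ⟨rfl, h'⟩ := cinj_ne hb
  simpa using h b h'

lemma isDeg_cinj_none {i : ℕ} {x : K.B →₀ ℤ} (h : IsDeg K.deg i x) :
    IsDeg (cyl K).deg (i + 1) (cinj none x) := by
  rintro ⟨o, b⟩ hb
  obtain ⟨rfl, h'⟩ := cinj_ne hb
  simpa using h b h'

lemma lin_cinj {B B' : Type} (g : Option Bool × B → (B' →₀ ℤ)) (o : Option Bool)
    (h : (B →₀ ℤ) →+ (B' →₀ ℤ)) (e : ∀ b, g (o, b) = h (Finsupp.single b 1)) (x : B →₀ ℤ) :
    lin g (cinj o x) = h x :=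
  DFunLike.congr_fun (addHom_ext (f := (lin g).comp (cinj o)) (g := h) fun b => by simp [e]) x

/-- A morphism out of a cylinder: two morphisms and a positive chain homotopy. -/
noncomputable def cylDesc (f₀ f₁ : K ⟶ L) (h : (K.B →₀ ℤ) →+ (L.B →₀ ℤ))
    (h₁ : ∀ b, 0 ≤ h (Finsupp.single b 1))
    (h₂ : ∀ b, IsDeg L.deg (K.deg b + 1) (h (Finsupp.single b 1)))
    (h₃ : ∀ x, L.d (h x) + h (K.d x) = f₁.f x - f₀.f x) : cyl K ⟶ L :=
  BADC.homMk (fun p => match p.1 with
      | none => h (Finsupp.single p.2 1)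
      | some false => f₀.f (Finsupp.single p.2 1)
      | some true => f₁.f (Finsupp.single p.2 1))
    (by
      rintro ⟨_ | _ | _, b⟩
      exacts [h₁ b, f₀.nonneg _ (Finsupp.single_nonneg.2 zero_le_one),
        f₁.nonneg _ (Finsupp.single_nonneg.2 zero_le_one)])
    (by
      rintro ⟨_ | _ | _, b⟩
      exacts [h₂ b, f₀.deg _ _ (isDeg_single_cyl b), f₁.deg _ _ (isDeg_single_cyl b)])
    (by
      rintro ⟨_ | _ | _, b⟩
      · change L.d (h (Finsupp.single b 1)) = lin _ (cylD K (Finsupp.single (none, b) 1))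
        rw [cylD_single_none, map_sub, map_sub, lin_cinj _ _ f₁.f fun _ => rfl,
          lin_cinj _ _ f₀.f fun _ => rfl, lin_cinj _ _ h fun _ => rfl, ← h₃, add_sub_cancel_right]
      · change L.d (f₀.f (Finsupp.single b 1)) = lin _ (cylD K (Finsupp.single (some false, b) 1))
        rw [cylD_single_some, lin_cinj _ _ f₀.f fun _ => rfl, f₀.comm]
      · change L.d (f₁.f (Finsupp.single b 1)) = lin _ (cylD K (Finsupp.single (some true, b) 1))
        rw [cylD_single_some, lin_cinj _ _ f₁.f fun _ => rfl, f₁.comm])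
    (by
      rintro ⟨_ | _ | _, b⟩ hb
      · simp at hb
      · have hb' : K.deg b = 0 := by simpa using hb
        exact (f₀.aug _ (hb' ▸ isDeg_single_cyl b)).trans (aug_single b 1)
      · have hb' : K.deg b = 0 := by simpa using hb
        exact (f₁.aug _ (hb' ▸ isDeg_single_cyl b)).trans (aug_single b 1))

lemma cylDesc_none (f₀ f₁ : K ⟶ L) (h h₁ h₂ h₃) (x : K.B →₀ ℤ) :
    (cylDesc f₀ f₁ h h₁ h₂ h₃).f (cinj none x) = h x :=
  lin_cinj _ _ h (fun _ => rfl) x

lemma cylDesc_false (f₀ f₁ : K ⟶ L) (h h₁ h₂ h₃) (x : K.B →₀ ℤ) :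
    (cylDesc f₀ f₁ h h₁ h₂ h₃).f (cinj (some false) x) = f₀.f x :=
  lin_cinj _ _ f₀.f (fun _ => rfl) x

lemma cylDesc_true (f₀ f₁ : K ⟶ L) (h h₁ h₂ h₃) (x : K.B →₀ ℤ) :
    (cylDesc f₀ f₁ h h₁ h₂ h₃).f (cinj (some true) x) = f₁.f x :=
  lin_cinj _ _ f₁.f (fun _ => rfl) x

noncomputable def cylι (K : BADC) (ε : Bool) : K ⟶ cyl K where
  f := cinj (some ε)
  nonneg _ h := cinj_nonneg _ h
  deg _ _ h := isDeg_cinj_some ε h
  comm := cyl_d_some ε
  aug x _ := aug_cinj _ x

noncomputable def cylπ (K : BADC) : cyl K ⟶ K :=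
  cylDesc (𝟙 K) (𝟙 K) 0 (fun _ => le_rfl) (fun _ _ h => absurd rfl h) (fun _ => by simp)

lemma cylπ_none (x : K.B →₀ ℤ) : (cylπ K).f (cinj none x) = 0 :=
  lin_cinj _ _ 0 (fun _ => rfl) x

lemma cylπ_some (ε : Bool) (x : K.B →₀ ℤ) : (cylπ K).f (cinj (some ε) x) = x := by
  cases ε <;> exact lin_cinj _ _ (AddMonoidHom.id _) (fun _ => rfl) x

noncomputable def cylMap (f : K ⟶ L) : cyl K ⟶ cyl L :=
  cylDesc (f ≫ cylι L false) (f ≫ cylι L true) ((cinj none).comp f.f)
    (fun _ => cinj_nonneg _ (f.nonneg _ (Finsupp.single_nonneg.2 zero_le_one)))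
    (fun b => isDeg_cinj_none (f.deg _ _ (isDeg_single_cyl b)))
    (fun x => by
      change (cyl L).d (cinj none (f.f x)) + cinj none (f.f (K.d x)) =
        cinj (some true) (f.f x) - cinj (some false) (f.f x)
      rw [cyl_d_none, f.comm, sub_add_cancel])

lemma cylMap_cinj (f : K ⟶ L) (o : Option Bool) (x : K.B →₀ ℤ) :
    (cylMap f).f (cinj o x) = cinj o (f.f x) := by
  rcases o with _ | _ | _
  exacts [cylDesc_none _ _ _ _ _ _ x, cylDesc_false _ _ _ _ _ _ x, cylDesc_true _ _ _ _ _ _ x]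

lemma cyl_hom_ext {f g : cyl K ⟶ L} (h : ∀ o b, f.f (cinj o (Finsupp.single b 1)) =
    g.f (cinj o (Finsupp.single b 1))) : f = g := by
  refine BADC.Hom.ext (addHom_ext fun p => ?_)
  have := h p.1 p.2
  rwa [cinj_single] at this

lemma cylMap_id : cylMap (𝟙 K) = 𝟙 (cyl K) := by
  exact cyl_hom_ext fun o b => cylMap_cinj _ o _

lemma cylMap_comp (f : K ⟶ L) (g : L ⟶ M) : cylMap (f ≫ g) = cylMap f ≫ cylMap g := by
  refine cyl_hom_ext fun o b => ?_
  change _ = (cylMap g).f ((cylMap f).f _)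
  rw [cylMap_cinj, cylMap_cinj, cylMap_cinj]
  rfl

lemma cylι_map (f : K ⟶ L) (ε : Bool) : cylι K ε ≫ cylMap f = f ≫ cylι L ε := by
  exact BADC.Hom.ext (AddMonoidHom.ext fun x => cylMap_cinj f (some ε) x)

lemma cylMap_π (f : K ⟶ L) : cylMap f ≫ cylπ L = cylπ K ≫ f := by
  refine cyl_hom_ext fun o b => ?_
  change (cylπ L).f ((cylMap f).f _) = f.f ((cylπ K).f _)
  rw [cylMap_cinj]
  rcases o with _ | ε
  · rw [cylπ_none, cylπ_none, map_zero]
  · rw [cylπ_some, cylπ_some]

lemma cylι_π (ε : Bool) : cylι K ε ≫ cylπ K = 𝟙 K := by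
  exact BADC.Hom.ext (AddMonoidHom.ext fun x => cylπ_some ε x)

lemma cylι_desc_false (f₀ f₁ : K ⟶ L) (h h₁ h₂ h₃) :
    cylι K false ≫ cylDesc f₀ f₁ h h₁ h₂ h₃ = f₀ := by
  exact BADC.Hom.ext (AddMonoidHom.ext fun x => cylDesc_false f₀ f₁ h h₁ h₂ h₃ x)

lemma cylι_desc_true (f₀ f₁ : K ⟶ L) (h h₁ h₂ h₃) :
    cylι K true ≫ cylDesc f₀ f₁ h h₁ h₂ h₃ = f₁ := by
  exact BADC.Hom.ext (AddMonoidHom.ext fun x => cylDesc_true f₀ f₁ h h₁ h₂ h₃ x)

/-- The cylinder on a double sequence. -/
noncomputable def cylRaw {B : Type} (x : Raw B) : Raw (Option Bool × B) := fun ε i =>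
  (if i = 0 then 0 else cinj none (x (!ε) (i - 1))) + cinj (some ε) (x ε i)

lemma IsTab.cylRaw {x : Raw K.B} (h : IsTab K x) : IsTab (cyl K) (cylRaw x) where
  nonneg ε i := by
    refine add_nonneg ?_ (cinj_nonneg _ (h.nonneg _ _))
    split_ifs
    exacts [le_rfl, cinj_nonneg _ (h.nonneg _ _)]
  deg ε i := by
    intro p hp
    by_cases h₁ : cinj (some ε) (x ε i) p = 0
    · rcases i with _ | i
      · simp [P213.cylRaw, h₁] at hp
      · exact isDeg_cinj_none (h.deg (!ε) i) p (by simpa [P213.cylRaw, h₁] using hp)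
    · exact isDeg_cinj_some ε (h.deg ε i) p h₁
  aug ε := by simp [P213.cylRaw, aug_cinj, h.aug]
  d ε i := by
    change cylD K _ = _
    simp only [P213.cylRaw, Nat.add_one_ne_zero, if_false, Nat.add_sub_cancel, map_add, cylD_some,
      cylD_none, h.d, map_sub]
    rcases i with _ | i
    · rw [(h.deg _ 0).d_zero]
      cases ε <;> simp
    · rw [h.d]
      cases ε <;> simp <;> abel

lemma rDim_cylRaw {B : Type} {n : ℕ} {x : Raw B} (h : RDim n x) : RDim (n + 1) (cylRaw x) := by
  rw [rDim_iff] at h ⊢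
  refine ⟨?_, fun ε i hi => ?_⟩
  · simp [cylRaw, h.1, h.2 _ (n + 1) (Nat.lt_succ_self n)]
  · rw [cylRaw, h.2 _ i (by omega), h.2 _ (i - 1) (by omega)]
    simp

lemma IsAtom.cyl_some {b : K.B} {x : Raw K.B} (h : IsAtom K b x) (ε : Bool) :
    IsAtom (cyl K) (some ε, b) (rmap (cylι K ε) x) where
  tab := h.tab.rmap _
  top α := by
    change cinj (some ε) (x α (K.deg b)) = _
    rw [h.top, cinj_single]
  zero α i hi := by
    change cinj (some ε) (x α i) = 0
    rw [h.zero α i hi, map_zero]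
  disj i hi := by
    rintro ⟨o, c⟩
    change cinj (some ε) (x true i) (o, c) = 0 ∨ cinj (some ε) (x false i) (o, c) = 0
    rw [cinj_apply, cinj_apply]
    split_ifs
    exacts [h.disj i hi c, Or.inl rfl]

lemma IsAtom.cyl_none {b : K.B} {x : Raw K.B} (h : IsAtom K b x) :
    IsAtom (cyl K) (none, b) (cylRaw x) where
  tab := h.tab.cylRaw
  top α := by
    change cylRaw x α (K.deg b + 1) = _
    simp [cylRaw, h.top, h.zero _ _ (Nat.lt_succ_self _)]
  zero α i hi := by
    replace hi : K.deg b + 1 < i := hi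
    rw [cylRaw, h.zero _ i (by omega), h.zero _ (i - 1) (by omega)]
    simp
  disj i hi := by
    replace hi : i < K.deg b + 1 := hi
    rintro ⟨o, c⟩
    rcases i with _ | i
    · rcases o with _ | _ | _ <;> simp [cylRaw, cinj_apply]
    · rcases o with _ | _ | _
      · simpa [cylRaw, cinj_apply] using (h.disj i (by omega) c).symm
      · simp [cylRaw, cinj_apply]
      · simp [cylRaw, cinj_apply]

/-- The order on the basis of the cylinder. -/
def cylLt {B : Type} (lt : B → B → Prop) : Option Bool × B → Option Bool × B → Prop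
  | (none, a), (none, b) => lt b a
  | (some false, a), (some false, b) => lt a b
  | (some true, a), (some true, b) => lt a b
  | (some false, _), (none, _) => True
  | (some false, _), (some true, _) => True
  | (none, _), (some true, _) => True
  | (none, _), (some false, _) => False
  | (some true, _), (none, _) => False
  | (some true, _), (some false, _) => False

/-- The cylinder on a cell. -/
noncomputable def cylCell (x : Cell K) : Cell (cyl K) where
  val ε i := (if i = 0 then 0 else cinj none (x.val (!ε) (i - 1))) + cinj (some ε) (x.val ε i)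
  tab := x.tab.cylRaw
  fin := x.fin.elim fun n h => ⟨n + 1, rDim_cylRaw h⟩

lemma map_cylCell (f : K ⟶ L) (x : Cell K) :
    Cell.map (cylMap f) (cylCell x) = cylCell (Cell.map f x) := by
  refine Cell.ext (funext fun ε => funext fun i => ?_)
  change (cylMap f).f (cylRaw x.val ε i) = cylRaw (rmap f x.val) ε i
  simp only [cylRaw, rmap, map_add]
  split_ifs
  · rw [map_zero, cylMap_cinj]
  · rw [cylMap_cinj, cylMap_cinj]

lemma dim_cylCell {n : ℕ} {x : Cell K} (h : (nuObj K).Dim n x) :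
    (nuObj (cyl K)).Dim (n + 1) (cylCell x) := by
  exact (dim_iff_rDim _ _).2 (rDim_cylRaw ((dim_iff_rDim _ _).1 h))

instance [Good K] : Good (cyl K) := by
  constructor
  · rintro ⟨_ | ε, b⟩
    exacts [⟨_, (isAtom_atom b).cyl_none⟩, ⟨_, (isAtom_atom b).cyl_some ε⟩]
  · obtain ⟨lt, h₁, h₂, h₃⟩ := Good.order (K := K)
    refine ⟨cylLt lt, ?_, ?_, ?_⟩
    · rintro ⟨_ | _ | _, b⟩ <;> simp [cylLt, h₁]
    · rintro ⟨_ | _ | _, a⟩ ⟨_ | _ | _, b⟩ ⟨_ | _ | _, c⟩ <;> simp only [cylLt] <;> intro h h' <;>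
        first | trivial | exact h₂ _ _ _ h h' | exact h₂ _ _ _ h' h
    · rintro ⟨_ | ε, b⟩ ⟨o, c⟩
      · change (cylD K (Finsupp.single (none, b) 1) (o, c) < 0 → _) ∧
          (0 < cylD K (Finsupp.single (none, b) 1) (o, c) → _)
        have h₀ : (0 : ℤ) ≤ (Finsupp.single b 1 : K.B →₀ ℤ) c :=
          Finsupp.single_nonneg.2 zero_le_one c
        rw [cylD_none_apply]
        rcases o with _ | _ | _
        · exact ⟨fun h => (h₃ b c).2 (neg_lt_zero.1 h), fun h => (h₃ b c).1 (neg_pos.1 h)⟩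
        · exact ⟨fun _ => trivial, fun h => absurd (neg_pos.1 h) h₀.not_gt⟩
        · exact ⟨fun h => absurd h h₀.not_gt, fun _ => trivial⟩
      · change (cylD K (Finsupp.single (some ε, b) 1) (o, c) < 0 → _) ∧
          (0 < cylD K (Finsupp.single (some ε, b) 1) (o, c) → _)
        rw [cylD_single_some, cinj_apply]
        split_ifs with h
        · subst h
          cases ε <;> exact h₃ b c
        · exact ⟨fun h => absurd h (lt_irrefl _), fun h => absurd h (lt_irrefl _)⟩

lemma atom_cyl_some [Good K] (ε : Bool) (b : K.B) :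
    atom (K := cyl K) (some ε, b) = Cell.map (cylι K ε) (atom b) := by
  exact (eq_atom ((isAtom_atom b).cyl_some ε)).symm

lemma atom_cyl_none [Good K] (b : K.B) : atom (K := cyl K) (none, b) = cylCell (atom b) := by
  exact (eq_atom (isAtom_atom b).cyl_none).symm

/-- The cell `o ⊗ x`. -/
noncomputable def cylC (o : Option Bool) (x : Cell K) : Cell (cyl K) :=
  match o with
  | none => cylCell x
  | some ε => Cell.map (cylι K ε) x

lemma atom_cyl [Good K] (o : Option Bool) (b : K.B) :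
    atom (K := cyl K) (o, b) = cylC o (atom b) := by
  rcases o with _ | ε
  exacts [atom_cyl_none b, atom_cyl_some ε b]

lemma map_cylC (f : K ⟶ L) (o : Option Bool) (x : Cell K) :
    Cell.map (cylMap f) (cylC o x) = cylC o (Cell.map f x) := by
  rcases o with _ | ε
  · exact map_cylCell f x
  · exact Cell.ext (funext fun α => funext fun i => cylMap_cinj f (some ε) _)

lemma dim_cylC (o : Option Bool) {n : ℕ} {x : Cell K} (h : (nuObj K).Dim n x) :
    (nuObj (cyl K)).Dim (if o = none then n + 1 else n) (cylC o x) := by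
  rcases o with _ | ε
  · exact dim_cylCell h
  · exact (nuMap (cylι K ε)).map_dim h

end Vale.Agent.P213
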