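import Vale.Agent.P213.ChainsGood
import Vale.Agent.P213.Cyl

/-!
P213: removing a beat point of a finite poset is a zigzag of positive chain homotopies.

Plan. Let `𝒢` be the set of chains containing `v` and not `u`. For `g ∈ 𝒢`, `insert u g` is a
chain; put `e g = sgn g v`. For `S ⊆ 𝒢` let `H S = lin (fun c => if c ∈ S then e c • ch (insert u c)
else 0)` and `F S = id - d ∘ H S - H S ∘ d`: a chain map, degree and augmentation preserving.
On a basis element `c`:
* `v ∉ c`: `F S c = c`;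
* `u, v ∈ c`: `F S c = (1 - [c.erase u ∈ S]) c`;
* `c ∈ 𝒢`: `F S c = (1 - [c ∈ S]) c + [c ∈ S] (insert u (c.erase v)) +
  ∑ x ∈ c.erase v, η x c * ([c.erase x ∈ S] - [c ∈ S]) • ch (insert u (c.erase x))`, with
  `η x c = e c * sgn (insert u c) x = - sgn c x * e (c.erase x)`.
So `F S` is positive if `S` is an initial segment of a strict order `≺` on `𝒢` such that
`η = 1 → c.erase x ≺ c` and `η = -1 → c ≺ c.erase x`. Take `lt` from `exists_chain_order E` and
`lt'` from `exists_chain_order Eᵒᵈ`; with `up c = c.filter (v ≤ ·)`, `lo c = c.filter (· ≤ v)` put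
`c ≺ c' ↔ lt (up c) (up c') ∨ (up c = up c' ∧ lt' (lo c') (lo c))`
(for `v < x`, `η x c = - sgn (up c) x`; for `x < v`, `η x c` is the sign of `x` in `lo c` for the
dual order). If `g` is maximal in an initial segment `S`, then `F S` and `F (S.erase g)` differ by
`± (d h + h d)` with `h` sending `g` to `insert u g` and the other generators to zero: a `Step`
(`cylDesc`) in the direction given by `e g`. Induct on the card of `S`; `F ∅ = 𝟙`, `F 𝒢 = r ≫ j`.
-/

open CategoryTheory

namespace Vale.Agent.P213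

/-- A positive chain homotopy relative to `j`. -/
def Step {K' K : BADC} (j : K' ⟶ K) (F F' : K ⟶ K) : Prop :=
  ∃ H : cyl K ⟶ K, cylι K false ≫ H = F ∧ cylι K true ≫ H = F' ∧ cylMap j ≫ H = cylπ K' ≫ j

section
variable {K' K : BADC}

lemma bt_isDeg_sub {B : Type} {deg : B → ℕ} {i : ℕ} {x y : B →₀ ℤ} (hx : IsDeg deg i x)
    (hy : IsDeg deg i y) : IsDeg deg i (x - y) := fun b hb => by
  by_cases h : x b = 0
  · exact hy b (by simpa [h] using hb)
  · exact hx b h

lemma bt_isDeg_map {H : (K.B →₀ ℤ) →+ (K.B →₀ ℤ)}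
    (hH : ∀ b, IsDeg K.deg (K.deg b + 1) (H (Finsupp.single b 1))) {i : ℕ} {x : K.B →₀ ℤ}
    (hx : IsDeg K.deg i x) : IsDeg K.deg (i + 1) (H x) := fun c hc => by
  obtain ⟨b, hb, hb'⟩ := stb_apply_ne H hc
  rw [← hx b hb]
  exact hH b c hb'

lemma bt_exists_hom (H : (K.B →₀ ℤ) →+ (K.B →₀ ℤ))
    (hH : ∀ b, IsDeg K.deg (K.deg b + 1) (H (Finsupp.single b 1)))
    (hp : ∀ b, 0 ≤ Finsupp.single b 1 - (K.d (H (Finsupp.single b 1)) +
      H (K.d (Finsupp.single b 1)))) :
    ∃ F : K ⟶ K, ∀ x, F.f x = x - (K.d (H x) + H (K.d x)) := by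
  let f : (K.B →₀ ℤ) →+ (K.B →₀ ℤ) := AddMonoidHom.id _ - (K.d.comp H + H.comp K.d)
  have hf : ∀ x, f x = x - (K.d (H x) + H (K.d x)) := fun _ => rfl
  refine ⟨⟨f, fun x hx => ?_, fun i x hx => ?_, fun x => ?_, fun x hx => ?_⟩, hf⟩
  · rw [stb_sum f]
    exact Finset.sum_nonneg fun b _ => smul_nonneg (hx b) (hp b)
  · rw [hf, ← sub_sub]
    refine bt_isDeg_sub (bt_isDeg_sub hx (bt_isDeg_map hH hx).d) ?_
    cases i with
    | zero => rw [hx.d_zero, map_zero]; exact stb_isDeg_zero _ _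
    | succ i => exact bt_isDeg_map hH hx.d
  · simp only [hf, map_sub, map_add, K.d_d, map_zero]
    abel
  · rw [hf, hx.d_zero, map_zero, add_zero, map_sub, (bt_isDeg_map hH hx).aug_d, sub_zero]

lemma bt_step (j : K' ⟶ K) (H H' : (K.B →₀ ℤ) →+ (K.B →₀ ℤ)) (F F' : K ⟶ K)
    (hF : ∀ x, F.f x = x - (K.d (H x) + H (K.d x)))
    (hF' : ∀ x, F'.f x = x - (K.d (H' x) + H' (K.d x)))
    (hH : ∀ b, IsDeg K.deg (K.deg b + 1) (H (Finsupp.single b 1)))
    (hH' : ∀ b, IsDeg K.deg (K.deg b + 1) (H' (Finsupp.single b 1)))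
    (hj : ∀ x, H (j.f x) = 0) (hj' : ∀ x, H' (j.f x) = 0)
    (hp : ∀ b, H' (Finsupp.single b 1) ≤ H (Finsupp.single b 1)) : Step j F F' := by
  have h₁ : ∀ b, 0 ≤ (H - H') (Finsupp.single b 1) := fun b => sub_nonneg.2 (hp b)
  have h₂ : ∀ b, IsDeg K.deg (K.deg b + 1) ((H - H') (Finsupp.single b 1)) :=
    fun b => bt_isDeg_sub (hH b) (hH' b)
  have h₃ : ∀ x, K.d ((H - H') x) + (H - H') (K.d x) = F'.f x - F.f x := fun x => by
    simp only [hF, hF', AddMonoidHom.sub_apply, map_sub]
    abel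
  refine ⟨cylDesc F F' (H - H') h₁ h₂ h₃, cylι_desc_false .., cylι_desc_true ..,
    cyl_hom_ext fun o b => ?_⟩
  rw [BADC.comp_f, BADC.comp_f, cylMap_cinj]
  rcases o with _ | _ | _
  · rw [cylDesc_none, cylπ_none, map_zero, AddMonoidHom.sub_apply, hj, hj', sub_zero]
  · rw [cylDesc_false, cylπ_some, hF, hj, j.comm, hj]; simp
  · rw [cylDesc_true, cylπ_some, hF', hj', j.comm, hj']; simp

end

section
open Classical

variable {E : Type} [PartialOrder E] {u v : E}

lemma bt_sgn_sq (s : Finset E) (x : E) : sgn s x * sgn s x = 1 := by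
  unfold sgn
  rw [← pow_add, ← two_mul, pow_mul]; simp

lemma bt_sgn_cases (s : Finset E) (x : E) : sgn s x = 1 ∨ sgn s x = -1 := neg_one_pow_eq_or _ _

lemma bt_sgn_insert {s : Finset E} (hu : u ∉ s) (x : E) :
    sgn (insert u s) x = if u < x then - sgn s x else sgn s x := by
  have h := sgn_erase (s := insert u s) (Finset.mem_insert_self u s) x
  rw [Finset.erase_insert hu] at h
  split_ifs at h ⊢ <;> rw [h]; simp

/-- The chains containing `v` and not `u`. -/
def btG (u v : E) : Set (Finset E) := {s | IsCh s ∧ v ∈ s ∧ u ∉ s}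

noncomputable def bth (u v : E) (S : Set (Finset E)) (s : Finset E) : Chain E →₀ ℤ :=
  if s ∈ S then sgn s v • ch (insert u s) else 0

noncomputable def btH (u v : E) (S : Set (Finset E)) : (Chain E →₀ ℤ) →+ (Chain E →₀ ℤ) :=
  lin fun c : Chain E => bth u v S c.finset

noncomputable def btT (u v : E) (S : Set (Finset E)) (x : Chain E →₀ ℤ) : Chain E →₀ ℤ :=
  (chainsObj E).d (btH u v S x) + btH u v S ((chainsObj E).d x)

noncomputable def btI (S : Set (Finset E)) (s : Finset E) : ℤ := if s ∈ S then 1 else 0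

lemma bt_isCh_insert (huv : u < v) (hu : ∀ p, p < v → p ≤ u) {s : Finset E} (hs : IsCh s)
    (hv : v ∈ s) : IsCh (insert u s) := by
  have key : ∀ a ∈ s, u ≤ a ∨ a ≤ u := fun a ha => by
    rcases hs a ha v hv with h | h
    · rcases h.eq_or_lt with h | h
      · exact Or.inl (h ▸ huv.le)
      · exact Or.inr (hu a h)
    · exact Or.inl (huv.le.trans h)
  intro a ha b hb
  rcases Finset.mem_insert.1 ha with h | h <;> rcases Finset.mem_insert.1 hb with h' | h'
  exacts [Or.inl (h.trans h'.symm).le, h ▸ key b h', h' ▸ (key a h).symm, hs a h b h']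

lemma btH_ch {S : Set (Finset E)} (hS : S ⊆ btG u v) {s : Finset E} (hs : IsCh s) :
    btH u v S (ch s) = bth u v S s :=
  lin_ch _ (by rw [bth, if_neg fun h => by simpa using (hS h).2.1]) hs

lemma bt_d_ch {s : Finset E} (hs : IsCh s) : (chainsObj E).d (ch s) = dch s :=
  lin_ch dch (by simp [dch]) hs

lemma btT_ch {S : Set (Finset E)} (hS : S ⊆ btG u v) {s : Finset E} (hs : IsCh s) :
    btT u v S (ch s) = (chainsObj E).d (bth u v S s) +
      ∑ x ∈ s, sgn s x • bth u v S (s.erase x) := by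
  rw [btT, btH_ch hS hs, bt_d_ch hs, dch, map_sum]
  congr 1
  refine Finset.sum_congr rfl fun x _ => ?_
  rw [map_zsmul, btH_ch hS (hs.mono (Finset.erase_subset _ _))]

lemma btT_one {S : Set (Finset E)} (hS : S ⊆ btG u v) {s : Finset E} (hs : IsCh s)
    (hv : v ∉ s) : btT u v S (ch s) = 0 := by
  rw [btT_ch hS hs, bth, if_neg fun h => hv (hS h).2.1, map_zero, zero_add]
  refine Finset.sum_eq_zero fun x _ => ?_
  rw [bth, if_neg fun h => hv (Finset.mem_of_mem_erase (hS h).2.1), smul_zero]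

lemma bt_sgn_u (huv : u < v) (hu : ∀ p, p < v → p ≤ u) {s : Finset E} (h : u ∉ s) :
    sgn (insert u s) u = sgn s v := by
  rw [bt_sgn_insert h, if_neg (lt_irrefl u)]
  unfold sgn
  congr 2
  refine Finset.filter_congr fun p hp => ⟨fun h' => h'.trans huv, fun h' => ?_⟩
  exact lt_of_le_of_ne (hu p h') (by rintro rfl; exact h hp)

lemma bt_sgn_v (huv : u < v) {s : Finset E} (h : u ∉ s) :
    sgn (insert u s) v = - sgn s v := by
  rw [bt_sgn_insert h, if_pos huv]

lemma btT_two (huv : u < v) (hu : ∀ p, p < v → p ≤ u) {S : Set (Finset E)} (hS : S ⊆ btG u v)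
    {s : Finset E} (hs : IsCh s) (hu' : u ∈ s) :
    btT u v S (ch s) = btI S (s.erase u) • ch s := by
  rw [btT_ch hS hs, bth, if_neg fun h => (hS h).2.2 hu', map_zero, zero_add,
    Finset.sum_eq_single_of_mem u hu']
  · have e := bt_sgn_u huv hu (Finset.notMem_erase u s)
    rw [Finset.insert_erase hu'] at e
    rw [bth, btI]
    split_ifs
    · rw [Finset.insert_erase hu', smul_smul, e, bt_sgn_sq]
    · simp
  · intro x _ hx
    rw [bth, if_neg fun h => (hS h).2.2 (Finset.mem_erase.2 ⟨hx.symm, hu'⟩), smul_zero]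

/-- The sign governing the order on `btG`. -/
noncomputable def btη (u v : E) (s : Finset E) (x : E) : ℤ := sgn s v * sgn (insert u s) x

lemma btη_eq (huv : u < v) (hu : ∀ p, p < v → p ≤ u) {s : Finset E} (hs : s ∈ btG u v) {x : E}
    (hx : x ∈ s) (hxv : x ≠ v) : sgn s x * sgn (s.erase x) v = - btη u v s x := by
  rw [btη, bt_sgn_insert hs.2.2, sgn_erase hx]
  rcases hs.1 x hx v hs.2.1 with h | h
  · have h' := lt_of_le_of_ne h hxv
    rw [if_pos h', if_neg (hu x h').not_gt]; ring
  · have h' := lt_of_le_of_ne h hxv.symm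
    rw [if_neg h'.not_gt, if_pos (huv.trans h')]; ring

lemma btT_three (huv : u < v) (hu : ∀ p, p < v → p ≤ u) {S : Set (Finset E)}
    (hS : S ⊆ btG u v) {s : Finset E} (hs : s ∈ btG u v) :
    btT u v S (ch s) = btI S s • (ch s - ch (insert u (s.erase v))) +
      ∑ x ∈ s.erase v, (btη u v s x * (btI S s - btI S (s.erase x))) •
        ch (insert u (s.erase x)) := by
  have h₁ : (chainsObj E).d (bth u v S s) = btI S s • (ch s - ch (insert u (s.erase v))) +
      ∑ x ∈ s.erase v, (btη u v s x * btI S s) • ch (insert u (s.erase x)) := by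
    rw [bth, btI]
    split_ifs
    · rw [map_zsmul, bt_d_ch (bt_isCh_insert huv hu hs.1 hs.2.1), dch,
        Finset.sum_insert hs.2.2, Finset.erase_insert hs.2.2, bt_sgn_u huv hu hs.2.2,
        ← Finset.add_sum_erase _ _ hs.2.1, bt_sgn_v huv hs.2.2,
        Finset.erase_insert_of_ne huv.ne, smul_add, smul_add, smul_smul, smul_smul, mul_neg,
        bt_sgn_sq, Finset.smul_sum, one_smul, one_smul, neg_one_smul, ← add_assoc,
        ← sub_eq_add_neg]
      congr 1
      refine Finset.sum_congr rfl fun x hx => ?_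
      rw [smul_smul, mul_one, btη, Finset.erase_insert_of_ne]
      rintro rfl
      exact hs.2.2 (Finset.mem_of_mem_erase hx)
    · simp
  rw [btT_ch hS hs.1, h₁, ← Finset.add_sum_erase _ _ hs.2.1, bth,
    if_neg fun h => Finset.notMem_erase v s (hS h).2.1, smul_zero, zero_add, add_assoc,
    ← Finset.sum_add_distrib]
  congr 1
  refine Finset.sum_congr rfl fun x hx => ?_
  have e := btη_eq huv hu hs (Finset.mem_of_mem_erase hx) (Finset.ne_of_mem_erase hx)
  rw [bth, mul_sub, sub_smul, btI.eq_1 S (s.erase x)]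
  split_ifs
  · rw [smul_smul, e, mul_one, neg_smul, sub_eq_add_neg]
  · simp

lemma btH_deg {S : Set (Finset E)} (hS : S ⊆ btG u v) (b : Chain E) :
    IsDeg (chainsObj E).deg ((chainsObj E).deg b + 1) (btH u v S (Finsupp.single b 1)) := by
  intro c hc
  rw [← ch_finset, btH_ch hS b.isCh, bth] at hc
  split_ifs at hc with h
  · have e := finset_eq_of_ch_ne (s := insert u b.finset) (c := c) (fun h' => hc (by simp [h']))
    have := b.nonempty.card_pos
    change c.finset.card - 1 = b.finset.card - 1 + 1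
    rw [e, Finset.card_insert_of_notMem (hS h).2.2]
    omega
  · simp at hc

lemma bt_exists (huv : u < v) (hu : ∀ p, p < v → p ≤ u) {S : Set (Finset E)}
    (hS : S ⊆ btG u v) (hA : ∀ s ∈ btG u v, ∀ x ∈ s, x ≠ v →
      (0 < btη u v s x → s ∈ S → s.erase x ∈ S) ∧ (btη u v s x < 0 → s.erase x ∈ S → s ∈ S)) :
    ∃ F : chainsObj E ⟶ chainsObj E, ∀ x, F.f x = x - btT u v S x := by
  refine bt_exists_hom (K := chainsObj E) (btH u v S) (btH_deg hS) fun b => ?_
  change 0 ≤ Finsupp.single b 1 - btT u v S (Finsupp.single b 1)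
  rw [← ch_finset]
  have h₀ := ch_nonneg b.finset
  by_cases hv : v ∈ b.finset
  · by_cases hu' : u ∈ b.finset
    · rw [btT_two huv hu hS b.isCh hu', btI]
      split_ifs <;> simp [h₀]
    · rw [btT_three huv hu hS ⟨b.isCh, hv, hu'⟩, ← sub_sub, sub_eq_add_neg,
        ← Finset.sum_neg_distrib]
      refine add_nonneg ?_ (Finset.sum_nonneg fun x hx => ?_)
      · rw [btI]
        split_ifs <;> simp [h₀, ch_nonneg]
      · rw [← neg_smul]
        refine smul_nonneg ?_ (ch_nonneg _)
        obtain ⟨h₁, h₂⟩ := hA _ ⟨b.isCh, hv, hu'⟩ x (Finset.mem_of_mem_erase hx)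
          (Finset.ne_of_mem_erase hx)
        unfold btI
        split_ifs with h₃ h₄ h₄
        · simp
        · have := mt (fun h => h₁ h h₃) h₄
          simp only [sub_zero, mul_one]; omega
        · have := mt (fun h => h₂ h h₄) h₃
          simp only [zero_sub, mul_neg, mul_one]; omega
        · simp
  · rw [btT_one hS b.isCh hv, sub_zero]; exact h₀

lemma bt_order (huv : u < v) (hu : ∀ p, p < v → p ≤ u) :
    ∃ lt : Finset E → Finset E → Prop, (∀ a, ¬ lt a a) ∧ (∀ a b c, lt a b → lt b c → lt a c) ∧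
      ∀ s ∈ btG u v, ∀ x ∈ s, x ≠ v →
        (0 < btη u v s x → lt (s.erase x) s) ∧ (btη u v s x < 0 → lt s (s.erase x)) := by
  obtain ⟨l, l₁, l₂, l₃⟩ := exists_chain_order E
  obtain ⟨m, m₁, m₂, m₃⟩ : ∃ lt : Finset E → Finset E → Prop, (∀ a, ¬ lt a a) ∧
      (∀ a b c, lt a b → lt b c → lt a c) ∧ ∀ (s : Finset E) (x : E), IsCh (E := Eᵒᵈ) s → x ∈ s →
      (((-1) ^ (s.filter (x < ·)).card : ℤ) < 0 → lt (s.erase x) s) ∧
      (0 < ((-1) ^ (s.filter (x < ·)).card : ℤ) → lt s (s.erase x)) := exists_chain_order Eᵒᵈ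
  refine ⟨fun a b => l (a.filter (v ≤ ·)) (b.filter (v ≤ ·)) ∨
    (a.filter (v ≤ ·) = b.filter (v ≤ ·) ∧ m (b.filter (· ≤ v)) (a.filter (· ≤ v))),
    fun a h => h.elim (l₁ _) (fun h => m₁ _ h.2), fun a b c h h' => ?_, fun s hs x hx hxv => ?_⟩
  · rcases h with h | h <;> rcases h' with h' | h'
    · exact Or.inl (l₂ _ _ _ h h')
    · exact Or.inl (h'.1 ▸ h)
    · exact Or.inl (h.1 ▸ h')
    · exact Or.inr ⟨h.1.trans h'.1, m₂ _ _ _ h'.2 h.2⟩
  · rw [btη, bt_sgn_insert hs.2.2]
    rcases hs.1 x hx v hs.2.1 with h | h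
    · have h' := lt_of_le_of_ne h hxv
      have e : sgn s v * sgn s x = (-1) ^ ((s.filter (· ≤ v)).filter (x < ·)).card := by
        have e₁ : (s.filter (· ≤ v)).card = (s.filter (· < v)).card + 1 := by
          rw [← Finset.card_insert_of_notMem (a := v) (by simp)]
          congr 1
          ext y
          simp only [Finset.mem_filter, Finset.mem_insert, le_iff_eq_or_lt]
          constructor
          · rintro ⟨h₁, h₂ | h₂⟩
            exacts [Or.inl h₂, Or.inr ⟨h₁, h₂⟩]
          · rintro (rfl | h₁)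
            exacts [⟨hs.2.1, Or.inl rfl⟩, ⟨h₁.1, Or.inr h₁.2⟩]
        have e₂ : ((s.filter (· ≤ v)).filter (fun y => ¬ x < y)).card =
            (s.filter (· < x)).card + 1 := by
          rw [← Finset.card_insert_of_notMem (a := x) (by simp)]
          congr 1
          ext y
          simp only [Finset.mem_filter, Finset.mem_insert]
          constructor
          · rintro ⟨⟨h₁, -⟩, h₂⟩
            rcases hs.1 y h₁ x hx with h₃ | h₃
            · exact h₃.eq_or_lt.imp_right fun h₄ => ⟨h₁, h₄⟩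
            · exact Or.inl ((h₃.eq_or_lt.resolve_right h₂).symm)
          · rintro (rfl | h₁)
            exacts [⟨⟨hx, h⟩, lt_irrefl _⟩, ⟨⟨h₁.1, h₁.2.le.trans h⟩, h₁.2.not_gt⟩]
        have e₃ := Finset.card_filter_add_card_filter_not (s := s.filter (· ≤ v)) (x < ·)
        have e₄ : (s.filter (· < v)).card = ((s.filter (· ≤ v)).filter (x < ·)).card +
            (s.filter (· < x)).card := by omega
        have e₅ := bt_sgn_sq s x
        unfold sgn at e₅ ⊢
        rw [e₄, pow_add, mul_assoc, e₅, mul_one]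
      have hx' : x ∈ s.filter (· ≤ v) := Finset.mem_filter.2 ⟨hx, h⟩
      obtain ⟨n₁, n₂⟩ := m₃ (s.filter (· ≤ v)) x
        (fun a ha b hb => (hs.1 a (Finset.mem_filter.1 ha).1 b (Finset.mem_filter.1 hb).1).symm) hx'
      have e' : (s.erase x).filter (v ≤ ·) = s.filter (v ≤ ·) := by
        rw [Finset.filter_erase, Finset.erase_eq_of_notMem (by simp [h'.not_ge])]
      rw [← Finset.filter_erase] at n₁ n₂
      rw [if_neg (hu x h').not_gt, e]
      exact ⟨fun h₁ => Or.inr ⟨e', n₂ h₁⟩, fun h₁ => Or.inr ⟨e'.symm, n₁ h₁⟩⟩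
    · have h' := lt_of_le_of_ne h hxv.symm
      have e : sgn s v * sgn s x = sgn (s.filter (v ≤ ·)) x := by
        have e₁ : (s.filter (· < x)).filter (fun y => ¬ v ≤ y) = s.filter (· < v) := by
          ext y
          simp only [Finset.mem_filter]
          constructor
          · rintro ⟨⟨h₁, -⟩, h₂⟩
            exact ⟨h₁, lt_of_le_not_ge ((hs.1 y h₁ v hs.2.1).resolve_right h₂) h₂⟩
          · rintro ⟨h₁, h₂⟩
            exact ⟨⟨h₁, h₂.trans h'⟩, h₂.not_ge⟩
        have e₃ := Finset.card_filter_add_card_filter_not (s := s.filter (· < x)) (v ≤ ·)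
        rw [e₁, Finset.filter_comm] at e₃
        have e₅ := bt_sgn_sq s v
        unfold sgn at e₅ ⊢
        rw [← e₃, pow_add, mul_left_comm, e₅, mul_one]
      have hx' : x ∈ s.filter (v ≤ ·) := Finset.mem_filter.2 ⟨hx, h⟩
      obtain ⟨n₁, n₂⟩ := l₃ (s.filter (v ≤ ·)) x (hs.1.mono (Finset.filter_subset _ _)) hx'
      rw [← Finset.filter_erase] at n₁ n₂
      rw [if_pos (huv.trans h'), mul_neg, e]
      exact ⟨fun h₁ => Or.inl (n₁ (by omega)), fun h₁ => Or.inl (n₂ (by omega))⟩

end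

open Classical in
theorem beat_zigzag {E E' : Type} [PartialOrder E] [PartialOrder E'] [Finite E] (u v : E)
    (huv : u < v) (hu : ∀ p, p < v → p ≤ u) (j : E' →o E) (hj : ∀ x, j x ≠ v) (r : E →o E')
    (hr : ∀ x, x ≠ v → j (r x) = x) (hv : j (r v) = u) :
    Relation.EqvGen (Step (chainsMap j)) (𝟙 _) (chainsMap r ≫ chainsMap j) := by
  obtain ⟨lt, l₁, l₂, l₃⟩ := bt_order huv hu
  have hG : ∀ s ∈ btG u v, ∀ x, x ≠ v → s.erase x ∈ btG u v := fun s hs x hx =>
    ⟨hs.1.mono (Finset.erase_subset _ _), Finset.mem_erase.2 ⟨hx.symm, hs.2.1⟩,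
      fun h => hs.2.2 (Finset.mem_of_mem_erase h)⟩
  have hj₀ : ∀ S, S ⊆ btG u v → ∀ x, btH u v S ((chainsMap j).f x) = 0 := fun S hS x => by
    refine (stb_congr ((btH u v S).comp (chainsMap j).f) 0 x fun b _ => ?_)
    rw [AddMonoidHom.comp_apply, ← ch_finset, chainsMap_ch _ b.isCh, chImage]
    split_ifs
    · rw [btH_ch hS (b.isCh.image j), bth, if_neg]
      · rfl
      · intro h
        obtain ⟨y, -, hy⟩ := Finset.mem_image.1 (hS h).2.1
        exact hj y hy
    · exact map_zero _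
  have key : ∀ (k : ℕ) (S : Finset (Finset E)), S.card = k → ↑S ⊆ btG u v →
      (∀ a ∈ btG u v, ∀ b ∈ S, lt a b → a ∈ S) → ∀ F : chainsObj E ⟶ chainsObj E,
      (∀ x, F.f x = x - btT u v S x) → Relation.EqvGen (Step (chainsMap j)) (𝟙 _) F := by
    intro k
    induction k with
    | zero =>
      intro S hk _ _ F hF
      obtain rfl := Finset.card_eq_zero.1 hk
      have h₀ : btH u v ((∅ : Finset (Finset E)) : Set (Finset E)) = 0 :=
        addHom_ext fun b => by simp [btH, bth]
      have : 𝟙 _ = F := BADC.hom_ext fun b => by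
        rw [hF, btT, h₀, BADC.id_f]; simp
      exact this ▸ Relation.EqvGen.refl _
    | succ k ih =>
      intro S hk hS hI F hF
      obtain ⟨g, hg, hg'⟩ := stb_exists_min (fun a b => lt b a) l₁ (fun a b c h h' => l₂ _ _ _ h' h)
        (Finset.card_pos.1 (by omega : 0 < S.card))
      have hS' : (↑(S.erase g) : Set (Finset E)) ⊆ btG u v :=
        fun a ha => hS (Finset.mem_of_mem_erase ha)
      have hI' : ∀ a ∈ btG u v, ∀ b ∈ S.erase g, lt a b → a ∈ S.erase g := fun a ha b hb h =>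
        Finset.mem_erase.2 ⟨by rintro rfl; exact hg' b (Finset.mem_of_mem_erase hb) h,
          hI a ha b (Finset.mem_of_mem_erase hb) h⟩
      obtain ⟨F', hF'⟩ := bt_exists huv hu hS' fun s hs x hx hxv =>
        ⟨fun h h' => hI' _ (hG s hs x hxv) _ h' ((l₃ s hs x hx hxv).1 h),
          fun h h' => hI' _ hs _ h' ((l₃ s hs x hx hxv).2 h)⟩
      refine .trans _ _ _ (ih _ (by rw [Finset.card_erase_of_mem hg]; omega) hS' hI' F' hF') ?_
      have hb : ∀ b : Chain E, btH u v S (Finsupp.single b 1) =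
          btH u v ↑(S.erase g) (Finsupp.single b 1) +
            if b.finset = g then sgn g v • ch (insert u g) else 0 := fun b => by
        rw [← ch_finset, btH_ch hS b.isCh, btH_ch hS' b.isCh, bth, bth]
        by_cases h : b.finset = g
        · simp [h, hg]
        · simp [h]
      rcases bt_sgn_cases g v with h | h
      · refine .symm _ _ (.rel _ _ (bt_step _ _ _ F F' hF hF' (btH_deg hS) (btH_deg hS')
          (hj₀ _ hS) (hj₀ _ hS') fun b => ?_))
        rw [hb, h]
        split_ifs <;> simp [ch_nonneg]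
      · refine .rel _ _ (bt_step _ _ _ F' F hF' hF (btH_deg hS') (btH_deg hS)
          (hj₀ _ hS') (hj₀ _ hS) fun b => ?_)
        rw [hb, h]
        split_ifs <;> simp [ch_nonneg]
  have hfin : (btG u v).Finite := Set.toFinite _
  refine key _ hfin.toFinset rfl (by simp) (fun a ha _ _ _ => by simpa using ha) _ fun x => ?_
  rw [hfin.coe_toFinset, ← chainsMap_comp]
  refine stb_congr _ (AddMonoidHom.id _ - ((chainsObj E).d.comp (btH u v (btG u v)) +
    (btH u v (btG u v)).comp (chainsObj E).d)) x fun b _ => ?_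
  change _ = Finsupp.single b 1 - btT u v (btG u v) (Finsupp.single b 1)
  rw [← ch_finset, chainsMap_ch _ b.isCh, chImage]
  by_cases h₁ : v ∈ b.finset
  · by_cases h₂ : u ∈ b.finset
    · have hb : b.finset.erase u ∈ btG u v := ⟨b.isCh.mono (Finset.erase_subset _ _),
        Finset.mem_erase.2 ⟨huv.ne', h₁⟩, Finset.notMem_erase _ _⟩
      rw [btT_two huv hu subset_rfl b.isCh h₂, btI, if_pos hb, if_neg]
      · simp
      · intro h
        exact huv.ne (h h₂ h₁ ((hr u huv.ne).trans hv.symm))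
    · have hb : b.finset ∈ btG u v := ⟨b.isCh, h₁, h₂⟩
      rw [btT_three huv hu subset_rfl hb, Finset.sum_eq_zero, btI, if_pos hb, if_pos]
      · rw [one_smul, add_zero, sub_sub_cancel]
        congr 1
        ext y
        simp only [Finset.mem_image, Finset.mem_insert, Finset.mem_erase, OrderHom.comp_coe,
          Function.comp_apply]
        constructor
        · rintro ⟨a, ha, rfl⟩
          by_cases h : a = v
          · exact Or.inl (h ▸ hv)
          · rw [hr a h]; exact Or.inr ⟨h, ha⟩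
        · rintro (rfl | ⟨h, ha⟩)
          exacts [⟨v, h₁, hv⟩, ⟨y, ha, hr y h⟩]
      · intro a ha c hc h
        change j (r a) = j (r c) at h
        by_cases h₃ : a = v <;> by_cases h₄ : c = v
        · rw [h₃, h₄]
        · rw [h₃, hv, hr c h₄] at h; exact absurd (h ▸ hc) h₂
        · rw [h₄, hv, hr a h₃] at h; exact absurd (h ▸ ha) h₂
        · rwa [hr a h₃, hr c h₄] at h
      · intro y hy
        rw [btI, btI, if_pos hb, if_pos (hG _ hb y (Finset.ne_of_mem_erase hy))]
        simp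
  · have h₂ : ∀ a ∈ b.finset, j (r a) = a := fun a ha => hr a (by rintro rfl; exact h₁ ha)
    rw [btT_one subset_rfl b.isCh h₁, sub_zero, if_pos]
    · congr 1
      ext y
      simp only [Finset.mem_image, OrderHom.comp_coe, Function.comp_apply]
      exact ⟨fun ⟨a, ha, e⟩ => e ▸ (h₂ a ha).symm ▸ ha, fun h => ⟨y, h, h₂ y h⟩⟩
    · intro a ha c hc h
      change j (r a) = j (r c) at h
      rwa [h₂ a ha, h₂ c hc] at h

end Vale.Agent.P213
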