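import Vale.Agent.P213.ADC

/-!
P213. Simplices of the nerve of a poset as a basis; faces and images.
-/

open CategoryTheory

namespace Vale.Agent.P213

/-- The additive map given by its values on the basis. -/
noncomputable def lin {B B' : Type} (g : B → (B' →₀ ℤ)) : Lin B B' :=
  Finsupp.liftAddHom (fun b => zmultiplesHom _ (g b))

/-- Nonempty finite chains of a poset: the nondegenerate simplices of its nerve. -/
abbrev Chain (E : Type) [PartialOrder E] : Type := PartialOrder.NonemptyFiniteChains E

section
variable {E F : Type} [PartialOrder E] [PartialOrder F]

/-- The elements of `s` are pairwise comparable. -/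
def IsCh (s : Finset E) : Prop := ∀ a ∈ s, ∀ b ∈ s, a ≤ b ∨ b ≤ a

open Classical in
/-- The basis element of a finite set, zero unless the set is a nonempty chain. -/
noncomputable def ch (s : Finset E) : Chain E →₀ ℤ :=
  if h : s.Nonempty ∧ IsCh s then
    Finsupp.single ⟨s, h.1, fun a b => h.2 a.1 a.2 b.1 b.2⟩ 1
  else 0

open Classical in
/-- `(-1)^j` where `x` is the `j`-th element of `s`, counting from zero. -/
noncomputable def sgn (s : Finset E) (x : E) : ℤ := (-1) ^ (s.filter (· < x)).card

open Classical in
/-- The alternating sum of the faces. -/
noncomputable def dch (s : Finset E) : Chain E →₀ ℤ := ∑ x ∈ s, sgn s x • ch (s.erase x)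

open Classical in
/-- The image of a simplex under a monotone map, zero if the image is degenerate. -/
noncomputable def chImage (f : E →o F) (s : Finset E) : Chain F →₀ ℤ :=
  if Set.InjOn f s then ch (s.image f) else 0

end

end Vale.Agent.P213
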