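import Vale.Agent.P213.ChDefs

/-!
P213. Lemmas on chains of a poset.
-/

open CategoryTheory

namespace Vale.Agent.P213

@[simp] lemma lin_single {B B' : Type} (g : B → (B' →₀ ℤ)) (b : B) (n : ℤ) :
    lin g (Finsupp.single b n) = n • g b := by
  simp [lin]

@[simp] lemma aug_single {B : Type} (b : B) (n : ℤ) : aug (Finsupp.single b n) = n := by
  simp [aug]

lemma addHom_ext {B M : Type} [AddCommGroup M] {f g : (B →₀ ℤ) →+ M}
    (h : ∀ b, f (Finsupp.single b 1) = g (Finsupp.single b 1)) : f = g := by
  ext b
  simpa using h b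

lemma lin_apply {B B' : Type} (g : B → (B' →₀ ℤ)) (x : B →₀ ℤ) :
    lin g x = ∑ b ∈ x.support, x b • g b := by
  simp [lin, Finsupp.liftAddHom_apply, Finsupp.sum]

/-- A morphism of complexes given by its values on the basis. -/
noncomputable def BADC.homMk {K L : BADC} (g : K.B → (L.B →₀ ℤ)) (h₁ : ∀ b, 0 ≤ g b)
    (h₂ : ∀ b, IsDeg L.deg (K.deg b) (g b))
    (h₃ : ∀ b, L.d (g b) = lin g (K.d (Finsupp.single b 1)))
    (h₄ : ∀ b, K.deg b = 0 → aug (g b) = 1) : K ⟶ L where
  f := lin g
  nonneg x hx := by
    rw [lin_apply]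
    exact Finset.sum_nonneg fun b _ => smul_nonneg (hx b) (h₁ b)
  deg i x hx c hc := by
    rw [lin_apply, Finsupp.finsetSum_apply] at hc
    obtain ⟨b, hb, hb'⟩ := Finset.exists_ne_zero_of_sum_ne_zero hc
    rw [← hx b (Finsupp.mem_support_iff.1 hb)]
    refine h₂ b c fun h => hb' ?_
    simp [h]
  comm x := by
    have : L.d.comp (lin g) = (lin g).comp K.d := addHom_ext fun b => by simpa using h₃ b
    exact DFunLike.congr_fun this x
  aug x hx := by
    rw [lin_apply, map_sum]
    conv_rhs => rw [← Finsupp.sum_single x, Finsupp.sum, map_sum]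
    refine Finset.sum_congr rfl fun b hb => ?_
    rw [map_zsmul, h₄ b (hx b (Finsupp.mem_support_iff.1 hb))]
    simp

section
variable {E F : Type} [PartialOrder E] [PartialOrder F]

lemma Chain.isCh (c : Chain E) : IsCh c.finset := fun a ha b hb => c.comparable ⟨a, ha⟩ ⟨b, hb⟩

lemma IsCh.mono {s t : Finset E} (h : IsCh t) (hst : s ⊆ t) : IsCh s :=
  fun a ha b hb => h a (hst ha) b (hst hb)

lemma ch_finset (c : Chain E) : ch c.finset = Finsupp.single c 1 := by
  rw [ch, dif_pos ⟨c.nonempty, c.isCh⟩]

@[simp] lemma ch_empty : ch (∅ : Finset E) = 0 := by simp [ch]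

lemma ch_nonneg (s : Finset E) : 0 ≤ ch s := by
  unfold ch; split_ifs
  · exact Finsupp.single_nonneg.2 zero_le_one
  · exact le_rfl

lemma finset_eq_of_ch_ne {s : Finset E} {c : Chain E} (h : ch s c ≠ 0) : c.finset = s := by
  unfold ch at h; split_ifs at h
  · rw [(Finsupp.single_apply_ne_zero.1 h).1]
  · simp at h

lemma lin_ch {B : Type} (g : Finset E → (B →₀ ℤ)) (hg : g ∅ = 0) {s : Finset E} (hs : IsCh s) :
    lin (fun c : Chain E => g c.finset) (ch s) = g s := by
  unfold ch; split_ifs with h
  · simp
  · obtain rfl : s = ∅ := by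
      by_contra h'
      exact h ⟨Finset.nonempty_iff_ne_empty.2 h', hs⟩
    simp [hg]

lemma aug_ch {s : Finset E} (h : s.Nonempty) (hs : IsCh s) : aug (ch s) = 1 := by
  rw [ch, dif_pos ⟨h, hs⟩, aug_single]

open Classical in
lemma sgn_erase {s : Finset E} {x : E} (hx : x ∈ s) (y : E) :
    sgn (s.erase x) y = if x < y then - sgn s y else sgn s y := by
  unfold sgn
  rw [Finset.filter_erase]
  split_ifs with h
  · have hx' : x ∈ s.filter (· < y) := Finset.mem_filter.2 ⟨hx, h⟩
    rw [← Finset.card_erase_add_one hx', pow_succ]; ring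
  · rw [Finset.erase_eq_of_notMem (by simp [h])]

lemma lin_dch_dch {s : Finset E} (hs : IsCh s) :
    lin (fun c : Chain E => dch c.finset) (dch s) = 0 := by
  classical
  have h₁ : lin (fun c : Chain E => dch c.finset) (dch s) =
      ∑ x ∈ s, ∑ y ∈ s, (if x = y then 0 else sgn s x * sgn (s.erase x) y) •
        ch ((s.erase x).erase y) := by
    rw [dch, map_sum]
    refine Finset.sum_congr rfl fun x hx => ?_
    rw [map_zsmul, lin_ch dch (by simp [dch]) (hs.mono (by convert Finset.erase_subset x s)), dch,
      Finset.smul_sum, ← Finset.add_sum_erase s _ hx]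
    simp only [if_true, zero_smul, zero_add]
    refine Finset.sum_congr (by congr) fun y hy => ?_
    rw [if_neg (Finset.ne_of_mem_erase hy).symm, smul_smul]
  have h₂ : lin (fun c : Chain E => dch c.finset) (dch s) =
      - lin (fun c : Chain E => dch c.finset) (dch s) := by
    conv_lhs => rw [h₁, Finset.sum_comm]
    rw [h₁, ← Finset.sum_neg_distrib]
    refine Finset.sum_congr rfl fun x hx => ?_
    rw [← Finset.sum_neg_distrib]
    refine Finset.sum_congr rfl fun y hy => ?_
    rw [Finset.erase_right_comm, ← neg_smul]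
    congr 1
    by_cases hxy : x = y
    · simp [hxy]
    · rw [if_neg hxy, if_neg (Ne.symm hxy)]
      have e₁ := sgn_erase hx y
      have e₂ := sgn_erase hy x
      rcases hs x hx y hy with h | h
      · have h' : x < y := lt_of_le_of_ne h hxy
        rw [if_pos h'] at e₁
        rw [if_neg h'.not_gt] at e₂
        rw [show sgn (s.erase y) x = sgn s x by convert e₂,
          show sgn (s.erase x) y = - sgn s y by convert e₁]; ring
      · have h' : y < x := lt_of_le_of_ne h (Ne.symm hxy)
        rw [if_pos h'] at e₂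
        rw [if_neg h'.not_gt] at e₁
        rw [show sgn (s.erase y) x = - sgn s x by convert e₂,
          show sgn (s.erase x) y = sgn s y by convert e₁]; ring
  ext c
  have := DFunLike.congr_fun h₂ c
  simp only [Finsupp.coe_neg, Pi.neg_apply] at this
  simp only [Finsupp.coe_zero, Pi.zero_apply]
  omega

open Classical in
lemma IsCh.image {s : Finset E} (hs : IsCh s) (f : E →o F) : IsCh (s.image f) := by
  intro a ha b hb
  obtain ⟨a, ha', rfl⟩ := Finset.mem_image.1 ha
  obtain ⟨b, hb', rfl⟩ := Finset.mem_image.1 hb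
  exact (hs a ha' b hb').imp (fun h => f.monotone h) (fun h => f.monotone h)

lemma chImage_empty (f : E →o F) : chImage f ∅ = 0 := by simp [chImage]

lemma d_chImage (f : E →o F) {s : Finset E} (hs : IsCh s) :
    lin (fun c : Chain F => dch c.finset) (chImage f s) =
      lin (fun c : Chain E => chImage f c.finset) (dch s) := by
  classical
  have h₀ : lin (fun c : Chain E => chImage f c.finset) (dch s) =
      ∑ x ∈ s, sgn s x • chImage f (s.erase x) := by
    rw [dch, map_sum]
    refine Finset.sum_congr rfl fun x _ => ?_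
    rw [map_zsmul, lin_ch _ (chImage_empty f) (hs.mono (by convert Finset.erase_subset x s))]
  rw [h₀]
  by_cases hf : Set.InjOn f s
  · rw [chImage, if_pos hf, lin_ch dch (by simp [dch]) (by convert hs.image f), dch,
      Finset.sum_image (fun a ha b hb h => hf ha hb h)]
    refine Finset.sum_congr rfl fun x hx => ?_
    rw [chImage, if_pos (hf.mono (by simp))]
    congr 1
    · unfold sgn
      congr 1
      rw [← Finset.card_image_of_injOn (hf.mono (s₁ := ↑(s.filter (· < x)))
        (Finset.coe_subset.2 (Finset.filter_subset _ _)))]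
      congr 1
      ext y
      simp only [Finset.mem_filter, Finset.mem_image]
      constructor
      · rintro ⟨⟨a, ha, rfl⟩, h⟩
        refine ⟨a, ⟨ha, ?_⟩, rfl⟩
        rcases hs a ha x hx with h' | h'
        · exact lt_of_le_of_ne h' (by rintro rfl; exact lt_irrefl _ h)
        · exact absurd h (f.monotone h').not_gt
      · rintro ⟨a, ⟨ha, h⟩, rfl⟩
        exact ⟨⟨a, ha, rfl⟩, lt_of_le_of_ne (f.monotone h.le) fun e => h.ne (hf ha hx e)⟩
    · congr 1
      ext y
      simp only [Finset.mem_erase, Finset.mem_image]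
      constructor
      · rintro ⟨h, a, ha, rfl⟩
        exact ⟨a, ⟨by rintro rfl; exact h rfl, ha⟩, rfl⟩
      · rintro ⟨a, ⟨h, ha⟩, rfl⟩
        exact ⟨fun e => h (hf ha hx e), a, ha, rfl⟩
  · rw [chImage, if_neg hf, map_zero]
    obtain ⟨a, ha, b, hb, hab, hlt⟩ : ∃ a ∈ s, ∃ b ∈ s, f a = f b ∧ a < b := by
      simp only [Set.InjOn, not_forall] at hf
      obtain ⟨a, ha, b, hb, hab, hne⟩ := hf
      rcases hs a ha b hb with h | h
      · exact ⟨a, ha, b, hb, hab, lt_of_le_of_ne h hne⟩
      · exact ⟨b, hb, a, ha, hab.symm, lt_of_le_of_ne h (Ne.symm hne)⟩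
    have key : ∀ x u v, u ∈ s → v ∈ s → u ≠ v → f u = f v → u ≠ x → v ≠ x →
        chImage f (s.erase x) = 0 := by
      intro x u v hu hv huv e hux hvx
      rw [chImage, if_neg]
      intro h
      exact huv (h (by simp [hu, hux]) (by simp [hv, hvx]) e)
    by_cases hz : ∃ z ∈ s, a < z ∧ z < b
    · obtain ⟨z, hz, h₁, h₂⟩ := hz
      have e : f z = f a := le_antisymm (hab ▸ f.monotone h₂.le) (f.monotone h₁.le)
      refine (Finset.sum_eq_zero fun x _ => ?_).symm
      by_cases hxa : a = x
      · rw [key x z b hz hb h₂.ne (e.trans hab) (hxa ▸ h₁.ne') (hxa ▸ hlt.ne'), smul_zero]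
      · by_cases hxb : b = x
        · rw [key x a z ha hz h₁.ne e.symm hxa (hxb ▸ h₂.ne), smul_zero]
        · rw [key x a b ha hb hlt.ne hab hxa hxb, smul_zero]
    · rw [← Finset.sum_subset (s₁ := {a, b}) (by intro x; simp; rintro (rfl | rfl) <;> assumption)
        (fun x _ hx => by
          simp only [Finset.mem_insert, Finset.mem_singleton, not_or] at hx
          rw [key x a b ha hb hlt.ne hab (Ne.symm hx.1) (Ne.symm hx.2), smul_zero]),
        Finset.sum_pair hlt.ne]
      have e₁ : (s.erase a).image f = (s.erase b).image f := by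
        ext y
        simp only [Finset.mem_erase, Finset.mem_image]
        constructor
        · rintro ⟨u, ⟨h, hu⟩, rfl⟩
          by_cases hub : u = b
          · exact ⟨a, ⟨hlt.ne, ha⟩, by rw [hub, hab]⟩
          · exact ⟨u, ⟨hub, hu⟩, rfl⟩
        · rintro ⟨u, ⟨h, hu⟩, rfl⟩
          by_cases hua : u = a
          · exact ⟨b, ⟨hlt.ne', hb⟩, by rw [hua, hab]⟩
          · exact ⟨u, ⟨hua, hu⟩, rfl⟩
      have e₂ : chImage f (s.erase a) = chImage f (s.erase b) := by
        have : Set.InjOn f ↑(s.erase a) ↔ Set.InjOn f ↑(s.erase b) := by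
          rw [← Finset.card_image_iff, ← Finset.card_image_iff, Finset.card_erase_of_mem ha,
            Finset.card_erase_of_mem hb, e₁]
        by_cases h : Set.InjOn f ↑(s.erase a)
        · rw [chImage, chImage, if_pos h, if_pos (this.1 h), e₁]
        · rw [chImage, chImage, if_neg h, if_neg (fun h' => h (this.2 h'))]
      have e₃ : sgn s b = - sgn s a := by
        unfold sgn
        have : s.filter (· < b) = insert a (s.filter (· < a)) := by
          ext u
          simp only [Finset.mem_filter, Finset.mem_insert]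
          constructor
          · rintro ⟨hu, h⟩
            rcases hs u hu a ha with h' | h'
            · rcases h'.eq_or_lt with h'' | h''
              · exact Or.inl h''
              · exact Or.inr ⟨hu, h''⟩
            · rcases h'.eq_or_lt with h'' | h''
              · exact Or.inl h''.symm
              · exact absurd ⟨u, hu, h'', h⟩ hz
          · rintro (rfl | ⟨hu, h⟩)
            · exact ⟨ha, hlt⟩
            · exact ⟨hu, h.trans hlt⟩
        rw [show (Finset.filter (· < b) s).card = (Finset.filter (· < a) s).card + 1 by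
          convert (congrArg Finset.card this).trans (Finset.card_insert_of_notMem (by simp)),
          pow_succ]
        ring
      rw [e₂, e₃]; simp

end

end Vale.Agent.P213
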