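import Vale.Agent.P213.ChLem

/-!
P213. The normalized chain complex of the nerve of a poset, Street's orientals (in Steiner's
description `O_m = nu (C Δ^m)`), and the Street nerve.
-/

open CategoryTheory

namespace Vale.Agent.P213

/-- The normalized chain complex of the nerve of the poset `E`. -/
@[reducible]
noncomputable def chainsObj (E : Type) [PartialOrder E] : BADC where
  B := Chain E
  deg c := c.finset.card - 1
  d := lin (fun c => dch c.finset)
  d_deg b c h := by
    classical
    rw [lin_single, one_smul, dch, Finsupp.finsetSum_apply] at h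
    obtain ⟨x, hx, hx'⟩ := Finset.exists_ne_zero_of_sum_ne_zero h
    have e := finset_eq_of_ch_ne (s := b.finset.erase x) (c := c) (fun h => hx' (by simp [h]))
    have h₁ := c.nonempty.card_pos
    rw [e] at h₁ ⊢
    rw [Finset.card_erase_of_mem hx] at h₁ ⊢
    omega
  d_d x := by
    have : (lin (fun c : Chain E => dch c.finset)).comp (lin (fun c : Chain E => dch c.finset))
        = 0 := addHom_ext fun b => by simpa using lin_dch_dch b.isCh
    exact DFunLike.congr_fun this x
  aug_d b h := by
    classical
    obtain ⟨x, y, hxy, e⟩ := Finset.card_eq_two.1 (show b.finset.card = 2 by omega)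
    have hb := b.isCh
    rw [lin_single, one_smul, dch, map_sum]
    have h₁ : ∀ z ∈ b.finset, aug (sgn b.finset z • ch (b.finset.erase z)) = sgn b.finset z := by
      intro z hz
      rw [map_zsmul, aug_ch _ (hb.mono (Finset.erase_subset _ _))]
      · simp
      · rw [← Finset.card_pos, Finset.card_erase_of_mem hz]; omega
    rw [Finset.sum_congr rfl (fun z hz => by convert h₁ z hz)]
    rw [e] at hb ⊢
    rw [Finset.sum_pair hxy]
    rcases hb x (by simp) y (by simp) with h' | h'
    · have h'' := lt_of_le_of_ne h' hxy
      simp [sgn, Finset.filter_insert, Finset.filter_singleton, h'', h''.not_gt]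
    · have h'' := lt_of_le_of_ne h' hxy.symm
      simp [sgn, Finset.filter_insert, Finset.filter_singleton, h'', h''.not_gt]

section
variable {E F G : Type} [PartialOrder E] [PartialOrder F] [PartialOrder G]

lemma chainsMap_aux (f : E →o F) 
    : ∃ g : chainsObj E ⟶ chainsObj F, g.f = lin fun c : Chain E => chImage f c.finset :=
  ⟨BADC.homMk (fun c => chImage f c.finset)
    (fun c => by unfold chImage; split_ifs; exacts [ch_nonneg _, le_rfl])
    (fun c c' h => by
      classical
      unfold chImage at h; split_ifs at h with hf
      · change c'.finset.card - 1 = c.finset.card - 1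
        rw [finset_eq_of_ch_ne h, Finset.card_image_of_injOn hf]
      · simp at h)
    (fun c => by simpa using d_chImage f c.isCh)
    (fun c hc => by
      classical
      have h₁ : c.finset.card - 1 = 0 := hc
      have h₂ := c.nonempty.card_pos
      obtain ⟨x, hx⟩ := Finset.card_eq_one.1 (show c.finset.card = 1 by omega)
      rw [chImage, if_pos (by rw [hx]; simp),
        aug_ch (c.nonempty.image _) (by convert c.isCh.image f)]), rfl⟩

/-- The chain map induced by a monotone map. -/
noncomputable def chainsMap (f : E →o F) : chainsObj E ⟶ chainsObj F where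
  f := lin fun c : Chain E => chImage f c.finset
  nonneg := by obtain ⟨g, h⟩ := chainsMap_aux f; exact h ▸ g.nonneg
  deg := by obtain ⟨g, h⟩ := chainsMap_aux f; exact h ▸ g.deg
  comm := by obtain ⟨g, h⟩ := chainsMap_aux f; exact h ▸ g.comm
  aug := by obtain ⟨g, h⟩ := chainsMap_aux f; exact h ▸ g.aug

lemma chainsMap_ch (f : E →o F) {s : Finset E} (hs : IsCh s) :
    (chainsMap f).f (ch s) = chImage f s :=
  lin_ch _ (chImage_empty f) hs

lemma chainsMap_id : chainsMap (OrderHom.id : E →o E) = 𝟙 _ := by
  refine BADC.Hom.ext (addHom_ext fun c => ?_)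
  rw [← ch_finset, chainsMap_ch _ c.isCh, chImage, if_pos (by simp [Set.InjOn])]
  simp only [OrderHom.id_coe, Finset.image_id]
  rfl

lemma chainsMap_comp (f : E →o F) (g : F →o G) :
    chainsMap (g.comp f) = chainsMap f ≫ chainsMap g := by
  classical
  refine BADC.Hom.ext (addHom_ext fun c => ?_)
  change _ = (chainsMap g).f ((chainsMap f).f _)
  rw [← ch_finset, chainsMap_ch _ c.isCh, chainsMap_ch _ c.isCh]
  by_cases hf : Set.InjOn f c.finset
  · rw [chImage.eq_1 f, if_pos hf, chainsMap_ch _ (by convert c.isCh.image f)]
    unfold chImage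
    have : Set.InjOn (g.comp f) c.finset ↔
        Set.InjOn g (Finset.image f c.finset : Finset F) := by
      rw [Finset.coe_image, OrderHom.comp_coe]
      exact ⟨fun h => h.image_of_comp, fun h => h.comp hf (Set.mapsTo_image _ _)⟩
    by_cases hg : Set.InjOn (g.comp f) c.finset
    · rw [if_pos hg, if_pos (by convert this.1 hg), Finset.image_image]
      rfl
    · rw [if_neg hg, if_neg (by intro h; exact hg (this.2 (by convert h)))]
  · rw [chImage.eq_1 f, if_neg hf, map_zero, chImage, if_neg]
    exact fun h => hf (Set.InjOn.of_comp h)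

end

/-- The normalized chain complex, as a functor on posets. -/
noncomputable def chains : PartOrd.{0} ⥤ BADC where
  obj E := chainsObj E
  map f := chainsMap f.hom
  map_id _ := chainsMap_id
  map_comp f g := chainsMap_comp f.hom g.hom

/-- Street's orientals `[m] ↦ O_m = nu (C Δ^m)`, a cosimplicial omega-category. -/
noncomputable def oriental : SimplexCategory ⥤ OmegaCat :=
  SimplexCategory.toPartOrd.{0} ⋙ chains ⋙ nu

/-- The Street nerve `X ↦ ([m] ↦ Hom(O_m, X))`. -/
noncomputable def streetNerve : OmegaCat ⥤ SSet.{0} :=
  Presheaf.restrictedULiftYoneda.{0} oriental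

/-- The Street nerve of strict n-categories. -/
noncomputable def nerveN (n : ℕ∞) : NCat n ⥤ SSet.{0} := (IsNCat n).ι ⋙ streetNerve

end Vale.Agent.P213
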