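import Vale.Agent.P213.SNerve

/-!
P213, simplicial part 5a: the subdivision of a subcomplex of the nerve of a poset is the nerve
of its poset of faces; the last vertex map.

Plan.
* A simplex of `ex X` in degree `n` is `ULift.up` of a map `nerve (Chain (Ord n)) ⟶ X`
  (`exMk`, `exVal`), and `ex X` acts by precomposition with `nmap (chMap _)`.
* `SdData.isIso_comp`: by Yoneda it suffices that `φ ↦ D.eta ≫ ex.map φ` is a bijection
  `(nerve A ⟶ X) → (K ⟶ ex X)` for each `X` (`isIso_of_coyoneda_map_bijective` or similar,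
  with `SSet.sdExAdjunction.homEquiv`). Every simplex `τ` of `nerve A` is the image of a simplex
  of `nerve (Chain (Ord n))` under `nmap (D.fc x)` for a simplex `x` of `K` whose set of vertices
  is the last chain of `τ` (take preimages of the chains of `τ`); this gives injectivity.
  Surjectivity: given `ψ : K ⟶ ex X`, put `φ τ := (exVal (ψ x)) τ'`; independence of the choice
  of `(x, τ')`: for two choices `(x₁, τ₁)`, `(x₂, τ₂)` with the same image, reduce to
  `x₂ = K.map α.op x₁`. One way: for `a : A` fix the strictly increasing enumeration `x_a` of the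
  chain `D.e a`, a simplex of `K` (`D.j` is mono and every simplex of `nerve D.P` with vertices
  in the vertex set of a simplex `σ` is `α^* σ` with `α i` the least index with the right
  value); any `x` with vertex set inside `D.e a` is `α^* x_a` for a unique `α`, and
  `D.fc x_a` is injective. Define `φ τ` using `a :=` the last vertex of `τ`, and show that any
  larger `a` gives the same value.
-/

open CategoryTheory MonoidalCategory Simplicial Limits Opposite

namespace Vale.Agent.P213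

/-- The ordinal `[n]`. -/
abbrev Ord (n : ℕ) : Type := ULift.{0} (Fin (n + 1))

section
variable {E F : Type} [PartialOrder E] [PartialOrder F]

/-- Direct image of chains. -/
noncomputable abbrev chMap (f : E →o F) : Chain E →o Chain F :=
  PartialOrder.NonemptyFiniteChains.orderHomMap f

/-- A simplex of the nerve as a monotone map. -/
def simpHom {n : SimplexCategoryᵒᵖ} (x : (nerve E).obj n) : Ord n.unop.len →o E :=
  ⟨fun i => x.obj i.down, fun _ _ h => nerve_monotone x h⟩

/-- The whole ordinal as a chain. -/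
def ordTop (n : ℕ) : Chain (Ord n) :=
  ⟨Finset.univ, Finset.univ_nonempty, fun a b => le_total a b⟩

/-- The set of vertices of a simplex. -/
noncomputable def simpCh {n : SimplexCategoryᵒᵖ} (x : (nerve E).obj n) : Chain E :=
  chMap (simpHom x) (ordTop _)

lemma exists_chTop (c : Chain E) : ∃ t ∈ c.finset, ∀ x ∈ c.finset, x ≤ t := by
  obtain ⟨t, ht⟩ := c.finset.exists_maximal c.nonempty
  refine ⟨t, ht.1, fun x hx => ?_⟩
  rcases c.comparable ⟨x, hx⟩ ⟨t, ht.1⟩ with h | h
  · exact h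
  · exact ht.2 hx h

lemma sdd_mem_chMap (f : E →o F) (c : Chain E) (y : F) :
    y ∈ (chMap f c).finset ↔ ∃ x, x ∈ c.finset ∧ f x = y :=
  PartialOrder.NonemptyFiniteChains.mem_map_iff c f y

lemma sdd_chain_ext {c c' : Chain E} (h : ∀ x, x ∈ c.finset ↔ x ∈ c'.finset) : c = c' :=
  PartialOrder.NonemptyFiniteChains.ext (Finset.ext h)

lemma sdd_chain_le_iff {c c' : Chain E} : c ≤ c' ↔ ∀ x, x ∈ c.finset → x ∈ c'.finset :=
  Iff.rfl

lemma sdd_chMap_chMap {G : Type} [PartialOrder G] (f : E →o F) (g : F →o G) (c : Chain E) :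
    chMap g (chMap f c) = chMap (g.comp f) c := by
  refine sdd_chain_ext fun z => ?_
  simp only [sdd_mem_chMap]
  constructor
  · rintro ⟨y, ⟨x, hx, rfl⟩, rfl⟩
    exact ⟨x, hx, rfl⟩
  · rintro ⟨x, hx, rfl⟩
    exact ⟨f x, ⟨x, hx, rfl⟩, rfl⟩

lemma sdd_chMap_injective (f : E →o F) (hf : Function.Injective f) :
    Function.Injective (chMap f) := by
  intro c c' h
  refine sdd_chain_ext fun x => ⟨fun hx => ?_, fun hx => ?_⟩
  · have h1 : f x ∈ (chMap f c').finset := h ▸ (sdd_mem_chMap f c _).2 ⟨x, hx, rfl⟩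
    obtain ⟨y, hy, hxy⟩ := (sdd_mem_chMap f c' _).1 h1
    exact hf hxy ▸ hy
  · have h1 : f x ∈ (chMap f c).finset := h ▸ (sdd_mem_chMap f c' _).2 ⟨x, hx, rfl⟩
    obtain ⟨y, hy, hxy⟩ := (sdd_mem_chMap f c _).1 h1
    exact hf hxy ▸ hy

lemma sdd_mem_simpCh {n : SimplexCategoryᵒᵖ} (x : (nerve E).obj n) (y : E) :
    y ∈ (simpCh x).finset ↔ ∃ i, x.obj i = y := by
  rw [simpCh, sdd_mem_chMap]
  constructor
  · rintro ⟨i, -, rfl⟩
    exact ⟨i.down, rfl⟩
  · rintro ⟨i, rfl⟩
    exact ⟨ULift.up i, Finset.mem_univ _, rfl⟩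

/-- Every chain is the set of vertices of an injective simplex. -/
lemma sdd_exists_enum (c : Chain E) : ∃ (m : ℕ) (x : (nerve E).obj (op ⦋m⦌)),
    Function.Injective x.obj ∧ simpCh x = c := by
  classical
  let _ : LinearOrder c.finset :=
    { (inferInstance : PartialOrder c.finset) with
      le_total := c.comparable
      toDecidableLE := Classical.decRel _ }
  have hpos : 0 < Fintype.card c.finset := by
    rw [Fintype.card_coe]
    exact c.nonempty.card_pos
  obtain ⟨m, hm⟩ : ∃ m, Fintype.card c.finset = m + 1 := ⟨_, (Nat.succ_pred_eq_of_pos hpos).symm⟩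
  let e := monoEquivOfFin c.finset hm
  refine ⟨m, nmk (n := op ⦋m⦌) (fun i => (e i : E)) (fun i j h => e.monotone h), ?_, ?_⟩
  · intro i j h
    exact e.injective (Subtype.ext h)
  · refine sdd_chain_ext fun y => ?_
    rw [sdd_mem_simpCh]
    constructor
    · rintro ⟨i, rfl⟩
      exact (e i).2
    · intro hy
      refine ⟨e.symm ⟨y, hy⟩, ?_⟩
      change ((e (e.symm ⟨y, hy⟩) : c.finset) : E) = y
      rw [e.apply_symm_apply]

/-- A simplex whose vertices are among those of `y` is obtained from `y` by a simplicial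
operator. -/
lemma sdd_exists_factor {n m : SimplexCategoryᵒᵖ} (x : (nerve E).obj n) (y : (nerve E).obj m)
    (h : simpCh x ≤ simpCh y) : ∃ a : m ⟶ n, (nerve E).map a y = x := by
  classical
  have h1 : ∀ i, (Finset.univ.filter fun j => y.obj j = x.obj i).Nonempty := by
    intro i
    obtain ⟨j, hj⟩ := (sdd_mem_simpCh y _).1 (h ((sdd_mem_simpCh x _).2 ⟨i, rfl⟩))
    exact ⟨j, Finset.mem_filter.2 ⟨Finset.mem_univ _, hj⟩⟩
  let f : Fin (n.unop.len + 1) → Fin (m.unop.len + 1) := fun i => Finset.min' _ (h1 i)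
  have h2 : ∀ i, y.obj (f i) = x.obj i := fun i =>
    (Finset.mem_filter.1 (Finset.min'_mem _ (h1 i))).2
  have h3 : ∀ i j, y.obj j = x.obj i → f i ≤ j := fun i j hj =>
    Finset.min'_le (Finset.univ.filter fun j => y.obj j = x.obj i) j
      (Finset.mem_filter.2 ⟨Finset.mem_univ _, hj⟩)
  have h4 : Monotone f := by
    intro i i' hi
    rcases le_total (f i) (f i') with h5 | h5
    · exact h5
    · refine h3 i _ ?_
      rw [h2]
      refine le_antisymm ?_ (nerve_monotone x hi)
      rw [← h2, ← h2]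
      exact nerve_monotone y h5
  let a : n.unop ⟶ m.unop := SimplexCategory.Hom.mk ⟨f, h4⟩
  exact ⟨Quiver.Hom.op a, nerve_ext fun i => h2 i⟩

/-- The largest element of a chain. -/
noncomputable def chTop : Chain E →o E where
  toFun c := (exists_chTop c).choose
  monotone' c c' h := (exists_chTop c').choose_spec.2 _ (h (exists_chTop c).choose_spec.1)

lemma chTop_mem (c : Chain E) : chTop c ∈ c.finset := (exists_chTop c).choose_spec.1

lemma le_chTop {c : Chain E} {x : E} (h : x ∈ c.finset) : x ≤ chTop c :=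
  (exists_chTop c).choose_spec.2 x h

lemma chTop_chMap (f : E →o F) (c : Chain E) : chTop (chMap f c) = f (chTop c) := by
  refine le_antisymm ?_ (le_chTop ((sdd_mem_chMap f c _).2 ⟨_, chTop_mem c, rfl⟩))
  obtain ⟨x, hx, h⟩ := (sdd_mem_chMap f c _).1 (chTop_mem (chMap f c))
  rw [← h]
  exact f.monotone (le_chTop hx)

lemma sdd_nmap_chMap_chTop (f : E →o F) :
    nmap (chMap f) ≫ nmap chTop = nmap chTop ≫ nmap f := by
  rw [← nmap_comp, ← nmap_comp]
  congr 1
  exact OrderHom.ext _ _ (funext fun c => chTop_chMap f c)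

end

/-- The monotone map of ordinals attached to a simplicial operator. -/
def ordMap {m n : SimplexCategory} (a : m ⟶ n) : Ord m.len →o Ord n.len :=
  (SimplexCategory.toPartOrd.{0}.map a).hom

@[simp] lemma ordMap_apply {m n : SimplexCategory} (a : m ⟶ n) (i : Ord m.len) :
    ordMap a i = ULift.up (a.toOrderHom i.down) := rfl

/-- Simplices of `ex X`. -/
noncomputable def exMk {X : SSet.{0}} {n : SimplexCategoryᵒᵖ}
    (f : nerve (Chain (Ord n.unop.len)) ⟶ X) : (SSet.ex.obj X).obj n := ULift.up f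

noncomputable def exVal {X : SSet.{0}} {n : SimplexCategoryᵒᵖ} (x : (SSet.ex.obj X).obj n) :
    nerve (Chain (Ord n.unop.len)) ⟶ X := x.down

@[simp] lemma exVal_exMk {X : SSet.{0}} {n : SimplexCategoryᵒᵖ}
    (f : nerve (Chain (Ord n.unop.len)) ⟶ X) : exVal (exMk f) = f := rfl

lemma ex_ext {X : SSet.{0}} {n : SimplexCategoryᵒᵖ} {x y : (SSet.ex.obj X).obj n}
    (h : exVal x = exVal y) : x = y := ULift.down_injective h

lemma exVal_map {X : SSet.{0}} {n m : SimplexCategoryᵒᵖ} (a : n ⟶ m)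
    (x : (SSet.ex.obj X).obj n) :
    exVal ((SSet.ex.obj X).map a x) = nmap (chMap (ordMap a.unop)) ≫ exVal x := rfl

lemma exVal_app {X Y : SSet.{0}} (f : X ⟶ Y) {n : SimplexCategoryᵒᵖ}
    (x : (SSet.ex.obj X).obj n) : exVal ((SSet.ex.map f).app n x) = exVal x ≫ f := rfl

/-- The map `nerve [n] ⟶ X` classifying a simplex. -/
noncomputable def simpMap {X : SSet.{0}} {n : SimplexCategoryᵒᵖ} (x : X.obj n) :
    nerve (Ord n.unop.len) ⟶ X :=
  (SSet.stdSimplex.isoNerve n.unop.len).inv ≫ SSet.yonedaEquiv.symm x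

lemma simpMap_map {X : SSet.{0}} {n m : SimplexCategoryᵒᵖ} (a : n ⟶ m) (x : X.obj n) :
    simpMap (X.map a x) = nmap (ordMap a.unop) ≫ simpMap x := by
  ext k y
  change X.map _ (X.map a x) = X.map _ x
  rw [← Functor.map_comp_apply]
  rfl

lemma simpMap_app {X Y : SSet.{0}} (f : X ⟶ Y) {n : SimplexCategoryᵒᵖ} (x : X.obj n) :
    simpMap (f.app n x) = simpMap x ≫ f := by
  rw [simpMap, simpMap, Category.assoc]
  exact congrArg _ (SSet.yonedaEquiv_symm_comp (n := n.unop) x f).symm

lemma simpMap_nerve {E : Type} [PartialOrder E] {n : SimplexCategoryᵒᵖ} (x : (nerve E).obj n) :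
    simpMap x = nmap (simpHom x) := by
  ext k y i
  rfl

lemma simpMap_injective {X : SSet.{0}} {n : SimplexCategoryᵒᵖ} :
    Function.Injective (simpMap : X.obj n → _) := by
  intro x y h
  rw [simpMap, simpMap, cancel_epi] at h
  exact (SSet.yonedaEquiv (n := n.unop)).symm.injective h

/-- The canonical map `X ⟶ ex X`. -/
noncomputable def rho : 𝟭 SSet.{0} ⟶ SSet.ex where
  app X :=
    { app n := TypeCat.ofHom fun x => exMk (nmap chTop ≫ simpMap x)
      naturality := fun n m a => by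
        ext x
        refine ex_ext ?_
        change nmap chTop ≫ simpMap (X.map a x) =
          nmap (chMap (ordMap a.unop)) ≫ nmap chTop ≫ simpMap x
        rw [simpMap_map, ← Category.assoc, ← Category.assoc, sdd_nmap_chMap_chTop] }
  naturality X Y f := by
    ext n x
    refine ex_ext ?_
    change nmap chTop ≫ simpMap (f.app n x) = (nmap chTop ≫ simpMap x) ≫ f
    rw [simpMap_app, Category.assoc]

lemma exVal_rho {X : SSet.{0}} {n : SimplexCategoryᵒᵖ} (x : X.obj n) :
    exVal ((rho.app X).app n x) = nmap chTop ≫ simpMap x := rfl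

lemma rho_nat {X Y : SSet.{0}} (f : X ⟶ Y) : f ≫ rho.app Y = rho.app X ≫ SSet.ex.map f :=
  rho.naturality f

/-- Initial segments, a section of `chTop`. -/
noncomputable def sdd_seg (n : ℕ) : Ord n →o Chain (Ord n) where
  toFun i := ⟨Finset.univ.filter fun j => j ≤ i, ⟨i, by simp⟩, fun a b => le_total a b⟩
  monotone' i j h := by
    intro x hx
    exact Finset.mem_filter.2 ⟨Finset.mem_univ _, (Finset.mem_filter.1 hx).2.trans h⟩

lemma sdd_chTop_seg (n : ℕ) (i : Ord n) : chTop (sdd_seg n i) = i :=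
  le_antisymm (Finset.mem_filter.1 (chTop_mem (sdd_seg n i))).2
    (le_chTop (Finset.mem_filter.2 ⟨Finset.mem_univ _, le_rfl⟩))

lemma sdd_seg_chTop (n : ℕ) : nmap (sdd_seg n) ≫ nmap chTop = 𝟙 _ := by
  rw [← nmap_comp, ← nmap_id]
  congr 1
  exact OrderHom.ext _ _ (funext fun i => sdd_chTop_seg n i)

lemma mono_rho (X : SSet.{0}) : Mono (rho.app X) := by
  have : ∀ n, Mono ((rho.app X).app n) := by
    intro n
    rw [mono_iff_injective]
    intro x y h
    have h1 := congrArg (fun z => nmap (sdd_seg n.unop.len) ≫ exVal z) h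
    simp only [exVal_rho] at h1
    rw [← Category.assoc, ← Category.assoc, sdd_seg_chTop, Category.id_comp,
      Category.id_comp] at h1
    exact simpMap_injective h1
  exact NatTrans.mono_of_mono_app _

/-- The last vertex map. -/
noncomputable def lam (K : SSet.{0}) : SSet.sd.obj K ⟶ K :=
  (SSet.sdExAdjunction.homEquiv K K).symm (rho.app K)

lemma lam_nat {K L : SSet.{0}} (f : K ⟶ L) : SSet.sd.map f ≫ lam L = lam K ≫ f := by
  rw [lam, lam, ← Adjunction.homEquiv_naturality_left_symm,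
    ← Adjunction.homEquiv_naturality_right_symm, rho_nat]

lemma homEquiv_lam {K Z : SSet.{0}} (f : K ⟶ Z) :
    SSet.sdExAdjunction.homEquiv K Z (lam K ≫ f) = f ≫ rho.app Z := by
  rw [Adjunction.homEquiv_naturality_right, lam, Equiv.apply_symm_apply, rho_nat]

/-- `K` is a subcomplex of the nerve of `P` and `A` is its poset of faces. -/
structure SdData (K : SSet.{0}) (A : Type) [PartialOrder A] : Type 1 where
  P : Type
  [po : PartialOrder P]
  j : K ⟶ nerve P
  mono : Mono j
  e : A ↪o Chain P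
  range : ∀ c, c ∈ Set.range e ↔ ∃ (n : SimplexCategoryᵒᵖ) (x : K.obj n), simpCh (j.app n x) = c

attribute [instance] SdData.po

namespace SdData

variable {K K' : SSet.{0}} {A A' : Type} [PartialOrder A] [PartialOrder A']

lemma exists_face (D : SdData K A) {n : SimplexCategoryᵒᵖ} (x : K.obj n)
    (c : Chain (Ord n.unop.len)) : ∃ a, D.e a = chMap (simpHom (D.j.app n x)) c := by
  obtain ⟨m, y, -, rfl⟩ := sdd_exists_enum c
  let a : ⦋m⦌ ⟶ n.unop := SimplexCategory.Hom.mk
    ⟨fun i => (y.obj i).down, fun i j h => nerve_monotone y h⟩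
  refine (D.range _).2 ⟨op ⦋m⦌, K.map (Quiver.Hom.op a) x, ?_⟩
  rw [NatTrans.naturality_apply, simpCh, simpCh, sdd_chMap_chMap]
  rfl

/-- The faces of a simplex of `K`, as elements of `A`. -/
noncomputable def fc (D : SdData K A) {n : SimplexCategoryᵒᵖ} (x : K.obj n) :
    Chain (Ord n.unop.len) →o A where
  toFun c := (D.exists_face x c).choose
  monotone' c c' h := by
    rw [← D.e.le_iff_le, (D.exists_face x c).choose_spec, (D.exists_face x c').choose_spec]
    exact (chMap _).monotone h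

lemma e_fc (D : SdData K A) {n : SimplexCategoryᵒᵖ} (x : K.obj n) (c : Chain (Ord n.unop.len)) :
    D.e (D.fc x c) = chMap (simpHom (D.j.app n x)) c := (D.exists_face x c).choose_spec

lemma fc_map (D : SdData K A) {n m : SimplexCategoryᵒᵖ} (a : n ⟶ m) (x : K.obj n) :
    D.fc (K.map a x) = (D.fc x).comp (chMap (ordMap a.unop)) := by
  refine OrderHom.ext _ _ (funext fun c => D.e.injective ?_)
  change D.e (D.fc (K.map a x) c) = D.e (D.fc x (chMap (ordMap a.unop) c))
  rw [e_fc, e_fc, NatTrans.naturality_apply, sdd_chMap_chMap]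
  rfl

noncomputable def eta (D : SdData K A) : K ⟶ SSet.ex.obj (nerve A) where
  app n := TypeCat.ofHom fun x => exMk (nmap (D.fc x))
  naturality := fun n m a => by
    ext x
    refine ex_ext ?_
    change nmap (D.fc (K.map a x)) = nmap (chMap (ordMap a.unop)) ≫ nmap (D.fc x)
    rw [fc_map, nmap_comp]

lemma exVal_eta (D : SdData K A) {n : SimplexCategoryᵒᵖ} (x : K.obj n) :
    exVal (D.eta.app n x) = nmap (D.fc x) := rfl

/-- The comparison map. -/
noncomputable def comp (D : SdData K A) : SSet.sd.obj K ⟶ nerve A :=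
  (SSet.sdExAdjunction.homEquiv _ _).symm D.eta

lemma homEquiv_comp (D : SdData K A) {X : SSet.{0}} (φ : nerve A ⟶ X) :
    SSet.sdExAdjunction.homEquiv _ _ (D.comp ≫ φ) = D.eta ≫ SSet.ex.map φ := by
  rw [Adjunction.homEquiv_naturality_right, comp, Equiv.apply_symm_apply]

lemma comp_nat (D : SdData K A) (D' : SdData K' A') (k : K ⟶ K') (f : D.P →o D'.P)
    (hf : k ≫ D'.j = D.j ≫ nmap f) (a : A →o A') (ha : ∀ x, D'.e (a x) = chMap f (D.e x)) :
    SSet.sd.map k ≫ D'.comp = D.comp ≫ nmap a := by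
  rw [comp, comp, ← Adjunction.homEquiv_naturality_left_symm,
    ← Adjunction.homEquiv_naturality_right_symm]
  congr 1
  ext n x
  refine ex_ext ?_
  change nmap (D'.fc (k.app n x)) = nmap (D.fc x) ≫ nmap a
  rw [← nmap_comp]
  congr 1
  refine OrderHom.ext _ _ (funext fun c => D'.e.injective ?_)
  change D'.e (D'.fc (k.app n x) c) = D'.e (a (D.fc x c))
  have h1 : D'.j.app n (k.app n x) = (nmap f).app n (D.j.app n x) :=
    congrArg (fun z : K ⟶ nerve D'.P => z.app n x) hf
  rw [e_fc, ha, e_fc, sdd_chMap_chMap, h1]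
  rfl

lemma lam_j (D : SdData K A) :
    lam K ≫ D.j = D.comp ≫ nmap (chTop.comp D.e.toOrderHom) := by
  apply (SSet.sdExAdjunction.homEquiv _ _).injective
  rw [homEquiv_lam, homEquiv_comp]
  ext n x
  refine ex_ext ?_
  change nmap chTop ≫ simpMap (D.j.app n x) =
    nmap (D.fc x) ≫ nmap (chTop.comp D.e.toOrderHom)
  rw [simpMap_nerve, ← nmap_comp, ← nmap_comp]
  congr 1
  refine OrderHom.ext _ _ (funext fun c => ?_)
  change simpHom (D.j.app n x) (chTop c) = chTop (D.e (D.fc x c))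
  rw [e_fc, chTop_chMap]

end SdData

/-- The nerve of a poset. -/
noncomputable def sdNerve (P : Type) [PartialOrder P] : SdData (nerve P) (Chain P) where
  P := P
  j := 𝟙 _
  mono := inferInstance
  e := RelEmbedding.refl _
  range c := by
    refine ⟨fun _ => ?_, fun _ => ⟨c, rfl⟩⟩
    obtain ⟨m, x, -, hx⟩ := sdd_exists_enum c
    exact ⟨_, x, hx⟩

/-- The faces of a subcomplex of the standard simplex. -/
def subFaces {m : ℕ} (S : (Δ[m] : SSet.{0}).Subcomplex) : Set (Chain (Ord m)) :=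
  {c | ∃ (n : SimplexCategoryᵒᵖ) (x : (Δ[m] : SSet.{0}).obj n), x ∈ S.obj n ∧
    simpCh ((SSet.stdSimplex.isoNerve m).hom.app n x) = c}

/-- A subcomplex of the standard simplex. -/
noncomputable def sdSub {m : ℕ} (S : (Δ[m] : SSet.{0}).Subcomplex) :
    SdData (S : SSet.{0}) (subFaces S) where
  P := Ord m
  j := S.ι ≫ (SSet.stdSimplex.isoNerve m).hom
  mono := inferInstance
  e := OrderEmbedding.subtype _
  range c := by
    constructor
    · rintro ⟨⟨c, n, x, hx, h⟩, rfl⟩
      exact ⟨n, ⟨x, hx⟩, h⟩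
    · rintro ⟨n, ⟨x, hx⟩, h⟩
      exact ⟨⟨c, n, x, hx, h⟩, rfl⟩

/-- The standard simplex. -/
noncomputable def sdStd (m : ℕ) : SdData (Δ[m] : SSet.{0}) (Chain (Ord m)) where
  P := Ord m
  j := (SSet.stdSimplex.isoNerve m).hom
  mono := inferInstance
  e := RelEmbedding.refl _
  range c := by
    refine ⟨fun _ => ?_, fun _ => ⟨c, rfl⟩⟩
    obtain ⟨k, x, -, hx⟩ := sdd_exists_enum c
    exact ⟨_, (SSet.stdSimplex.isoNerve m).inv.app _ x, hx⟩

lemma sdd_isoNerve_injective (m : ℕ) (n : SimplexCategoryᵒᵖ) :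
    Function.Injective ((SSet.stdSimplex.isoNerve.{0} m).hom.app n) :=
  (mono_iff_injective _).1 inferInstance

lemma sdd_mem_of_le {m : ℕ} (S : (Δ[m] : SSet.{0}).Subcomplex) {n k : SimplexCategoryᵒᵖ}
    (x : (Δ[m] : SSet.{0}).obj n) (y : (Δ[m] : SSet.{0}).obj k) (hy : y ∈ S.obj k)
    (h : simpCh ((SSet.stdSimplex.isoNerve m).hom.app n x) ≤
      simpCh ((SSet.stdSimplex.isoNerve m).hom.app k y)) : x ∈ S.obj n := by
  obtain ⟨a, ha⟩ := sdd_exists_factor _ _ h
  rw [← NatTrans.naturality_apply] at ha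
  rw [← sdd_isoNerve_injective m n ha]
  exact S.map a hy

lemma sdd_exists_std {m : ℕ} (c : Chain (Ord m)) :
    ∃ (k : ℕ) (x : (Δ[m] : SSet.{0}).obj (op ⦋k⦌)),
      simpCh ((SSet.stdSimplex.isoNerve m).hom.app _ x) = c := by
  obtain ⟨k, x, -, hx⟩ := sdd_exists_enum c
  exact ⟨k, (SSet.stdSimplex.isoNerve m).inv.app _ x, hx⟩

lemma sdd_mem_std {m k : ℕ} (x : (Δ[m] : SSet.{0}).obj (op ⦋k⦌)) (i : Fin (m + 1)) :
    ULift.up i ∈ (simpCh ((SSet.stdSimplex.isoNerve m).hom.app _ x)).finset ↔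
      i ∈ Set.range x := by
  rw [sdd_mem_simpCh]
  constructor
  · rintro ⟨j, hj⟩
    exact ⟨j, congrArg ULift.down hj⟩
  · rintro ⟨j, rfl⟩
    exact ⟨j, rfl⟩

/-- A simplex of the standard simplex lies in `S` iff its set of vertices is a face of `S`. -/
lemma mem_subFaces {m : ℕ} (S : (Δ[m] : SSet.{0}).Subcomplex) {n : SimplexCategoryᵒᵖ}
    (x : (Δ[m] : SSet.{0}).obj n) :
    simpCh ((SSet.stdSimplex.isoNerve m).hom.app n x) ∈ subFaces S ↔ x ∈ S.obj n := by
  refine ⟨?_, fun h => ⟨n, x, h, rfl⟩⟩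
  rintro ⟨k, y, hy, h⟩
  exact sdd_mem_of_le S x y hy h.ge

lemma subFaces_lower {m : ℕ} (S : (Δ[m] : SSet.{0}).Subcomplex) : IsLowerSet (subFaces S) := by
  rintro c c' h ⟨k, y, hy, rfl⟩
  obtain ⟨n, x, rfl⟩ := sdd_exists_std c'
  exact ⟨_, x, sdd_mem_of_le S x y hy h, rfl⟩

lemma mem_subFaces_boundary {m : ℕ} (c : Chain (Ord m)) :
    c ∈ subFaces (SSet.boundary.{0} m) ↔ c ≠ ordTop m := by
  obtain ⟨n, x, rfl⟩ := sdd_exists_std c
  rw [mem_subFaces, SSet.mem_boundary_iff_notMem_range]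
  constructor
  · rintro ⟨j, hj⟩ h
    refine hj ((sdd_mem_std x j).1 ?_)
    rw [h]
    exact Finset.mem_univ _
  · intro h
    by_contra h1
    refine h (sdd_chain_ext fun i => ⟨fun _ => Finset.mem_univ _, fun _ => ?_⟩)
    refine (sdd_mem_std x i.down).2 ?_
    by_contra h2
    exact h1 ⟨_, h2⟩

lemma mem_subFaces_horn {m : ℕ} (k : Fin (m + 1)) (c : Chain (Ord m)) :
    c ∈ subFaces (SSet.horn.{0} m k) ↔
      ∃ i : Fin (m + 1), i ≠ k ∧ ULift.up i ∉ c.finset := by
  obtain ⟨n, x, rfl⟩ := sdd_exists_std c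
  rw [mem_subFaces, SSet.mem_horn_iff_notMem_range]
  simp only [sdd_mem_std, exists_prop]

lemma sd_map_sub {m : ℕ} (S : (Δ[m] : SSet.{0}).Subcomplex) :
    SSet.sd.map S.ι ≫ (sdStd m).comp =
      (sdSub S).comp ≫ nmap (OrderEmbedding.subtype _).toOrderHom := by
  refine SdData.comp_nat (sdSub S) (sdStd m) S.ι OrderHom.id rfl _ fun x => ?_
  refine sdd_chain_ext fun y => ?_
  refine Iff.trans ?_ (sdd_mem_chMap _ _ _).symm
  exact ⟨fun h => ⟨y, h, rfl⟩, fun ⟨z, hz, h⟩ => h ▸ hz⟩

end Vale.Agent.P213
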