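import Vale.Agent.P213.StGlue
import Vale.Agent.P213.SSdDefs

/-!
P213: the chain complex of a poset has a good basis; atoms, vertices, cosieves.

Plan.
* `exists_chain_order`: take a linear extension of `E` (`LinearExtension E`, or
  `extend_partialOrder`), put `key s t = 1 - parity #{x ∈ s | x ≤ t}` (linear order) and use
  `Pi.Lex (· < ·) (· < ·)`; `key s` and `key (s.erase x)` first differ at `t = x`; on a chain the
  strict order of `E` agrees with the linear one.
* `d_single_apply`-style fact: `dch s c ≠ 0` forces `c.finset = s.erase x` for a unique `x ∈ s`,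
  and then the coefficient is `sgn s x`.
* Atoms by induction on the cardinality, removing the least element `m` (cone formula): if `x` is
  the atom of `s' = s.erase m` and `cone = lin (fun c => ch (insert m c.finset))`, the atom of `s`
  has in position `(ε, i + 1)` the entry `cone (x (!ε) i) + (if ε then x ε (i + 1) else 0)`, in
  position `(false, 0)` the entry `ch {m}` and in position `(true, 0)` the entry `x true 0`.
  Use `d (cone t) = t - cone (d t)` in positive degree, `d (cone t) = t - aug t • ch {m}` in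
  degree zero, for `t` supported on chains inside `s'`.
* `map_atom_injOn`: check `IsAtom` directly; `chainsMap f` is injective on basis elements below
  `s`, which support the atom (`atom_supp`).
* `supp_ge`: `cell_induction'`, `rcomp_apply`.
* `exists_preimage`: pull the entries back (`Finsupp.comapDomain` along `chMap w`, or induction
  on the support) and check the conditions of a table by injectivity of `(chainsMap w).f`.
-/

open CategoryTheory

namespace Vale.Agent.P213

/-- The omega-category of a poset. -/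
noncomputable abbrev OP (E : Type) [PartialOrder E] : OmegaCat := nuObj (chainsObj E)

/-- The functor induced by a monotone map. -/
noncomputable abbrev opMap {E F : Type} [PartialOrder E] [PartialOrder F] (f : E →o F) :
    OP E ⟶ OP F := nuMap (chainsMap f)

variable {E F G : Type} [PartialOrder E] [PartialOrder F] [PartialOrder G]

lemma opMap_id : opMap (OrderHom.id : E →o E) = 𝟙 _ := by
  rw [opMap, chainsMap_id, nuMap_id]

lemma opMap_comp (f : E →o F) (g : F →o G) : opMap (g.comp f) = opMap f ≫ opMap g := by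
  rw [opMap, chainsMap_comp, nuMap_comp]

open Classical in
theorem exists_chain_order (E : Type) [PartialOrder E] :
    ∃ lt : Finset E → Finset E → Prop, (∀ a, ¬ lt a a) ∧ (∀ a b c, lt a b → lt b c → lt a c) ∧
      ∀ s x, IsCh s → x ∈ s →
        (sgn s x < 0 → lt (s.erase x) s) ∧ (0 < sgn s x → lt s (s.erase x)) := by
  let φ : E →o LinearExtension E := toLinearExtension
  have hφ : Function.Injective φ := fun _ _ h => h
  let key : Finset E → LinearExtension E → ℤ := fun s t => (-1) ^ (s.filter (φ · ≤ t)).card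
  refine ⟨fun a b => ∃ i, (∀ j < i, key a j = key b j) ∧ key a i < key b i, ?_, ?_, ?_⟩
  · rintro a ⟨i, -, h⟩
    exact lt_irrefl _ h
  · rintro a b c ⟨i, h1, h2⟩ ⟨j, h3, h4⟩
    rcases lt_trichotomy i j with h | rfl | h
    · exact ⟨i, fun k hk => (h1 k hk).trans (h3 k (hk.trans h)), h2.trans_eq (h3 i h)⟩
    · exact ⟨i, fun k hk => (h1 k hk).trans (h3 k hk), h2.trans h4⟩
    · exact ⟨j, fun k hk => (h1 k (hk.trans h)).trans (h3 k hk), (h1 j h).trans_lt h4⟩
  · intro s x hs hx
    have h1 : ∀ j < φ x, key (s.erase x) j = key s j := fun j hj => by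
      simp only [key]
      rw [Finset.filter_erase, Finset.erase_eq_of_notMem]
      simp [hj.not_ge]
    have h2 : key (s.erase x) (φ x) = sgn s x := by
      simp only [key, sgn]
      congr 2
      ext y
      simp only [Finset.mem_filter, Finset.mem_erase]
      constructor
      · rintro ⟨⟨h3, h4⟩, h5⟩
        refine ⟨h4, lt_of_le_of_ne ((hs y h4 x hx).resolve_right fun h6 => h3 ?_) h3⟩
        exact hφ (le_antisymm h5 (φ.monotone h6))
      · rintro ⟨h3, h4⟩
        exact ⟨⟨h4.ne, h3⟩, φ.monotone h4.le⟩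
    have h3 : key s (φ x) = - sgn s x := by
      rw [← h2]
      simp only [key]
      rw [Finset.filter_erase, ← Finset.card_erase_add_one
        (show x ∈ s.filter (φ · ≤ φ x) from Finset.mem_filter.2 ⟨hx, le_rfl⟩), pow_succ]
      ring
    exact ⟨fun h => ⟨φ x, h1, by rw [h2, h3]; omega⟩,
      fun h => ⟨φ x, fun j hj => (h1 j hj).symm, by rw [h2, h3]; omega⟩⟩

lemma cg_lin_ne {B B' : Type} {g : B → (B' →₀ ℤ)} {t : B →₀ ℤ} {c : B'} (h : lin g t c ≠ 0) :
    ∃ b, t b ≠ 0 ∧ g b c ≠ 0 := by
  rw [lin_apply, Finsupp.finsetSum_apply] at h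
  obtain ⟨b, hb, hb'⟩ := Finset.exists_ne_zero_of_sum_ne_zero h
  exact ⟨b, Finsupp.mem_support_iff.1 hb, fun h' => hb' (by simp [h'])⟩

lemma cg_congr {B M : Type} [AddCommGroup M] {f g : (B →₀ ℤ) →+ M} {t : B →₀ ℤ}
    (h : ∀ b, t b ≠ 0 → f (Finsupp.single b 1) = g (Finsupp.single b 1)) : f t = g t := by
  rw [← Finsupp.sum_single t, Finsupp.sum, map_sum, map_sum]
  refine Finset.sum_congr rfl fun b hb => ?_
  rw [show Finsupp.single b (t b) = t b • Finsupp.single b (1 : ℤ) by simp, map_zsmul, map_zsmul,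
    h b (Finsupp.mem_support_iff.1 hb)]

open Classical in
lemma cg_dch_apply {s : Finset E} {c : Chain E} (h : dch s c ≠ 0) :
    ∃ x ∈ s, c.finset = s.erase x ∧ dch s c = sgn s x := by
  have h' := h
  rw [dch, Finsupp.finsetSum_apply] at h'
  obtain ⟨x, hx, hx'⟩ := Finset.exists_ne_zero_of_sum_ne_zero h'
  have e := finset_eq_of_ch_ne (s := s.erase x) (c := c) (fun h => hx' (by simp [h]))
  refine ⟨x, hx, e, ?_⟩
  rw [dch, Finsupp.finsetSum_apply, Finset.sum_eq_single_of_mem x hx fun y hy hyx => ?_]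
  · rw [← e, ch_finset]
    simp
  · have : ch (s.erase y) c = 0 := by
      by_contra h0
      have h1 : y ∈ s.erase y := by
        rw [← finset_eq_of_ch_ne h0, e]
        exact Finset.mem_erase.2 ⟨hyx, hy⟩
      exact Finset.notMem_erase y s h1
    simp [this]

open Classical in
/-- The cone with apex `m`. -/
noncomputable def cgCone (m : E) : (Chain E →₀ ℤ) →+ (Chain E →₀ ℤ) :=
  lin fun c => ch (insert m c.finset)

open Classical in
lemma cg_isCh_insert {m : E} {c : Finset E} (hc : IsCh c) (hm : ∀ y ∈ c, m < y) :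
    IsCh (insert m c) := by
  intro a ha b hb
  rcases Finset.mem_insert.1 ha with h1 | h1 <;> rcases Finset.mem_insert.1 hb with h2 | h2
  exacts [Or.inl (h1.trans h2.symm).le, Or.inl (h1 ▸ (hm b h2).le), Or.inr (h2 ▸ (hm a h1).le),
    hc a h1 b h2]

open Classical in
lemma cg_dch_insert {m : E} {c : Finset E} (hm : ∀ y ∈ c, m < y) :
    dch (insert m c) = ch c - ∑ y ∈ c, sgn c y • ch (insert m (c.erase y)) := by
  have h0 : m ∉ c := fun h => lt_irrefl _ (hm m h)
  rw [dch, Finset.sum_insert h0, Finset.erase_insert h0, sub_eq_add_neg, ← Finset.sum_neg_distrib]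
  congr 1
  · have : (insert m c).filter (· < m) = ∅ := by
      rw [Finset.filter_eq_empty_iff]
      intro y hy
      rcases Finset.mem_insert.1 hy with rfl | hy
      · exact lt_irrefl _
      · exact (hm y hy).not_gt
    rw [sgn, this]
    simp
  · refine Finset.sum_congr rfl fun y hy => ?_
    have h1 := sgn_erase (Finset.mem_insert_self m c) y
    rw [Finset.erase_insert h0, if_pos (hm y hy)] at h1
    rw [h1, neg_smul, neg_neg, Finset.erase_insert_of_ne (hm y hy).ne]

open Classical in
lemma cg_d_cone_succ {m : E} {t : Chain E →₀ ℤ} {i : ℕ}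
    (hm : ∀ c, t c ≠ 0 → ∀ y ∈ c.finset, m < y) (ht : IsDeg (chainsObj E).deg (i + 1) t) :
    (chainsObj E).d (cgCone m t) = t - cgCone m ((chainsObj E).d t) := by
  refine cg_congr (f := (chainsObj E).d.comp (cgCone m))
    (g := AddMonoidHom.id _ - (cgCone m).comp (chainsObj E).d) fun c hc => ?_
  have h1 : c.finset.card - 1 = i + 1 := ht c hc
  change lin _ (cgCone m _) = _ - cgCone m (lin _ _)
  rw [cgCone, lin_single, lin_single, one_smul, one_smul,
    lin_ch dch (by simp [dch]) (cg_isCh_insert c.isCh (hm c hc)), cg_dch_insert (hm c hc),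
    ch_finset, dch, map_sum]
  congr 1
  refine Finset.sum_congr rfl fun y hy => ?_
  have h2 : (c.finset.erase y).Nonempty := by
    rw [← Finset.card_pos, Finset.card_erase_of_mem hy]
    omega
  rw [map_zsmul, ch.eq_1 (c.finset.erase y), dif_pos ⟨h2, c.isCh.mono (Finset.erase_subset _ _)⟩,
    lin_single, one_smul]

open Classical in
lemma cg_d_cone_zero {m : E} {t : Chain E →₀ ℤ}
    (hm : ∀ c, t c ≠ 0 → ∀ y ∈ c.finset, m < y) (ht : IsDeg (chainsObj E).deg 0 t) :
    (chainsObj E).d (cgCone m t) = t - aug t • ch {m} := by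
  refine cg_congr (f := (chainsObj E).d.comp (cgCone m))
    (g := AddMonoidHom.id _ - (zmultiplesHom _ (ch {m})).comp aug) fun c hc => ?_
  have h1 : c.finset.card - 1 = 0 := ht c hc
  have h2 := c.nonempty.card_pos
  obtain ⟨y, hy⟩ := Finset.card_eq_one.1 (show c.finset.card = 1 by omega)
  change lin _ (cgCone m _) = _ - aug _ • _
  rw [cgCone, lin_single, one_smul,
    lin_ch dch (by simp [dch]) (cg_isCh_insert c.isCh (hm c hc)), cg_dch_insert (hm c hc),
    ch_finset, aug_single, hy]
  simp [sgn, Finset.filter_singleton]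

open Classical in
lemma cg_cone_ne {m : E} {t : Chain E →₀ ℤ} {c : Chain E} (h : cgCone m t c ≠ 0) :
    ∃ c', t c' ≠ 0 ∧ c.finset = insert m c'.finset := by
  obtain ⟨c', h1, h2⟩ := cg_lin_ne h
  exact ⟨c', h1, finset_eq_of_ch_ne h2⟩

lemma cg_exists_min (c : Chain E) : ∃ m ∈ c.finset, ∀ t ∈ c.finset, m ≤ t := by
  obtain ⟨t, ht⟩ := c.finset.exists_minimal c.nonempty
  refine ⟨t, ht.1, fun x hx => ?_⟩
  rcases c.isCh x hx t ht.1 with h | h
  · exact ht.2 hx h
  · exact h

open Classical in
lemma cg_atom_cone {m : E} {s s' : Chain E} (hs : s.finset = insert m s'.finset)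
    (hm : ∀ y ∈ s'.finset, m < y) {x : Raw (Chain E)} (hx : IsAtom (chainsObj E) s' x)
    (hsupp : ∀ ε i c, x ε i c ≠ 0 → c ≤ s') :
    ∃ x', IsAtom (chainsObj E) s x' ∧ (∀ ε i c, x' ε i c ≠ 0 → c ≤ s) ∧ x' false 0 = ch {m} := by
  have h0 : m ∉ s'.finset := fun h => lt_irrefl _ (hm m h)
  have hlt : ∀ ε i c, x ε i c ≠ 0 → ∀ y ∈ c.finset, m < y := fun ε i c hc y hy =>
    hm y (hsupp ε i c hc hy)
  have hnm : ∀ ε i c, x ε i c ≠ 0 → m ∉ c.finset := fun ε i c hc h =>
    lt_irrefl _ (hlt ε i c hc m h)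
  have hdeg : (chainsObj E).deg s = (chainsObj E).deg s' + 1 := by
    have := s'.nonempty.card_pos
    change s.finset.card - 1 = s'.finset.card - 1 + 1
    rw [hs, Finset.card_insert_of_notMem h0]
    omega
  have hch : IsCh ({m} : Finset E) := fun a ha b hb =>
    Or.inl ((Finset.mem_singleton.1 ha).trans (Finset.mem_singleton.1 hb).symm).le
  let x' : Raw (Chain E) := fun ε i => Nat.casesOn i (if ε then x true 0 else ch {m})
    fun i => cgCone m (x (!ε) i) + if ε then x true (i + 1) else 0
  have e0 : x' false 0 = ch {m} := rfl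
  have e1 : x' true 0 = x true 0 := rfl
  have e2 : ∀ i, x' false (i + 1) = cgCone m (x true i) := fun i => add_zero _
  have e3 : ∀ i, x' true (i + 1) = cgCone m (x false i) + x true (i + 1) := fun i => rfl
  have hn : ∀ ε i, 0 ≤ cgCone m (x ε i) := fun ε i =>
    rel_lin_nonneg (fun _ => ch_nonneg _) (hx.tab.nonneg ε i)
  have hd : ∀ ε i, IsDeg (chainsObj E).deg (i + 1) (cgCone m (x ε i)) := fun ε i c hc => by
    obtain ⟨c', h1, h2⟩ := cg_cone_ne hc
    have h3 : c'.finset.card - 1 = i := hx.tab.deg ε i c' h1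
    have h4 := c'.nonempty.card_pos
    change c.finset.card - 1 = i + 1
    rw [h2, Finset.card_insert_of_notMem (hnm ε i c' h1)]
    omega
  have hle : s' ≤ s := by
    change s'.finset ⊆ s.finset
    rw [hs]
    exact Finset.subset_insert _ _
  have hcs : ∀ ε i c, cgCone m (x ε i) c ≠ 0 → c ≤ s := fun ε i c hc => by
    obtain ⟨c', h1, h2⟩ := cg_cone_ne hc
    change c.finset ⊆ s.finset
    rw [hs, h2]
    exact Finset.insert_subset_insert _ (hsupp ε i c' h1)
  refine ⟨x', ⟨⟨?_, ?_, ?_, ?_⟩, ?_, ?_, ?_⟩, ?_, e0⟩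
  · rintro (_ | _) (_ | i)
    · exact ch_nonneg _
    · exact e2 i ▸ hn _ _
    · exact hx.tab.nonneg _ _
    · exact add_nonneg (hn _ _) (hx.tab.nonneg _ _)
  · rintro (_ | _) (_ | i)
    · intro c hc
      change c.finset.card - 1 = 0
      rw [finset_eq_of_ch_ne hc, Finset.card_singleton]
    · exact e2 i ▸ hd _ _
    · exact hx.tab.deg _ _
    · exact rel_deg_add (hd _ _) (hx.tab.deg _ _)
  · rintro (_ | _)
    · exact aug_ch (Finset.singleton_nonempty m) hch
    · exact hx.tab.aug _
  · rintro (_ | _) (_ | i)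
    · rw [e2, e1, e0, cg_d_cone_zero (hlt _ _) (hx.tab.deg _ _), hx.tab.aug, one_smul]
    · rw [e2, e3, e2, cg_d_cone_succ (hlt _ _) (hx.tab.deg _ _), hx.tab.d, map_sub]
      abel
    · rw [e3, e1, e0, map_add, cg_d_cone_zero (hlt _ _) (hx.tab.deg _ _), hx.tab.aug, one_smul,
        hx.tab.d]
      abel
    · rw [e3, e3, e2, map_add, cg_d_cone_succ (hlt _ _) (hx.tab.deg _ _), hx.tab.d, hx.tab.d,
        map_sub]
      abel
  · have : cgCone m (Finsupp.single s' 1) = Finsupp.single s 1 := by
      rw [cgCone, lin_single, one_smul, ← hs, ch_finset]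
    rintro (_ | _)
    · rw [hdeg, e2, hx.top, this]
    · rw [hdeg, e3, hx.top, this, hx.zero _ _ (Nat.lt_succ_self _), add_zero]
  · rintro (_ | _) (_ | i) hi
    · omega
    · rw [e2, hx.zero _ _ (by omega), map_zero]
    · omega
    · rw [e3, hx.zero _ _ (by omega), hx.zero _ _ (by omega), map_zero, add_zero]
  · rintro (_ | i) hi c
    · rw [e0, e1]
      by_contra hc
      push Not at hc
      exact hnm _ _ c hc.1 (finset_eq_of_ch_ne hc.2 ▸ Finset.mem_singleton_self m)
    · rw [e2, e3]
      by_contra hc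
      push Not at hc
      obtain ⟨c', h1, h2⟩ := cg_cone_ne hc.2
      have h3 : x true (i + 1) c = 0 := by
        by_contra h3
        exact hnm _ _ c h3 (h2 ▸ Finset.mem_insert_self _ _)
      obtain ⟨c'', h4, h5⟩ := cg_cone_ne (m := m) (t := x false i) (c := c) (by
        simpa [h3] using hc.1)
      have h6 : c' = c'' := PartialOrder.NonemptyFiniteChains.ext (by
        rw [← Finset.erase_insert (hnm _ _ c' h1), ← h2, h5, Finset.erase_insert (hnm _ _ c'' h4)])
      subst h6
      exact (hx.disj i (by omega) c').elim h1 h4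
  · rintro (_ | _) (_ | i) c hc
    · change c.finset ⊆ s.finset
      rw [finset_eq_of_ch_ne hc, hs, Finset.singleton_subset_iff]
      exact Finset.mem_insert_self _ _
    · exact hcs _ _ c (e2 i ▸ hc)
    · exact (hsupp _ _ c hc).trans hle
    · by_cases h : x true (i + 1) c = 0
      · exact hcs false i c (by simpa [e3, h] using hc)
      · exact (hsupp _ _ c h).trans hle

theorem exists_atom_chain (s : Chain E) : ∃ x, IsAtom (chainsObj E) s x ∧
    (∀ ε i c, x ε i c ≠ 0 → c ≤ s) ∧
    ∀ m ∈ s.finset, (∀ t ∈ s.finset, m ≤ t) → x false 0 = ch {m} := by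
  classical
  induction hn : s.finset.card using Nat.strong_induction_on generalizing s with
  | _ n ih =>
    obtain ⟨m, hm, hmin⟩ := cg_exists_min s
    suffices h : ∃ x, IsAtom (chainsObj E) s x ∧ (∀ ε i c, x ε i c ≠ 0 → c ≤ s) ∧
        x false 0 = ch {m} by
      obtain ⟨x, h1, h2, h3⟩ := h
      exact ⟨x, h1, h2, fun m' hm' h => by rw [h3, le_antisymm (hmin m' hm') (h m hm)]⟩
    by_cases hne : (s.finset.erase m).Nonempty
    · let s' : Chain E := ⟨s.finset.erase m, hne, fun a b =>
        s.isCh a.1 (Finset.mem_of_mem_erase a.2) b.1 (Finset.mem_of_mem_erase b.2)⟩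
      obtain ⟨x, h1, h2, -⟩ := ih _ (hn ▸ Finset.card_erase_lt_of_mem hm) s' rfl
      refine cg_atom_cone (s' := s') ?_ (fun y hy => ?_) h1 h2
      · convert (Finset.insert_erase hm).symm
      · exact lt_of_le_of_ne (hmin y (Finset.mem_of_mem_erase hy)) (Finset.ne_of_mem_erase hy).symm
    · have hs : s.finset = {m} := by
        rw [← Finset.insert_erase hm, Finset.not_nonempty_iff_eq_empty.1 hne]
        rfl
      have hd : (chainsObj E).deg s = 0 := by
        change s.finset.card - 1 = 0
        rw [hs, Finset.card_singleton]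
      refine ⟨fun _ i => if i = 0 then Finsupp.single s 1 else 0,
        ⟨⟨fun ε i => ?_, fun ε i => ?_, fun ε => by simp, fun ε i => by simp⟩,
          fun ε => if_pos hd, fun ε i hi => if_neg (by omega), fun i hi => by omega⟩,
        fun ε i c hc => ?_, by rw [← hs, ch_finset]; rfl⟩
      · split_ifs
        · exact Finsupp.single_nonneg.2 zero_le_one
        · exact le_rfl
      · split_ifs with h
        · exact rel_deg_single (hd.trans h.symm)
        · intro c hc
          simp at hc
      · beta_reduce at hc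
        split_ifs at hc
        · exact (Finsupp.single_apply_ne_zero.1 hc).1.le
        · simp at hc

instance goodChains (E : Type) [PartialOrder E] : Good (chainsObj E) := by
  refine ⟨fun b => (exists_atom_chain b).imp fun x hx => hx.1, ?_⟩
  obtain ⟨lt, h1, h2, h3⟩ := exists_chain_order E
  refine ⟨fun b c => lt b.finset c.finset, fun a => h1 _, fun a b c => h2 _ _ _, fun b c => ?_⟩
  have e : (chainsObj E).d (Finsupp.single b 1) = dch b.finset := by
    change lin _ _ = _
    rw [lin_single, one_smul]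
  rw [e]
  constructor
  · intro h
    obtain ⟨x, hx, h4, h5⟩ := cg_dch_apply h.ne
    rw [h4]
    exact (h3 _ x b.isCh hx).1 (h5 ▸ h)
  · intro h
    obtain ⟨x, hx, h4, h5⟩ := cg_dch_apply h.ne'
    rw [h4]
    exact (h3 _ x b.isCh hx).2 (h5 ▸ h)

lemma cg_atom_src (s : Chain E) {m : E} (hm : m ∈ s.finset) (h : ∀ t ∈ s.finset, m ≤ t) :
    (atom (K := chainsObj E) s).val false 0 = ch {m} := by
  obtain ⟨x, h1, -, h3⟩ := exists_atom_chain s
  rw [(isAtom_atom (K := chainsObj E) s).unique h1]
  exact h3 m hm h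

lemma atom_supp (s c : Chain E) (ε : Bool) (i : ℕ)
    (h : (atom (K := chainsObj E) s).val ε i c ≠ 0) : c ≤ s := by
  obtain ⟨x, h1, h2, -⟩ := exists_atom_chain s
  rw [(isAtom_atom (K := chainsObj E) s).unique h1] at h
  exact h2 ε i c h

lemma chainsMap_single (f : E →o F) (s : Chain E) (h : Set.InjOn f s.finset) :
    (chainsMap f).f (Finsupp.single s 1) = Finsupp.single (chMap f s) 1 := by
  rw [← ch_finset, chainsMap_ch _ s.isCh, chImage, if_pos h, ← ch_finset]
  rfl

lemma chainsMap_single_of_not (f : E →o F) (s : Chain E) (h : ¬ Set.InjOn f s.finset) :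
    (chainsMap f).f (Finsupp.single s 1) = 0 := by
  rw [← ch_finset, chainsMap_ch _ s.isCh, chImage, if_neg h]

lemma card_chMap (f : E →o F) (s : Chain E) (h : Set.InjOn f s.finset) :
    (chMap f s).finset.card = s.finset.card := by
  classical
  convert Finset.card_image_of_injOn h
  ext y
  simp [sdd_mem_chMap]

lemma cg_map_ne (f : E →o F) {t : Chain E →₀ ℤ} {c : Chain F} (h : (chainsMap f).f t c ≠ 0) :
    ∃ c', t c' ≠ 0 ∧ c = chMap f c' := by
  obtain ⟨c', h1, h2⟩ := cg_lin_ne h
  refine ⟨c', h1, ?_⟩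
  unfold chImage at h2
  split_ifs at h2
  · exact PartialOrder.NonemptyFiniteChains.ext (finset_eq_of_ch_ne h2)
  · simp at h2

lemma map_atom_injOn (f : E →o F) (s : Chain E) (h : Set.InjOn f s.finset) :
    Cell.map (chainsMap f) (atom (K := chainsObj E) s) = atom (K := chainsObj F) (chMap f s) := by
  have hx := isAtom_atom (K := chainsObj E) s
  have hd : (chainsObj F).deg (chMap f s) = (chainsObj E).deg s := by
    change _ - 1 = _ - 1
    rw [card_chMap f s h]
  refine eq_atom ⟨hx.tab.rmap _, fun ε => ?_, fun ε i hi => ?_, fun i hi c => ?_⟩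
  · rw [hd, Cell.map_val, rmap, hx.top, chainsMap_single f s h]
  · rw [Cell.map_val, rmap, hx.zero ε i (hd ▸ hi), map_zero]
  · by_contra hc
    push Not at hc
    obtain ⟨c₁, h1, h2⟩ := cg_map_ne f hc.1
    obtain ⟨c₂, h3, h4⟩ := cg_map_ne f hc.2
    have key : ∀ a b : Chain E, a ≤ s → b ≤ s → chMap f a = chMap f b → a ≤ b :=
      fun a b ha hb hab y hy => by
        obtain ⟨z, hz, hzy⟩ := (sdd_mem_chMap f b (f y)).1
          (hab ▸ (sdd_mem_chMap f a _).2 ⟨y, hy, rfl⟩)
        exact h (hb hz) (ha hy) hzy ▸ hz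
    have l1 := atom_supp s c₁ _ _ h1
    have l2 := atom_supp s c₂ _ _ h3
    obtain rfl : c₁ = c₂ :=
      le_antisymm (key _ _ l1 l2 (h2.symm.trans h4)) (key _ _ l2 l1 (h4.symm.trans h2))
    exact (hx.disj i (hd ▸ hi) c₁).elim h1 h3

lemma cg_map_eq (f : E →o F) (hf : Function.Injective f) (t : Chain E →₀ ℤ) :
    (chainsMap f).f t = Finsupp.mapDomain (chMap f) t := by
  have : (chainsMap f).f = Finsupp.mapDomain.addMonoidHom (chMap f) := addHom_ext fun b => by
    rw [chainsMap_single f b hf.injOn]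
    exact Finsupp.mapDomain_single.symm
  exact DFunLike.congr_fun this t

lemma chainsMap_injective (f : E →o F) (hf : Function.Injective f) :
    Function.Injective (chainsMap f).f := by
  intro t t' h
  rw [cg_map_eq f hf, cg_map_eq f hf] at h
  exact Finsupp.mapDomain_injective (sdd_chMap_injective f hf) h

lemma opMap_injective (f : E →o F) (hf : Function.Injective f) :
    Function.Injective (opMap f).toFun := by
  intro x y h
  refine Cell.ext (funext fun ε => funext fun i => chainsMap_injective f hf ?_)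
  exact congrFun (congrFun (congrArg Cell.val h) ε) i

/-- Cells have dimension bounded by the length of the chains. -/
lemma dim_of_card_le {k : ℕ} (h : ∀ c : Chain E, c.finset.card ≤ k + 1)
    (x : Cell (chainsObj E)) : (OP E).Dim k x := by
  have h1 : ∀ ε i, k < i → x.val ε i = 0 := fun ε i hi => by
    ext c
    by_contra hc
    have h2 : c.finset.card - 1 = i := x.tab.deg ε i c hc
    have := h c
    omega
  refine (dim_iff_rDim k x).2 ((rDim_iff _ _).2 ⟨?_, h1⟩)
  rw [← sub_eq_zero, ← x.tab.d false, h1 _ _ (Nat.lt_succ_self k), map_zero]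

lemma subsingleton_cell [Subsingleton E] : Subsingleton (Cell (chainsObj E)) := by
  have h : ∀ c : Chain E, c.finset.card ≤ 0 + 1 := fun c =>
    Finset.card_le_one.2 fun a _ b _ => Subsingleton.elim a b
  refine ⟨fun x y => ?_⟩
  obtain ⟨b, -, hb⟩ := exists_eq_single_of_rDim_zero x.tab
    ((dim_iff_rDim 0 x).1 (dim_of_card_le h x))
  obtain ⟨c, -, hc⟩ := exists_eq_single_of_rDim_zero y.tab
    ((dim_iff_rDim 0 y).1 (dim_of_card_le h y))
  have key : ∀ b c : Chain E, b ≤ c := fun b c z _ => by
    obtain ⟨w, hw⟩ := c.nonempty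
    exact Subsingleton.elim w z ▸ hw
  obtain rfl : b = c := le_antisymm (key _ _) (key _ _)
  exact Cell.ext (hb.unique hc)

/-- The chain with one element. -/
def chOne (e : E) : Chain E :=
  ⟨{e}, Finset.singleton_nonempty e, fun a b => Or.inl
    ((Finset.mem_singleton.1 a.2).trans (Finset.mem_singleton.1 b.2).symm).le⟩

/-- The object attached to an element of the poset. -/
noncomputable def vtx (e : E) : Cell (chainsObj E) := atom (K := chainsObj E) (chOne e)

lemma dim_vtx (e : E) : (OP E).Dim 0 (vtx e) := dim_atom (K := chainsObj E) (chOne e)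

lemma cg_vtx_val (e : E) (ε : Bool) : (vtx e).val ε 0 = Finsupp.single (chOne e) 1 :=
  (isAtom_atom (K := chainsObj E) (chOne e)).top ε

lemma cg_chOne_injective : Function.Injective (chOne : E → _) := fun _ _ h =>
  Finset.singleton_injective (congrArg PartialOrder.NonemptyFiniteChains.finset h)

lemma cg_bd_val {α : Bool} {x : Cell (chainsObj E)} {e : E} (h : (OP E).bd α 0 x = vtx e) :
    x.val α 0 = Finsupp.single (chOne e) 1 := by
  rw [← cg_vtx_val e α, ← h]
  simp [Cell.bd, rbd]

lemma vtx_injective : Function.Injective (vtx : E → _) := by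
  intro e e' h
  have h1 := cg_vtx_val e false
  rw [h, cg_vtx_val] at h1
  exact (cg_chOne_injective (Finsupp.single_left_injective one_ne_zero h1)).symm

lemma map_vtx (f : E →o F) (e : E) : Cell.map (chainsMap f) (vtx e) = vtx (f e) := by
  have h : chMap f (chOne e) = chOne (f e) := sdd_chain_ext fun y => by
    simp [chOne, eq_comm]
  rw [vtx, map_atom_injOn f _ (by simp [chOne]), vtx, h]

lemma exists_vtx (α : Bool) (x : Cell (chainsObj E)) : ∃ e, (OP E).bd α 0 x = vtx e := by
  obtain ⟨b, h1, hb⟩ := exists_eq_single_of_rDim_zero ((OP E).bd α 0 x).tab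
    ((dim_iff_rDim 0 _).1 (PreOmega.dim_bd (X := (OP E).toPreOmega) α 0 x))
  have h2 : b.finset.card - 1 = 0 := h1
  have h3 := b.nonempty.card_pos
  obtain ⟨e, he⟩ := Finset.card_eq_one.1 (show b.finset.card = 1 by omega)
  obtain rfl : b = chOne e := PartialOrder.NonemptyFiniteChains.ext he
  exact ⟨e, eq_atom hb⟩

lemma cg_bd_eq {α : Bool} {x : Cell (chainsObj E)} {e : E} (h : x.val α 0 = ch {e}) :
    (OP E).bd α 0 x = vtx e := by
  obtain ⟨e', he'⟩ := exists_vtx α x
  have h1 := cg_bd_val he'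
  rw [h, show ch {e} = Finsupp.single (chOne e) 1 from ch_finset (chOne e)] at h1
  rw [he', cg_chOne_injective (Finsupp.single_left_injective one_ne_zero h1)]

lemma exists_edge {e e' : E} (h : e ≤ e') :
    ∃ x, (OP E).bd false 0 x = vtx e ∧ (OP E).bd true 0 x = vtx e' := by
  classical
  rcases h.eq_or_lt with rfl | hlt
  · exact ⟨vtx e, (dim_vtx e).bd_eq _ le_rfl, (dim_vtx e).bd_eq _ le_rfl⟩
  have hm : ∀ t ∈ ({e, e'} : Finset E), t = e ∨ t = e' := fun t ht => by simpa using ht
  let s : Chain E := ⟨{e, e'}, by simp, fun a b => by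
    rcases hm a a.2 with h1 | h1 <;> rcases hm b b.2 with h2 | h2 <;>
      simp [← Subtype.coe_le_coe, h1, h2, h]⟩
  have h1 := cg_bd_eq (cg_atom_src s (m := e) (by simp [s]) fun t ht => by
    rcases hm t ht with rfl | rfl
    exacts [le_rfl, h])
  refine ⟨_, h1, ?_⟩
  obtain ⟨t, ht⟩ := exists_vtx true (atom (K := chainsObj E) s)
  have h2 := cg_bd_val ht
  have h3 := cg_bd_val h1
  rcases hm t (atom_supp s (chOne t) true 0 (by simp [h2]) (Finset.mem_singleton_self t))
    with rfl | rfl
  · have h4 := (isAtom_atom (K := chainsObj E) s).disj 0 (by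
      change 0 < ({t, e'} : Finset E).card - 1
      rw [Finset.card_pair hlt.ne]
      omega) (chOne t)
    simp [h2, h3] at h4
  · exact ht

lemma supp_ge (x : Cell (chainsObj E)) (e : E) (h : (OP E).bd false 0 x = vtx e) (ε : Bool)
    (i : ℕ) (c : Chain E) (hc : x.val ε i c ≠ 0) : ∀ t ∈ c.finset, e ≤ t := by
  refine cell_induction' (K := chainsObj E) (fun x => ∀ e, (OP E).bd false 0 x = vtx e →
    ∀ ε i c, x.val ε i c ≠ 0 → ∀ t ∈ c.finset, e ≤ t) ?_ ?_ x e h ε i c hc
  · intro s e h ε i c hc t ht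
    obtain ⟨m, hm, hmin⟩ := cg_exists_min s
    rw [← vtx_injective ((cg_bd_eq (cg_atom_src s hm hmin)).symm.trans h)]
    exact hmin t (atom_supp s c ε i hc ht)
  · intro j x y hxy hx hy e h ε i c hc t ht
    have h1 : (∃ ε, x.val ε i c ≠ 0) ∨ ∃ ε, y.val ε i c ≠ 0 := by
      rw [nu_comp_val j x y hxy, rcomp_apply ((cp_iff j x y).1 hxy)] at hc
      split_ifs at hc with h2 h3
      · exact Or.inl ⟨_, hc⟩
      · exact Or.inr ⟨_, h3 ▸ hc⟩
      · exact Or.inl ⟨_, h3 ▸ hc⟩
      · by_cases h4 : x.val ε i c = 0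
        · exact Or.inr ⟨ε, by simpa [h4] using hc⟩
        · exact Or.inl ⟨ε, h4⟩
    have h2 : (OP E).bd false 0 x = vtx e := by
      rcases Nat.eq_zero_or_pos j with rfl | hj
      · rw [← h, (OP E).src_comp 0 x y hxy]
      · rw [← h, hxy.bd_comp_lt hj]
    rcases h1 with ⟨ε', h1⟩ | ⟨ε', h1⟩
    · exact hx e h2 ε' i c h1 t ht
    · rcases Nat.eq_zero_or_pos j with rfl | hj
      · obtain ⟨e', he'⟩ := exists_vtx true x
        exact (hx e h2 true 0 (chOne e') (by simp [cg_bd_val he']) e'
          (Finset.mem_singleton_self e')).trans (hy e' (hxy.symm.trans he') ε' i c h1 t ht)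
      · exact hy e ((hxy.bd_lt hj false).symm.trans h2) ε' i c h1 t ht

lemma le_of_cell (x : Cell (chainsObj E)) {e e' : E} (h : (OP E).bd false 0 x = vtx e)
    (h' : (OP E).bd true 0 x = vtx e') : e ≤ e' :=
  supp_ge x e h true 0 (chOne e') (by simp [cg_bd_val h']) e' (Finset.mem_singleton_self e')

lemma exists_preimage (w : E ↪o F) (x : Cell (chainsObj F))
    (h : ∀ ε i c, x.val ε i c ≠ 0 → ∀ t ∈ c.finset, t ∈ Set.range w) :
    ∃ x', Cell.map (chainsMap w.toOrderHom) x' = x := by
  have hw : Function.Injective w.toOrderHom := w.injective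
  have hφ := sdd_chMap_injective w.toOrderHom hw
  have hr : ∀ ε i, ((x.val ε i).support : Set (Chain F)) ⊆ Set.range (chMap w.toOrderHom) := by
    intro ε i c hc
    have h1 := h ε i c (Finsupp.mem_support_iff.1 hc)
    refine ⟨⟨c.finset.preimage w w.injective.injOn, ?_, fun a b => ?_⟩,
      sdd_chain_ext fun y => ?_⟩
    · obtain ⟨y, hy⟩ := c.nonempty
      obtain ⟨a, rfl⟩ := h1 y hy
      exact ⟨a, Finset.mem_preimage.2 hy⟩
    · exact (c.isCh _ (Finset.mem_preimage.1 a.2) _ (Finset.mem_preimage.1 b.2)).imp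
        w.le_iff_le.1 w.le_iff_le.1
    · rw [sdd_mem_chMap]
      constructor
      · rintro ⟨a, ha, rfl⟩
        exact (Finset.mem_preimage (f := w) (hf := w.injective.injOn)).1 ha
      · intro hy
        obtain ⟨a, rfl⟩ := h1 y hy
        exact ⟨a, (Finset.mem_preimage (hf := w.injective.injOn)).2 hy, rfl⟩
  let x' : Raw (Chain E) := fun ε i =>
    Finsupp.comapDomain (chMap w.toOrderHom) (x.val ε i) hφ.injOn
  have e : ∀ ε i, (chainsMap w.toOrderHom).f (x' ε i) = x.val ε i := fun ε i => by
    rw [cg_map_eq _ hw]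
    exact Finsupp.mapDomain_comapDomain _ hφ _ (hr ε i)
  have e' : rmap (chainsMap w.toOrderHom) x' = x.val := funext fun ε => funext fun i => e ε i
  have hd : ∀ ε i, IsDeg (chainsObj E).deg i (x' ε i) := fun ε i c hc => by
    have h1 : (chMap w.toOrderHom c).finset.card - 1 = i := x.tab.deg ε i _ hc
    rwa [card_chMap _ _ hw.injOn] at h1
  refine ⟨⟨x', ⟨fun ε i c => x.tab.nonneg ε i _, hd, fun ε => ?_, fun ε i => ?_⟩, ?_⟩,
    Cell.ext e'⟩
  · rw [← (chainsMap w.toOrderHom).aug _ (hd ε 0), e, x.tab.aug]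
  · refine chainsMap_injective _ hw ?_
    rw [← (chainsMap w.toOrderHom).comm, map_sub, e, e, e, x.tab.d]
  · obtain ⟨n, hn⟩ := x.fin
    refine ⟨n, funext fun ε => funext fun i => chainsMap_injective _ hw ?_⟩
    have h1 := rmap_rbd (chainsMap w.toOrderHom) false n x'
    rw [e', hn, ← e'] at h1
    exact congrFun (congrFun h1 ε) i

end Vale.Agent.P213
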