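import Vale.Agent.P213.OmBasic

/-!
P213, omega-categories part 3: presentations, colimits, truncation, the left adjoint `c_n`.

Terms are identified when they have the same value in every model of the presentation; a term
is defined when all its composites are composable in every model.
-/

open CategoryTheory Limits

namespace Vale.Agent.P213

/-- A family of omega-categories with a relation on their cells. -/
structure Pres : Type 1 where
  J : Type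
  X : J → OmegaCat
  R : (Σ j, (X j).C) → (Σ j, (X j).C) → Prop

/-- A structure given by a jointly injective family of maps. -/
structure OmcFam (I : Type 1) (X : I → PreOmega) : Type 1 where
  T : Type
  v : ∀ i, T → (X i).C
  bd : Bool → ℕ → T → T
  comp : ℕ → T → T → T
  inj : ∀ x y, (∀ i, v i x = v i y) → x = y
  hbd : ∀ i α n x, v i (bd α n x) = (X i).bd α n (v i x)
  hcomp : ∀ i n x y, (∀ j, (X j).Cp n (v j x) (v j y)) →
    v i (comp n x y) = (X i).comp n (v i x) (v i y)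

namespace OmcFam

variable {I : Type 1} {X : I → PreOmega} (S : OmcFam I X)

lemma cp {n : ℕ} {x y : S.T} (h : S.bd true n x = S.bd false n y) (i : I) :
    (X i).Cp n (S.v i x) (S.v i y) := by
  unfold PreOmega.Cp
  rw [← S.hbd, ← S.hbd, h]

/-- The induced structure. -/
@[reducible]
def pre : PreOmega where
  C := S.T
  bd := S.bd
  comp := S.comp
  bd_bd_le α β m n x h := S.inj _ _ fun i => by
    rw [S.hbd, S.hbd]; exact (X i).bd_bd_le α β m n _ h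
  bd_bd_lt α β m n x h := S.inj _ _ fun i => by
    rw [S.hbd, S.hbd, S.hbd]; exact (X i).bd_bd_lt α β m n _ h
  src_comp n x y h := S.inj _ _ fun i => by
    rw [S.hbd, S.hbd, S.hcomp _ _ _ _ (S.cp h)]; exact (X i).src_comp n _ _ (S.cp h i)
  tgt_comp n x y h := S.inj _ _ fun i => by
    rw [S.hbd, S.hbd, S.hcomp _ _ _ _ (S.cp h)]; exact (X i).tgt_comp n _ _ (S.cp h i)
  bd_comp_gt α m n x y hmn h := S.inj _ _ fun i => by
    rw [S.hbd, S.hcomp _ _ _ _ (S.cp h), S.hcomp _ _ _ _ fun j => ?_, S.hbd, S.hbd]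
    · exact (X i).bd_comp_gt α m n _ _ hmn (S.cp h i)
    · rw [S.hbd, S.hbd]
      exact (S.cp h j).bd_gt hmn α α
  id_comp n x := S.inj _ _ fun i => by
    rw [S.hcomp _ _ _ _ fun j => ?_, S.hbd]
    · exact (X i).id_comp n _
    · rw [S.hbd]
      exact PreOmega.bd_bd_self _ _ _ _
  comp_id n x := S.inj _ _ fun i => by
    rw [S.hcomp _ _ _ _ fun j => ?_, S.hbd]
    · exact (X i).comp_id n _
    · rw [S.hbd]
      exact (PreOmega.bd_bd_self _ _ _ _).symm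
  assoc n x y z h₁ h₂ := S.inj _ _ fun i => by
    rw [S.hcomp _ _ _ z fun j => ?_, S.hcomp _ _ x (S.comp n y z) fun j => ?_,
      S.hcomp _ _ _ _ (S.cp h₁), S.hcomp _ _ _ _ (S.cp h₂)]
    · exact (X i).assoc n _ _ _ (S.cp h₁ i) (S.cp h₂ i)
    · rw [S.hcomp _ _ _ _ (S.cp h₂)]
      exact (S.cp h₁ j).trans ((X j).src_comp n _ _ (S.cp h₂ j)).symm
    · rw [S.hcomp _ _ _ _ (S.cp h₁)]
      exact ((X j).tgt_comp n _ _ (S.cp h₁ j)).trans (S.cp h₂ j)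
  exchange m n x y x' y' hmn h₁ h₂ h₃ := S.inj _ _ fun i => by
    have h₄ : ∀ j, (X j).Cp m (S.v j y) (S.v j y') := fun j =>
      ((S.cp h₁ j).bd_lt hmn true).symm.trans ((S.cp h₃ j).trans ((S.cp h₂ j).bd_lt hmn false))
    rw [S.hcomp _ _ (S.comp n x y) _ fun j => ?_, S.hcomp _ _ (S.comp m x x') _ fun j => ?_,
      S.hcomp _ _ _ _ (S.cp h₁), S.hcomp _ _ _ _ (S.cp h₂), S.hcomp _ _ _ _ (S.cp h₃),
      S.hcomp _ _ _ _ h₄]
    · exact (X i).exchange m n _ _ _ _ hmn (S.cp h₁ i) (S.cp h₂ i) (S.cp h₃ i)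
    · rw [S.hcomp _ _ _ _ (S.cp h₃), S.hcomp _ _ _ _ h₄]
      unfold PreOmega.Cp
      rw [(X j).bd_comp_gt _ _ _ _ _ hmn (S.cp h₃ j), (X j).bd_comp_gt _ _ _ _ _ hmn (h₄ j),
        S.cp h₁ j, S.cp h₂ j]
    · rw [S.hcomp _ _ _ _ (S.cp h₁), S.hcomp _ _ _ _ (S.cp h₂)]
      exact ((S.cp h₁ j).bd_comp_lt hmn true).trans
        ((S.cp h₃ j).trans ((S.cp h₂ j).bd_comp_lt hmn false).symm)

end OmcFam

/-- Formal terms. -/
inductive OmcTm (A : Type) : Type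
  | gen (a : A) : OmcTm A
  | bd (α : Bool) (n : ℕ) (t : OmcTm A) : OmcTm A
  | comp (n : ℕ) (t t' : OmcTm A) : OmcTm A

namespace Pres

variable (P : Pres)

/-- Models of a presentation. -/
structure Mdl : Type 1 where
  Y : OmegaCat
  f : ∀ j, P.X j ⟶ Y
  h : ∀ a b, P.R a b → (f a.1).toFun a.2 = (f b.1).toFun b.2

variable {P} in
/-- Evaluation of a term in a model. -/
def Mdl.ev (M : P.Mdl) : OmcTm (Σ j, (P.X j).C) → M.Y.C
  | .gen a => (M.f a.1).toFun a.2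
  | .bd α n t => M.Y.bd α n (ev M t)
  | .comp n t t' => M.Y.comp n (ev M t) (ev M t')

/-- Terms that are defined in every model. -/
def Df : OmcTm (Σ j, (P.X j).C) → Prop
  | .gen _ => True
  | .bd _ _ t => Df t
  | .comp n t t' => Df t ∧ Df t' ∧ ∀ M : P.Mdl, M.Y.Cp n (M.ev t) (M.ev t')

/-- Equality in every model. -/
def rel : Setoid {t // P.Df t} := Setoid.ker fun t (M : P.Mdl) => M.ev t.1

/-- Evaluation of a class. -/
def evq (M : P.Mdl) : Quotient P.rel → M.Y.C :=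
  Quotient.lift (fun t => M.ev t.1) fun _ _ h => congrFun h M

lemma evq_out (M : P.Mdl) (x : Quotient P.rel) : M.ev x.out.1 = P.evq M x := by
  conv_rhs => rw [← x.out_eq]
  rfl

open Classical in
/-- The family of all models. -/
noncomputable def fam : OmcFam P.Mdl fun M => M.Y.toPreOmega where
  T := Quotient P.rel
  v := P.evq
  bd α n x := ⟦⟨.bd α n x.out.1, x.out.2⟩⟧
  comp n x y := if h : ∀ M : P.Mdl, M.Y.Cp n (M.ev x.out.1) (M.ev y.out.1) then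
    ⟦⟨.comp n x.out.1 y.out.1, x.out.2, y.out.2, h⟩⟧ else x
  inj x y := by
    induction x using Quotient.inductionOn
    induction y using Quotient.inductionOn
    exact fun h => Quotient.sound (funext h)
  hbd M α n x := congrArg (M.Y.bd α n) (P.evq_out M x)
  hcomp M n x y h := by
    rw [dif_pos fun M => by rw [evq_out, evq_out]; exact h M]
    exact congrArg₂ (M.Y.comp n) (P.evq_out M x) (P.evq_out M y)

lemma fam_ind (p : P.fam.pre.C → Prop) (h0 : ∀ a, p ⟦⟨.gen a, trivial⟩⟧)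
    (h1 : ∀ α n x, p x → p (P.fam.pre.bd α n x))
    (h2 : ∀ n x y, P.fam.pre.Cp n x y → p x → p y → p (P.fam.pre.comp n x y)) (x) : p x := by
  obtain ⟨t, ht⟩ := x
  change p ⟦⟨t, ht⟩⟧
  induction t with
  | gen a => exact h0 a
  | bd α n t ih =>
    have e : P.fam.pre.bd α n ⟦⟨t, ht⟩⟧ = ⟦⟨.bd α n t, ht⟩⟧ :=
      P.fam.inj _ _ fun M => P.fam.hbd M α n _
    exact e ▸ h1 α n _ (ih ht)
  | comp n t t' ih ih' =>
    have e : P.fam.pre.comp n ⟦⟨t, ht.1⟩⟧ ⟦⟨t', ht.2.1⟩⟧ = ⟦⟨.comp n t t', ht⟩⟧ :=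
      P.fam.inj _ _ fun M => P.fam.hcomp M n _ _ ht.2.2
    refine e ▸ h2 n _ _ (P.fam.inj _ _ fun M => ?_) (ih ht.1) (ih' ht.2.1)
    exact (P.fam.hbd M _ _ _).trans ((ht.2.2 M).trans (P.fam.hbd M _ _ ⟦⟨t', ht.2.1⟩⟧).symm)

/-- The generators. -/
noncomputable def genHom (j : P.J) : (P.X j).toPreOmega.Hom P.fam.pre where
  toFun x := ⟦⟨.gen ⟨j, x⟩, trivial⟩⟧
  map_bd α n x := P.fam.inj _ _ fun M =>
    ((M.f j).map_bd α n x).trans (P.fam.hbd M α n ⟦⟨.gen ⟨j, x⟩, trivial⟩⟧).symm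
  map_comp n x y h := P.fam.inj _ _ fun M => ((M.f j).map_comp n x y h).trans
    (P.fam.hcomp M n ⟦⟨.gen ⟨j, x⟩, trivial⟩⟧ ⟦⟨.gen ⟨j, y⟩, trivial⟩⟧
      fun M' => (M'.f j).map_cp h).symm

/-- The presented omega-category. -/
@[reducible]
noncomputable def obj : OmegaCat where
  toPreOmega := P.fam.pre
  fin := P.fam_ind _ (fun a => by
      obtain ⟨k, hk⟩ := (P.X a.1).fin a.2
      exact ⟨k, (P.genHom a.1).map_dim hk⟩)
    (fun α n x _ => ⟨n, PreOmega.dim_bd (X := P.fam.pre) α n x⟩)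
    (fun n x y h hx hy => P.fam.pre.fin_comp n x y h hx hy)

end Pres

theorem Pres.exists_obj (P : Pres) : ∃ (Q : OmegaCat) (ι : ∀ j, P.X j ⟶ Q),
    (∀ a b, P.R a b → (ι a.1).toFun a.2 = (ι b.1).toFun b.2) ∧
    (∀ (Y : OmegaCat) (f : ∀ j, P.X j ⟶ Y),
      (∀ a b, P.R a b → (f a.1).toFun a.2 = (f b.1).toFun b.2) →
        ∃ g : Q ⟶ Y, ∀ j, ι j ≫ g = f j) ∧
    (∀ p : Q.C → Prop, (∀ j x, p ((ι j).toFun x)) → (∀ α n x, p x → p (Q.bd α n x)) →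
      (∀ n x y, Q.Cp n x y → p x → p y → p (Q.comp n x y)) → ∀ x, p x) := by
  refine ⟨P.obj, P.genHom, fun a b h => P.fam.inj _ _ fun M => M.h a b h, fun Y f h => ?_,
    fun p h0 h1 h2 => P.fam_ind p (fun a => h0 a.1 a.2) h1 h2⟩
  exact ⟨⟨P.evq ⟨Y, f, h⟩, P.fam.hbd ⟨Y, f, h⟩,
    fun n x y e => P.fam.hcomp ⟨Y, f, h⟩ n x y (P.fam.cp e)⟩, fun _ => rfl⟩

lemma omc_ext {Q Y : OmegaCat} {q : Q.C → Prop}
    (h : ∀ p : Q.C → Prop, (∀ x, q x → p x) → (∀ α n x, p x → p (Q.bd α n x)) →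
      (∀ n x y, Q.Cp n x y → p x → p y → p (Q.comp n x y)) → ∀ x, p x)
    {g g' : Q ⟶ Y} (e : ∀ x, q x → g.toFun x = g'.toFun x) : g = g' :=
  OmegaCat.hom_ext (h _ e (fun α n x hx => by rw [g.map_bd, g'.map_bd, hx])
    fun n x y hc hx hy => by rw [g.map_comp n x y hc, g'.map_comp n x y hc, hx, hy])

lemma omc_isNCat {Q : OmegaCat} {q : Q.C → Prop} {n : ℕ∞}
    (h : ∀ p : Q.C → Prop, (∀ x, q x → p x) → (∀ α n x, p x → p (Q.bd α n x)) →
      (∀ n x y, Q.Cp n x y → p x → p y → p (Q.comp n x y)) → ∀ x, p x)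
    (e : ∀ x, q x → ∃ k : ℕ, (k : ℕ∞) ≤ n ∧ Q.Dim k x) : IsNCat n Q := by
  refine h _ e (fun α m x hx => ?_) fun m x y hc hx hy => ?_
  · obtain ⟨k, hk, hx⟩ := hx
    exact ⟨k, hk, PreOmega.Dim.bd hx α m⟩
  · obtain ⟨k, hk, hx⟩ := hx
    obtain ⟨l, hl, hy⟩ := hy
    refine ⟨max k l, ?_, PreOmega.Dim.comp (PreOmega.Dim.mono hx (le_max_left _ _))
      (PreOmega.Dim.mono hy (le_max_right _ _)) hc⟩
    rcases le_total k l with h1 | h1
    · rwa [max_eq_right h1]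
    · rwa [max_eq_left h1]

instance : HasColimits OmegaCat := by
  refine ⟨fun J _ => ⟨fun F => ?_⟩⟩
  obtain ⟨Q, ι, h1, h2, h3⟩ := Pres.exists_obj
    ⟨J, F.obj, fun a b => ∃ f : a.1 ⟶ b.1, (F.map f).toFun a.2 = b.2⟩
  let c : Cocone F := ⟨Q, ι, fun i j f => OmegaCat.hom_ext fun x =>
    (h1 ⟨i, x⟩ ⟨j, _⟩ ⟨f, rfl⟩).symm⟩
  refine ⟨⟨c, IsColimit.ofExistsUnique fun s => ?_⟩⟩
  obtain ⟨g, hg⟩ := h2 s.pt s.ι.app (by
    rintro ⟨i, x⟩ ⟨j, y⟩ ⟨f, hf⟩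
    exact (congrArg (fun g => g.toFun x) (s.w f)).symm.trans (congrArg (s.ι.app j).toFun hf))
  refine ⟨g, hg, fun g' hg' => omc_ext (q := fun x => ∃ j y, (ι j).toFun y = x)
    (fun p hp => h3 p fun j x => hp _ ⟨j, x, rfl⟩) ?_⟩
  rintro _ ⟨j, y, rfl⟩
  exact congrArg (fun g => g.toFun y) ((hg' j).trans (hg j).symm)

lemma omc_ind {J : Type} [SmallCategory J] {F : J ⥤ OmegaCat} {c : Cocone F} (hc : IsColimit c)
    (p : c.pt.C → Prop) (h0 : ∀ x, (∃ j y, (c.ι.app j).toFun y = x) → p x)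
    (h1 : ∀ α n x, p x → p (c.pt.bd α n x))
    (h2 : ∀ n x y, c.pt.Cp n x y → p x → p y → p (c.pt.comp n x y)) (x : c.pt.C) : p x := by
  let s : Cocone F := ⟨c.pt.sub p h1 h2,
    fun j => OmegaCat.subLift p h1 h2 (c.ι.app j) fun y => h0 _ ⟨j, y, rfl⟩,
    fun i j f => OmegaCat.hom_ext fun y => Subtype.ext (congrArg (fun g => g.toFun y) (c.w f))⟩
  have e : hc.desc s ≫ OmegaCat.subι p h1 h2 = 𝟙 c.pt := hc.hom_ext fun j => by
    rw [← Category.assoc, hc.fac]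
    rfl
  have e' : ((hc.desc s).toFun x).1 = x := congrArg (fun g => g.toFun x) e
  exact e' ▸ ((hc.desc s).toFun x).2

instance omc_closed (n : ℕ∞) (J : Type) [SmallCategory J] :
    (IsNCat n).IsClosedUnderColimitsOfShape J where
  colimitsOfShape_le := by
    rintro X ⟨h⟩
    refine omc_isNCat (omc_ind h.isColimit) ?_
    rintro _ ⟨j, y, rfl⟩
    obtain ⟨k, hk, hy⟩ := h.prop_diag_obj j y
    exact ⟨k, hk, (h.ι.app j).map_dim hy⟩

instance (n : ℕ∞) : HasColimits (NCat n) :=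
  ⟨fun _ _ => inferInstance⟩

instance (n : ℕ∞) : PreservesColimits (IsNCat n).ι :=
  ⟨fun {_} _ => inferInstance⟩

lemma omc_trunc (n : ℕ∞) (X : OmegaCat) : ∃ (Q : NCat n) (η : X ⟶ Q.obj),
    ∀ Y : NCat n, Function.Bijective fun g : Q ⟶ Y => η ≫ g.hom := by
  obtain ⟨Q, ι, h1, h2, h3⟩ := Pres.exists_obj
    ⟨Unit, fun _ => X, fun a b => ∃ k : ℕ, (k : ℕ∞) = n ∧ X.bd false k a.2 = b.2⟩
  have h4 := fun p (hp : ∀ x, (∃ y, (ι ()).toFun y = x) → p x) =>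
    h3 p fun _ x => hp _ ⟨x, rfl⟩
  refine ⟨⟨Q, omc_isNCat h4 ?_⟩, ι (), fun Y => ⟨fun g g' e => ?_, fun f => ?_⟩⟩
  · rintro _ ⟨y, rfl⟩
    induction n using ENat.recTopCoe with
    | top =>
      obtain ⟨k, hk⟩ := Q.fin ((ι ()).toFun y)
      exact ⟨k, le_top, hk⟩
    | coe m =>
      exact ⟨m, le_rfl, ((ι ()).map_bd _ _ _).symm.trans (h1 ⟨(), y⟩ ⟨(), _⟩ ⟨m, rfl, rfl⟩).symm⟩
  · refine ObjectProperty.hom_ext _ (omc_ext h4 ?_)
    rintro _ ⟨y, rfl⟩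
    exact congrArg (fun g => g.toFun y) e
  · obtain ⟨g, hg⟩ := h2 Y.obj (fun _ => f) (by
      rintro ⟨_, x⟩ ⟨_, _⟩ ⟨k, rfl, rfl⟩
      obtain ⟨l, hl, hx⟩ := Y.property (f.toFun x)
      exact ((f.map_bd _ _ _).trans (PreOmega.Dim.mono hx (by exact_mod_cast hl))).symm)
    exact ⟨ObjectProperty.homMk g, hg ()⟩

theorem exists_trunc (n : ℕ∞) : ∃ τ : OmegaCat ⥤ NCat n, Nonempty (τ ⊣ (IsNCat n).ι) := by
  choose Q η h using omc_trunc n
  exact ⟨_, ⟨Adjunction.adjunctionOfEquivLeft (G := (IsNCat n).ι) (F_obj := Q)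
    (fun X Y => Equiv.ofBijective _ (h X Y)) fun _ _ _ _ _ => rfl⟩⟩

theorem exists_leftAdjoint (n : ℕ∞) : ∃ c : SSet.{0} ⥤ NCat n, Nonempty (c ⊣ nerveN n) := by
  obtain ⟨τ, ⟨adj⟩⟩ := exists_trunc n
  exact ⟨_, ⟨(Presheaf.uliftYonedaAdjunction.{0} _
    (uliftYoneda.{0}.leftKanExtensionUnit oriental)).comp adj⟩⟩

end Vale.Agent.P213
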