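import Vale.Agent.P213.OmBasic

/-!
P213, omega-categories part 4: filtered colimits are computed on cells.

Reduce to a directed poset with nonempty stages; then the reduced product of the stages along
`atTop` receives a cocone that identifies only cells which become equal at a later stage.
-/

open CategoryTheory Limits

namespace Vale.Agent.P213

section

variable {α : Type} (l : Filter α) (X : α → PreOmega)

/-- The class of a family in the reduced product. -/
def omfMk (x : ∀ a, (X a).C) : l.Product fun a => (X a).C := Quotient.mk _ x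

variable {l X}

lemma omfMk_eq {x y : ∀ a, (X a).C} : omfMk l X x = omfMk l X y ↔ ∀ᶠ a in l, x a = y a :=
  Quotient.eq

variable (l X)

/-- The reduced product. -/
@[reducible]
def omfProd : PreOmega where
  C := l.Product fun a => (X a).C
  bd β n := Quotient.map (fun x a => (X a).bd β n (x a)) fun _ _ h =>
    Filter.Eventually.mono h fun _ e => congrArg _ e
  comp n := Quotient.map₂ (fun x y a => (X a).comp n (x a) (y a)) fun _ _ h _ _ h' =>
    (Filter.Eventually.and h h').mono fun _ e => congrArg₂ _ e.1 e.2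
  bd_bd_le β γ m n := by
    rintro ⟨x⟩ h
    exact omfMk_eq.2 (.of_forall fun a => (X a).bd_bd_le β γ m n _ h)
  bd_bd_lt β γ m n := by
    rintro ⟨x⟩ h
    exact omfMk_eq.2 (.of_forall fun a => (X a).bd_bd_lt β γ m n _ h)
  src_comp n := by
    rintro ⟨x⟩ ⟨y⟩ h
    exact omfMk_eq.2 ((omfMk_eq.1 h).mono fun a => (X a).src_comp n _ _)
  tgt_comp n := by
    rintro ⟨x⟩ ⟨y⟩ h
    exact omfMk_eq.2 ((omfMk_eq.1 h).mono fun a => (X a).tgt_comp n _ _)
  bd_comp_gt β m n := by
    rintro ⟨x⟩ ⟨y⟩ hm h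
    exact omfMk_eq.2 ((omfMk_eq.1 h).mono fun a => (X a).bd_comp_gt β m n _ _ hm)
  id_comp n := by
    rintro ⟨x⟩
    exact omfMk_eq.2 (.of_forall fun a => (X a).id_comp n _)
  comp_id n := by
    rintro ⟨x⟩
    exact omfMk_eq.2 (.of_forall fun a => (X a).comp_id n _)
  assoc n := by
    rintro ⟨x⟩ ⟨y⟩ ⟨z⟩ h h'
    exact omfMk_eq.2 (((omfMk_eq.1 h).and (omfMk_eq.1 h')).mono fun a e =>
      (X a).assoc n _ _ _ e.1 e.2)
  exchange m n := by
    rintro ⟨x⟩ ⟨y⟩ ⟨x'⟩ ⟨y'⟩ hm h1 h2 h3
    exact omfMk_eq.2 (((omfMk_eq.1 h1).and ((omfMk_eq.1 h2).and (omfMk_eq.1 h3))).mono fun a e =>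
      (X a).exchange m n _ _ _ _ hm e.1 e.2.1 e.2.2)

end

/-- A functor out of an omega-category lands in the cells of finite dimension. -/
noncomputable def omfLift {X : OmegaCat} {Y : PreOmega} (f : X.toPreOmega.Hom Y) :
    X ⟶ Y.finPart where
  toFun x := ⟨f.toFun x, (X.fin x).imp fun _ h => f.map_dim h⟩
  map_bd β n x := Subtype.ext (f.map_bd β n x)
  map_comp n x y h := Subtype.ext ((f.map_comp n x y h).trans
    (PreOmega.subComp_val (fun x => ∃ k, Y.Dim k x) (fun n x y h hx hy => Y.fin_comp n x y h hx hy)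
      n ⟨_, (X.fin x).imp fun _ h => f.map_dim h⟩ ⟨_, (X.fin y).imp fun _ h => f.map_dim h⟩
      (f.map_cp h)).symm)

section

variable {α : Type} [PartialOrder α] (F : α ⥤ OmegaCat) (z : ∀ a, (F.obj a).C)

open Classical in
/-- The family of the images of a cell. -/
noncomputable def omfVal {a : α} (x : (F.obj a).C) (b : α) : (F.obj b).C :=
  if h : a ≤ b then (F.map (homOfLE h)).toFun x else z b

lemma omfVal_eq {a b : α} (x : (F.obj a).C) (h : a ≤ b) :
    omfVal F z x b = (F.map (homOfLE h)).toFun x := dif_pos h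

/-- The map to the reduced product. -/
noncomputable def omfHom (a : α) :
    (F.obj a).toPreOmega.Hom (omfProd Filter.atTop fun b => (F.obj b).toPreOmega) where
  toFun x := omfMk _ _ (omfVal F z x)
  map_bd β n x := omfMk_eq.2 ((Filter.eventually_ge_atTop a).mono fun b h => by
    beta_reduce
    rw [omfVal_eq F z _ h, omfVal_eq F z _ h, PreOmega.Hom.map_bd])
  map_comp n x y e := omfMk_eq.2 ((Filter.eventually_ge_atTop a).mono fun b h => by
    beta_reduce
    rw [omfVal_eq F z _ h, omfVal_eq F z _ h, omfVal_eq F z _ h, PreOmega.Hom.map_comp _ _ _ _ e])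

include z in
lemma omf_eq [IsDirected α (· ≤ ·)] {c : Cocone F} (hc : IsColimit c) {a : α}
    (x x' : (F.obj a).C) (h : (c.ι.app a).toFun x = (c.ι.app a).toFun x') :
    ∃ (b : α) (f : a ⟶ b), (F.map f).toFun x = (F.map f).toFun x' := by
  have : Nonempty α := ⟨a⟩
  let s : Cocone F := ⟨_, fun a => omfLift (omfHom F z a), fun i j f =>
    OmegaCat.hom_ext fun y => Subtype.ext (omfMk_eq.2
      ((Filter.eventually_ge_atTop j).mono fun b hb => by
        rw [omfVal_eq F z _ hb, omfVal_eq F z _ (f.le.trans hb), ← OmegaCat.comp_toFun,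
          ← F.map_comp]
        rfl))⟩
  have e : (s.ι.app a).toFun x = (s.ι.app a).toFun x' := by
    rw [← hc.fac s a, OmegaCat.comp_toFun, OmegaCat.comp_toFun, h]
  obtain ⟨b, h1, h2⟩ :=
    ((omfMk_eq.1 (congrArg Subtype.val e)).and (Filter.eventually_ge_atTop a)).exists
  exact ⟨b, homOfLE h2, by rwa [omfVal_eq F z _ h2, omfVal_eq F z _ h2] at h1⟩

end

theorem filt_eq {J : Type} [SmallCategory J] [IsFiltered J] {F : J ⥤ OmegaCat} {c : Cocone F}
    (hc : IsColimit c) {j : J} (x x' : (F.obj j).C)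
    (h : (c.ι.app j).toFun x = (c.ι.app j).toFun x') :
    ∃ (k : J) (f : j ⟶ k), (F.map f).toFun x = (F.map f).toFun x' := by
  obtain ⟨α, _, _, ⟨a⟩, G, _⟩ := IsFiltered.exists_directed (Under j)
  have hc' := (Functor.Final.isColimitWhiskerEquiv (G ⋙ Under.forget j) c).symm hc
  have e : ∀ y, (c.ι.app (G.obj a).right).toFun ((F.map (G.obj a).hom).toFun y) =
      (c.ι.app j).toFun y := fun y => congrArg (fun g => g.toFun y) (c.w (G.obj a).hom)
  obtain ⟨b, f, hf⟩ := omf_eq _ (fun b => (F.map (G.obj b).hom).toFun x) hc' (a := a)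
    ((F.map (G.obj a).hom).toFun x) ((F.map (G.obj a).hom).toFun x')
    ((e x).trans (h.trans (e x').symm))
  refine ⟨(G.obj b).right, (G.obj a).hom ≫ (G.map f).right, ?_⟩
  rw [F.map_comp]
  exact hf

theorem filt_surj {J : Type} [SmallCategory J] [IsFiltered J] {F : J ⥤ OmegaCat} {c : Cocone F}
    (hc : IsColimit c) (y : c.pt.C) : ∃ (j : J) (x : (F.obj j).C), (c.ι.app j).toFun x = y := by
  let p : c.pt.C → Prop := fun y => ∃ (j : J) (x : (F.obj j).C), (c.ι.app j).toFun x = y
  have hw : ∀ {i j : J} (f : i ⟶ j) (x : (F.obj i).C),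
      (c.ι.app j).toFun ((F.map f).toFun x) = (c.ι.app i).toFun x :=
    fun f x => congrArg (fun g => g.toFun x) (c.w f)
  have h1 : ∀ β n x, p x → p (c.pt.bd β n x) := by
    rintro β n _ ⟨j, x, rfl⟩
    exact ⟨j, _, (c.ι.app j).map_bd β n x⟩
  have h2 : ∀ n x y, c.pt.Cp n x y → p x → p y → p (c.pt.comp n x y) := by
    rintro n _ _ h ⟨i, x, rfl⟩ ⟨j, y, rfl⟩
    rw [← hw (IsFiltered.leftToMax i j), ← hw (IsFiltered.rightToMax i j)] at h ⊢
    obtain ⟨k, f, hf⟩ := filt_eq hc _ _
      (((c.ι.app _).map_bd _ _ _).trans (Eq.trans h ((c.ι.app _).map_bd _ _ _).symm))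
    rw [(F.map f).map_bd, (F.map f).map_bd] at hf
    refine ⟨k, _, ((c.ι.app k).map_comp n _ _ hf).trans ?_⟩
    rw [hw f, hw f]
    rfl
  let s : Cocone F := ⟨c.pt.sub p h1 h2,
    fun j => OmegaCat.subLift p h1 h2 (c.ι.app j) fun y => ⟨j, y, rfl⟩,
    fun i j f => OmegaCat.hom_ext fun y => Subtype.ext (hw f y)⟩
  have e : hc.desc s ≫ OmegaCat.subι p h1 h2 = 𝟙 c.pt := hc.hom_ext fun j => by
    rw [← Category.assoc, hc.fac]
    rfl
  have e' : ((hc.desc s).toFun y).1 = y := congrArg (fun g => g.toFun y) e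
  exact e' ▸ ((hc.desc s).toFun y).2

end Vale.Agent.P213
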