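import Vale.Agent.P213.ChainsGood
import Vale.Agent.P213.OmColim
import Vale.Agent.P213.OmFilt

/-!
P213: universal property of `OP E`; the Street nerve preserves filtered colimits.

Plan.
* `exists_enum`: enumerate a chain increasingly (sort with the total order on the subtype, e.g.
  `Finset.orderEmbOfFin` after giving `c.finset` its `LinearOrder`, or induction on the card).
* `unitP_desc`: `glue` with `J := Σ m, (nerve E).obj (op ⦋m⦌)`, `Kj = chainsObj (Ord m)`,
  `ι σ = chainsMap (simpHom σ)`, `g σ = nvVal (φ σ)`. Basic identity, from naturality of `φ` and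
  `nvVal_map`: `opMap (ordMap a) ≫ g σ = g (a^* σ)`. For a chain `a` of `Ord m` let
  `δ : ⦋k⦌ ⟶ ⦋m⦌` be its enumeration; `atom a = map (chainsMap (ordMap δ)) (atom (ordTop k))`
  (`map_atom_injOn`). If `σ ∘ δ` is not injective it factors as `τ ∘ π` with `π : ⦋k⦌ ⟶ ⦋l⦌`,
  `l < k` (enumerate the image), and `dim_of_card_le` bounds the dimensions. For `compat`, look
  at the top entries: `σ` is injective on `a` with image `b`, so `σ ∘ δ` is the enumeration of
  `b`, which is unique (`enum_unique`).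
* `unitP_ext`: `hom_ext_atoms`.
* `fin_surj`: by induction on `m` find a stage `j` and `F` with `FunUpTo m K (D.obj j) F` and
  `ι j (F x) = g x` for `Dim m x` (`funUpTo_zero`, `funUpTo_succ`, `FunUpTo.postcomp`,
  `FunUpTo.ext`, `filt_surj`, `filt_eq`; finitely many cells and equations are moved to a common
  stage, e.g. by `IsFiltered.sup_exists` or by induction on a `Finset`); for `m` at least all
  degrees every cell has dimension `≤ m`. `fin_eq`: `hom_ext_atoms`.
* Preservation: `evaluationJointlyReflectsColimits`, `Types.FilteredColimit.isColimitOf'`.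
-/

open CategoryTheory Limits Opposite Simplicial

namespace Vale.Agent.P213

section
variable {E F : Type} [PartialOrder E] [PartialOrder F]

lemma cup_card_top (k : ℕ) : (ordTop k).finset.card = k + 1 := by
  simp [ordTop]

lemma exists_enum (c : Chain E) : ∃ (k : ℕ) (σ : Ord k →o E), c.finset.card = k + 1 ∧
    Function.Injective σ ∧ chMap σ (ordTop k) = c := by
  obtain ⟨k, x, hx, e⟩ := sdd_exists_enum c
  have hi : Function.Injective (simpHom x) := fun a b h => ULift.down_injective (hx h)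
  refine ⟨k, simpHom x, ?_, hi, e⟩
  rw [← e]
  exact (card_chMap (simpHom x) _ hi.injOn).trans (cup_card_top k)

lemma cup_range {k : ℕ} (σ : Ord k →o E) (y : E) :
    y ∈ (chMap σ (ordTop k)).finset ↔ y ∈ Set.range σ := by
  rw [sdd_mem_chMap]
  exact ⟨fun ⟨x, _, h⟩ => ⟨x, h⟩, fun ⟨x, h⟩ => ⟨x, Finset.mem_univ _, h⟩⟩

lemma enum_unique {k : ℕ} (σ σ' : Ord k →o E) (h : Function.Injective σ)
    (h' : Function.Injective σ') (e : chMap σ (ordTop k) = chMap σ' (ordTop k)) : σ = σ' := by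
  refine OrderHom.ext _ _ (((σ.monotone.strictMono_of_injective h).range_inj
    (σ'.monotone.strictMono_of_injective h')).1 (Set.ext fun y => ?_))
  rw [← cup_range, ← cup_range, e]

lemma cup_simpHom_map {n m : SimplexCategoryᵒᵖ} (a : n ⟶ m) (x : (nerve E).obj n) :
    simpHom ((nerve E).map a x) = (simpHom x).comp (ordMap a.unop) := rfl

lemma cup_simpHom_nmap (f : E →o F) {n : SimplexCategoryᵒᵖ} (x : (nerve E).obj n) :
    simpHom ((nmap f).app n x) = f.comp (simpHom x) := rfl

variable (E) in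
/-- The canonical map from the nerve of a poset to the Street nerve of its omega-category. -/
noncomputable def unitP : nerve E ⟶ streetNerve.obj (OP E) where
  app n := TypeCat.ofHom fun σ => nvMk (opMap (simpHom σ))
  naturality n m a := by
    ext σ : 3
    exact nv_ext (opMap_comp (ordMap a.unop) (simpHom σ))

lemma nvVal_unitP {n : SimplexCategoryᵒᵖ} (σ : (nerve E).obj n) :
    nvVal ((unitP E).app n σ) = opMap (simpHom σ) := rfl

lemma unitP_nat (f : E →o F) : nmap f ≫ unitP F = unitP E ≫ streetNerve.map (opMap f) := by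
  ext n σ : 4
  exact nv_ext (opMap_comp (simpHom σ) f)

/-- The atom of a chain is the image of the top atom under its enumeration. -/
lemma cup_atom_enum {k : ℕ} {σ : Ord k →o E} (h : Function.Injective σ) :
    (opMap σ).toFun (atom (K := chainsObj (Ord k)) (ordTop k)) =
      atom (K := chainsObj E) (chMap σ (ordTop k)) :=
  map_atom_injOn σ _ h.injOn

lemma cup_factor {k l : ℕ} (σ : Ord k →o E) (τ : Ord l →o E) (hτ : Function.Injective τ)
    (h : ∀ i, σ i ∈ Set.range τ) : ∃ π : Ord k →o Ord l, τ.comp π = σ := by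
  choose π hπ using h
  have hs := τ.monotone.strictMono_of_injective hτ
  refine ⟨⟨π, fun i j hij => hs.le_iff_le.1 ?_⟩, OrderHom.ext _ _ (funext hπ)⟩
  rw [hπ, hπ]
  exact σ.monotone hij

lemma cup_dim_ord (l : ℕ) (x : Cell (chainsObj (Ord l))) : (OP (Ord l)).Dim l x :=
  dim_of_card_le (fun c => (Finset.card_le_univ _).trans (by simp)) x

lemma cup_glue {Y : OmegaCat} (G : ∀ m, (Ord m →o E) → (OP (Ord m) ⟶ Y))
    (hG : ∀ k m (a : Ord k →o Ord m) (σ : Ord m →o E), opMap a ≫ G m σ = G k (σ.comp a)) :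
    ∃ g : OP E ⟶ Y, ∀ m σ, opMap σ ≫ g = G m σ := by
  classical
  have hG' : ∀ k m (a : Ord k →o Ord m) (σ : Ord m →o E) x,
      (G m σ).toFun ((opMap a).toFun x) = (G k (σ.comp a)).toFun x := fun k m a σ x => by
    rw [← hG]; rfl
  have key : ∀ m (σ : Ord m →o E) (a : Chain (Ord m)) (b : Chain E) k (τ : Ord k →o E),
      a.finset.card - 1 = b.finset.card - 1 → b.finset.card = k + 1 → Function.Injective τ →
      chMap τ (ordTop k) = b →
      Cell.map (chainsMap σ) (atom (K := chainsObj (Ord m)) a) = atom (K := chainsObj E) b →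
      (G m σ).toFun (atom (K := chainsObj (Ord m)) a) =
        (G k τ).toFun (atom (K := chainsObj (Ord k)) (ordTop k)) := by
    intro m σ a b k τ h₁ h₂ hτ e₁ e₂
    obtain ⟨k', δ, h₃, hδ, e₃⟩ := exists_enum a
    obtain rfl : k' = k := by omega
    have t₁ := (isAtom_atom (K := chainsObj (Ord m)) a).top false
    have t₂ := (isAtom_atom (K := chainsObj E) b).top false
    have t₃ : (chainsMap σ).f (Finsupp.single a 1) = Finsupp.single b 1 := by
      rw [← t₁, ← t₂, ← e₂]
      change _ = (chainsMap σ).f ((atom (K := chainsObj (Ord m)) a).val false (b.finset.card - 1))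
      rw [← h₁]
    have hinj : Set.InjOn σ a.finset := by
      by_contra hn
      rw [chainsMap_single_of_not σ a hn] at t₃
      exact one_ne_zero (Finsupp.single_eq_zero.1 t₃.symm)
    rw [chainsMap_single σ a hinj] at t₃
    have e₄ : chMap σ a = b := Finsupp.single_left_injective one_ne_zero t₃
    have hmem : ∀ i, δ i ∈ a.finset := fun i => e₃ ▸ (cup_range δ _).2 ⟨i, rfl⟩
    have e₅ : σ.comp δ = τ := enum_unique _ _ (fun i j h => hδ (hinj (hmem i) (hmem j) h)) hτ
      (by rw [← sdd_chMap_chMap, e₃, e₄, e₁])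
    rw [← e₅, ← hG', cup_atom_enum hδ, e₃]
  obtain ⟨g, hg⟩ := glue (K := chainsObj E) (J := Σ m, (Ord m →o E))
    (fun j => chainsObj (Ord j.1)) (fun j => chainsMap j.2) Y (fun j => G j.1 j.2)
    (fun b => by
      obtain ⟨k, σ, h₁, h₂, h₃⟩ := exists_enum b
      refine ⟨⟨k, σ⟩, ordTop k, ?_, h₃ ▸ cup_atom_enum h₂⟩
      change (ordTop k).finset.card - 1 = b.finset.card - 1
      rw [h₁, cup_card_top])
    (by
      rintro ⟨m, σ⟩ a
      by_cases h : Set.InjOn σ a.finset
      · exact Or.inl ⟨chMap σ a, congrArg (· - 1) (card_chMap σ a h), map_atom_injOn σ a h⟩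
      · obtain ⟨k, δ, h₁, hδ, e₁⟩ := exists_enum a
        obtain ⟨l, τ, h₂, hτ, e₂⟩ := exists_enum (chMap σ a)
        obtain ⟨π, hπ⟩ := cup_factor (σ.comp δ) τ hτ fun i => by
          rw [← cup_range, e₂, ← e₁, sdd_chMap_chMap, cup_range]
          exact ⟨i, rfl⟩
        have hlt : (chMap σ a).finset.card < a.finset.card := by
          have : (chMap σ a).finset = a.finset.image σ := by
            ext y
            rw [sdd_mem_chMap, Finset.mem_image]
          rw [this]
          exact Finset.card_image_le.lt_of_ne fun e => h (Finset.card_image_iff.1 e)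
        have e₃ : atom (K := chainsObj (Ord m)) a =
            (opMap δ).toFun (atom (K := chainsObj (Ord k)) (ordTop k)) := by
          rw [cup_atom_enum hδ, e₁]
        refine Or.inr ⟨l, ?_, ?_, ?_⟩
        · change l < a.finset.card - 1
          omega
        · have e₄ : opMap δ ≫ opMap σ = opMap π ≫ opMap τ := by
            rw [← opMap_comp, ← opMap_comp, hπ]
          change (OP E).Dim l ((opMap σ).toFun (atom (K := chainsObj (Ord m)) a))
          rw [e₃, ← OmegaCat.comp_toFun, e₄, OmegaCat.comp_toFun]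
          exact (opMap τ).map_dim (cup_dim_ord l _)
        · change Y.Dim l ((G m σ).toFun (atom (K := chainsObj (Ord m)) a))
          rw [e₃, hG', ← hπ, ← hG']
          exact (G l τ).map_dim (cup_dim_ord l _))
    (by
      rintro ⟨m, σ⟩ a ⟨m', σ'⟩ a' b h₁ h₂ e₁ e₂
      obtain ⟨k, τ, h₃, hτ, e₃⟩ := exists_enum b
      exact (key m σ a b k τ h₁ h₃ hτ e₃ e₁).trans (key m' σ' a' b k τ h₂ h₃ hτ e₃ e₂).symm)
  exact ⟨g, fun m σ => hg ⟨m, σ⟩⟩

/-- The simplex of the nerve attached to a monotone map. -/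
def cupSimp {m : ℕ} (σ : Ord m →o E) : (nerve E).obj (op ⦋m⦌) :=
  nmk (n := op ⦋m⦌) (fun i => σ (ULift.up i)) fun _ _ h => σ.monotone h

/-- The simplicial operator attached to a monotone map of ordinals. -/
def cupOp {k m : ℕ} (a : Ord k →o Ord m) : (⦋k⦌ : SimplexCategory) ⟶ ⦋m⦌ :=
  SimplexCategory.mkHom ⟨fun i => (a (ULift.up i)).down, fun _ _ h => a.monotone h⟩

theorem unitP_desc {Y : OmegaCat} (φ : nerve E ⟶ streetNerve.obj Y) :
    ∃ g : OP E ⟶ Y, unitP E ≫ streetNerve.map g = φ := by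
  obtain ⟨g, hg⟩ := cup_glue (E := E) (Y := Y)
    (fun m σ => nvVal (φ.app (op ⦋m⦌) (cupSimp σ))) (fun k m a σ => by
      have e : cupSimp (σ.comp a) = (nerve E).map (cupOp a).op (cupSimp σ) :=
        nerve_ext fun i => rfl
      rw [e, NatTrans.naturality_apply, nvVal_map]
      rfl)
  refine ⟨g, ?_⟩
  ext ⟨⟨m⟩⟩ σ : 4
  exact nv_ext ((hg m (simpHom σ)).trans
    (congrArg (fun τ => nvVal (φ.app (op ⦋m⦌) τ)) (nerve_ext fun i => rfl)))

theorem unitP_ext {Y : OmegaCat} {g g' : OP E ⟶ Y}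
    (h : unitP E ≫ streetNerve.map g = unitP E ≫ streetNerve.map g') : g = g' := by
  refine hom_ext_atoms fun b => ?_
  obtain ⟨k, σ, -, hσ, rfl⟩ := exists_enum b
  have e : opMap σ ≫ g = opMap σ ≫ g' :=
    congrArg (fun ψ : nerve E ⟶ streetNerve.obj Y => nvVal (ψ.app (op ⦋k⦌) (cupSimp σ))) h
  rw [← cup_atom_enum hσ, ← OmegaCat.comp_toFun, e, OmegaCat.comp_toFun]

end

section
variable {J : Type} [SmallCategory J] [IsFiltered J] {D : J ⥤ OmegaCat} {c : Cocone D}

omit [IsFiltered J] in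
lemma cup_w (c : Cocone D) {j k : J} (f : j ⟶ k) (x : (D.obj j).C) :
    (c.ι.app k).toFun ((D.map f).toFun x) = (c.ι.app j).toFun x :=
  congrArg (fun φ : D.obj j ⟶ c.pt => φ.toFun x) (c.w f)

lemma cup_lift (hc : IsColimit c) {B : Type} [Finite B] (y : B → c.pt.C) (j₀ : J) :
    ∃ (j : J) (_ : j₀ ⟶ j) (z : B → (D.obj j).C), ∀ b, (c.ι.app j).toFun (z b) = y b := by
  classical
  have : Fintype B := Fintype.ofFinite B
  have key : ∀ s : Finset B, ∃ (j : J) (_ : j₀ ⟶ j), ∀ b ∈ s, ∃ z : (D.obj j).C,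
      (c.ι.app j).toFun z = y b := by
    intro s
    induction s using Finset.induction_on with
    | empty => exact ⟨j₀, 𝟙 _, by simp⟩
    | insert b s _ ih =>
      obtain ⟨j, f, h⟩ := ih
      obtain ⟨j', z, hz⟩ := filt_surj hc (y b)
      refine ⟨IsFiltered.max j j', f ≫ IsFiltered.leftToMax j j', fun b' hb' => ?_⟩
      rcases Finset.mem_insert.1 hb' with rfl | hb'
      · exact ⟨_, (cup_w c (IsFiltered.rightToMax j j') z).trans hz⟩
      · obtain ⟨z', hz'⟩ := h b' hb'
        exact ⟨_, (cup_w c (IsFiltered.leftToMax j j') z').trans hz'⟩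
  obtain ⟨j, f, h⟩ := key Finset.univ
  choose z hz using h
  exact ⟨j, f, fun b => z b (Finset.mem_univ b), fun b => hz b _⟩

lemma cup_eq (hc : IsColimit c) {B : Type} [Finite B] {j : J} (x x' : B → (D.obj j).C)
    (h : ∀ b, (c.ι.app j).toFun (x b) = (c.ι.app j).toFun (x' b)) :
    ∃ (k : J) (f : j ⟶ k), ∀ b, (D.map f).toFun (x b) = (D.map f).toFun (x' b) := by
  classical
  have : Fintype B := Fintype.ofFinite B
  have key : ∀ s : Finset B, ∃ (k : J) (f : j ⟶ k), ∀ b ∈ s,
      (D.map f).toFun (x b) = (D.map f).toFun (x' b) := by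
    intro s
    induction s using Finset.induction_on with
    | empty => exact ⟨j, 𝟙 _, by simp⟩
    | insert b s _ ih =>
      obtain ⟨k, f, hf⟩ := ih
      obtain ⟨k', f', hf'⟩ := filt_eq hc ((D.map f).toFun (x b)) ((D.map f).toFun (x' b))
        (by rw [cup_w, cup_w, h])
      refine ⟨k', f ≫ f', fun b' hb' => ?_⟩
      rw [D.map_comp, OmegaCat.comp_toFun, OmegaCat.comp_toFun]
      rcases Finset.mem_insert.1 hb' with rfl | hb'
      · exact hf'
      · rw [hf b' hb']
  obtain ⟨k, f, h⟩ := key Finset.univ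
  exact ⟨k, f, fun b => h b (Finset.mem_univ b)⟩

lemma cup_upTo {K : BADC} [Good K] [Finite K.B] (hc : IsColimit c) (g : nuObj K ⟶ c.pt)
    (m : ℕ) : ∃ (j : J) (F : Cell K → (D.obj j).C), FunUpTo m K (D.obj j).toPreOmega F ∧
      ∀ x, (nuObj K).Dim m x → (c.ι.app j).toFun (F x) = g.toFun x := by
  have hz : ∀ {j : J} {z : K.B → (D.obj j).C}, (∀ b, (c.ι.app j).toFun (z b) = g.toFun (atom b)) →
      ∀ b n, K.deg b = n → (c.ι.app j).toFun ((D.obj j).bd false n (z b)) = g.toFun (atom b) := by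
    intro j z h b n hb
    rw [(c.ι.app j).map_bd, h]
    exact (g.map_dim (dim_atom b)).bd_eq false hb.le
  induction m with
  | zero =>
    obtain ⟨j, -, z, h⟩ := cup_lift hc (fun b => g.toFun (atom b))
      (Classical.choice IsFiltered.nonempty)
    obtain ⟨F, hF, e⟩ := funUpTo_zero (K := K) (D.obj j).toPreOmega
      (fun b => (D.obj j).bd false 0 (z b)) fun b _ => PreOmega.dim_bd _ _ _
    refine ⟨j, F, hF, (hF.postcomp (c.ι.app j)).ext (FunUpTo.of_hom g 0) fun b hb => ?_⟩
    rw [e b (Nat.le_zero.1 hb)]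
    exact hz h b 0 (Nat.le_zero.1 hb)
  | succ m ih =>
    obtain ⟨j, F, hF, e⟩ := ih
    obtain ⟨j₁, f₁, z, h⟩ := cup_lift hc (fun b => g.toFun (atom b)) j
    obtain ⟨k, f₂, h₂⟩ := cup_eq hc (B := {b // K.deg b = m + 1} × Bool)
      (fun p => (D.obj j₁).bd p.2 m ((D.obj j₁).bd false (m + 1) (z p.1.1)))
      (fun p => (D.map f₁).toFun (F ((nuObj K).bd p.2 m (atom p.1.1)))) (fun p => by
        rw [(c.ι.app j₁).map_bd, hz h _ _ p.1.2, cup_w, e _ (PreOmega.dim_bd _ _ _), g.map_bd]
        rfl)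
    obtain ⟨F', hF', e₁, e₂⟩ := funUpTo_succ ((hF.postcomp (D.map f₁)).postcomp (D.map f₂))
      (fun b => (D.map f₂).toFun ((D.obj j₁).bd false (m + 1) (z b))) fun b hb =>
        ⟨(D.map f₂).map_dim (PreOmega.dim_bd _ _ _), fun α =>
          ((D.map f₂).map_bd _ _ _).symm.trans (h₂ (⟨b, hb⟩, α))⟩
    refine ⟨k, F', hF', (hF'.postcomp (c.ι.app k)).ext (FunUpTo.of_hom g _) fun b hb => ?_⟩
    rcases hb.eq_or_lt with hb | hb
    · rw [e₂ b hb, cup_w]
      exact hz h b _ hb
    · have hd := (dim_atom b).mono (Nat.lt_succ_iff.1 hb)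
      rw [e₁ _ hd, cup_w, cup_w]
      exact e _ hd

end

theorem fin_surj {K : BADC} [Good K] [Finite K.B] {J : Type} [SmallCategory J] [IsFiltered J]
    {D : J ⥤ OmegaCat} {c : Cocone D} (hc : IsColimit c) (g : nuObj K ⟶ c.pt) :
    ∃ (j : J) (g' : nuObj K ⟶ D.obj j), g' ≫ c.ι.app j = g := by
  obtain ⟨m, hm⟩ := (Set.finite_range K.deg).bddAbove
  have hd : ∀ x, (nuObj K).Dim m x :=
    cell_induction' _ (fun b => (dim_atom b).mono (hm ⟨b, rfl⟩)) fun j x y h hx hy => hx.comp hy h
  obtain ⟨j, F, hF, e⟩ := cup_upTo hc g m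
  exact ⟨j, ⟨F, fun α n x => hF.bd α n x (hd x), fun n x y h => hF.comp n x y (hd x) (hd y) h⟩,
    OmegaCat.hom_ext fun x => e x (hd x)⟩

theorem fin_eq {K : BADC} [Good K] [Finite K.B] {J : Type} [SmallCategory J] [IsFiltered J]
    {D : J ⥤ OmegaCat} {c : Cocone D} (hc : IsColimit c) {j : J} (g g' : nuObj K ⟶ D.obj j)
    (h : g ≫ c.ι.app j = g' ≫ c.ι.app j) : ∃ (k : J) (f : j ⟶ k), g ≫ D.map f = g' ≫ D.map f := by
  obtain ⟨k, f, e⟩ := cup_eq hc (fun b => g.toFun (atom b)) (fun b => g'.toFun (atom b))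
    fun b => congrArg (fun φ : nuObj K ⟶ c.pt => φ.toFun (atom b)) h
  exact ⟨k, f, hom_ext_atoms e⟩

instance cup_finite_chain (E : Type) [PartialOrder E] [Finite E] : Finite (Chain E) :=
  Finite.of_injective (fun c : Chain E => c.finset)
    fun _ _ h => PartialOrder.NonemptyFiniteChains.ext h

instance presFilt_streetNerve : PreservesFilteredColimits streetNerve := by
  refine ⟨fun J _ _ => ⟨fun {D} => ⟨fun {c} hc => ⟨evaluationJointlyReflectsColimits _ fun n =>
    Types.FilteredColimit.isColimitOf' _ _ (fun x => ?_) fun j x y h => ?_⟩⟩⟩⟩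
  · obtain ⟨j, g, hg⟩ := fin_surj (K := chainsObj (Ord n.unop.len)) hc (nvVal x)
    exact ⟨j, nvMk g, nv_ext hg.symm⟩
  · obtain ⟨k, f, e⟩ := fin_eq (K := chainsObj (Ord n.unop.len)) hc (nvVal x) (nvVal y)
      (congrArg nvVal h)
    exact ⟨k, f, nv_ext e⟩

instance presFilt_nerveN (n : ℕ∞) : PreservesFilteredColimits (nerveN n) :=
  inferInstanceAs (PreservesFilteredColimits ((IsNCat n).ι ⋙ streetNerve))

end Vale.Agent.P213
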