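import Vale.Agent.P213.Chains

/-!
P213. The classes of maps of the Kan-Quillen and of the Thomason model structures.
-/

open CategoryTheory MonoidalCategory Simplicial

namespace Vale.Agent.P213

/-- Simplicial homotopy from `f` to `g`. -/
def Htpy {K Z : SSet.{0}} (f g : K ⟶ Z) : Prop :=
  ∃ h : K ⊗ Δ[1] ⟶ Z, SSet.ι₀ ≫ h = f ∧ SSet.ι₁ ≫ h = g

/-- Weak homotopy equivalences of simplicial sets: the maps inducing a bijection on homotopy
classes of maps to every Kan complex. -/
def whe : MorphismProperty SSet.{0} := fun K L f =>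
  ∀ Z : SSet.{0}, SSet.KanComplex Z →
    (∀ g : K ⟶ Z, ∃ h : L ⟶ Z, Htpy (f ≫ h) g) ∧
    (∀ h h' : L ⟶ Z, Htpy (f ≫ h) (f ≫ h') → Htpy h h')

/-- Kan fibrations: right lifting property against the horn inclusions. -/
def kanFib : MorphismProperty SSet.{0} := SSet.modelCategoryQuillen.J.rlp

/-- Thomason weak equivalences of strict n-categories. -/
def Wn (n : ℕ∞) : MorphismProperty (NCat n) := whe.inverseImage (nerveN n)

/-- Thomason fibrations of strict n-categories. -/
def Fn (n : ℕ∞) : MorphismProperty (NCat n) :=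
  kanFib.inverseImage (nerveN n ⋙ SSet.ex ⋙ SSet.ex)

/-- Thomason cofibrations of strict n-categories. -/
def Cn (n : ℕ∞) : MorphismProperty (NCat n) := (Fn n ⊓ Wn n).llp

end Vale.Agent.P213
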