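import Vale.Agent.P213.NPush

/-!
P213: cosieves of omega-categories; fibres of pushouts.

Plan.
* `exists_plus`: the omega-category `Z₊` has carrier `Z.C ⊕ Option {z // Z.Dim 0 z}`: the cells
  of `Z`, a new object `inr none`, and one arrow `inr (some z)` from the new object to each object
  `z`. `bd α n (inl x) = inl (bd α n x)`, `bd α n (inr none) = inr none`,
  `bd α n (inr (some z)) = inr (some z)` for `n ≠ 0`, and `inr none`, `inl z` for `n = 0`.
  `comp n (inl x) (inl y) = inl (comp n x y)`; `comp 0 (inr (some z)) (inl y) =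
  inr (some (bd true 0 y))`; `comp n (inr none) y = y`; otherwise the first argument.
  For `v : B' ⟶ Z` the extension sends `x` to `inl (v x')` if `S x` (`x = e x'`), otherwise to
  `inr (some (v y'))` if `S (bd true 0 x)` (`bd true 0 x = e y'`), otherwise to `inr none`.
  Uniqueness: for a cell `x` with `¬ S x` the value is outside the range of `inl`, so it is
  determined by its 0-target, which is `t (bd true 0 x)`.
* `exists_cos`: use `exists_plus` for a one cell omega-category `Z` (for instance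
  `OP PUnit`-like, or build it directly) and the sub-omega-categories `fibO`; pull back `T`.
* `NPush.fib`: extend `u`, `v` to `Z₊`, descend to `t : Y ⟶ Z₊`; `T ∘ t = S`: compose with the
  extension `Z₊ ⟶ pt₊` of `Z ⟶ pt` and compare with the extension of `Y' ⟶ pt` by `NPush.ext`;
  restrict (`IsFib.lift`). Uniqueness: extend both maps `Y' ⟶ Z` to `Y ⟶ Z₊`.
* `NPush.obj_surj`: the sub-omega-category of the cells whose 0-source and 0-target are in the
  union of the images; `NPush.desc` and `NPush.ext` show that it is everything.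
* `isPushout_nerve_cos`: `sset_isPushout`; a simplex `σ : OP (Ord m) ⟶ Y` lands in a cosieve
  containing `σ (vtx 0)` (`IsCos.of_bot`).
-/

open CategoryTheory Limits

namespace Vale.Agent.P213

/-- A set of cells determined by the 0-source and closed under 0-targets. -/
structure IsCos (X : OmegaCat) (S : X.C → Prop) : Prop where
  src : ∀ x, S (X.bd false 0 x) ↔ S x
  tgt : ∀ x, S x → S (X.bd true 0 x)

/-- `e` is an isomorphism onto the cells satisfying `S`. -/
structure IsFib {X' X : OmegaCat} (e : X' ⟶ X) (S : X.C → Prop) : Prop where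
  inj : Function.Injective e.toFun
  range : ∀ x, S x ↔ ∃ x', e.toFun x' = x

variable {n : ℕ∞} {X Y Z : OmegaCat}

lemma cos_src0 {k : ℕ} {x y : X.C} (h : X.Cp k x y) :
    X.bd false 0 (X.comp k x y) = X.bd false 0 x := by
  rcases k with _ | k
  · exact X.src_comp 0 x y h
  · exact h.bd_comp_lt k.succ_pos false

lemma cos_tgt0 {k : ℕ} {x y : X.C} (h : X.Cp k x y) :
    X.bd true 0 (X.comp k x y) = X.bd true 0 y := by
  rcases k with _ | k
  · exact X.tgt_comp 0 x y h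
  · exact (h.bd_comp_lt k.succ_pos true).trans (h.bd_lt k.succ_pos true)

lemma IsCos.bd_succ {S : X.C → Prop} (h : IsCos X S) (α : Bool) (k : ℕ) (x : X.C) :
    S (X.bd α (k + 1) x) ↔ S x := by
  rw [← h.src, X.bd_bd_lt _ _ _ _ _ k.succ_pos, h.src]

lemma IsCos.comp_iff {S : X.C → Prop} (h : IsCos X S) {k : ℕ} {x y : X.C} (hxy : X.Cp k x y) :
    S (X.comp k x y) ↔ S x := by
  rw [← h.src, cos_src0 hxy, h.src]

lemma IsCos.of_cp {S : X.C → Prop} (h : IsCos X S) {k : ℕ} {x y : X.C} (hxy : X.Cp k x y)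
    (hx : S x) : S y := by
  rcases k with _ | k
  · rw [← h.src, ← show X.bd true 0 x = X.bd false 0 y from hxy]
    exact h.tgt x hx
  · rw [← h.src, ← hxy.bd_lt k.succ_pos false, h.src]
    exact hx

lemma IsCos.comap {S : Y.C → Prop} (h : IsCos Y S) (f : X ⟶ Y) :
    IsCos X (fun x => S (f.toFun x)) := by
  refine ⟨fun x => ?_, fun x hx => ?_⟩
  · rw [f.map_bd]
    exact h.src _
  · rw [f.map_bd]
    exact h.tgt _ hx

lemma IsCos.bd {S : X.C → Prop} (h : IsCos X S) (α : Bool) (k : ℕ) (x : X.C) (hx : S x) :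
    S (X.bd α k x) := by
  rcases k with _ | k
  · cases α
    · exact (h.src x).2 hx
    · exact h.tgt x hx
  · exact (h.bd_succ α k x).2 hx

lemma IsCos.comp {S : X.C → Prop} (h : IsCos X S) (k : ℕ) (x y : X.C) (hxy : X.Cp k x y)
    (hx : S x) (_ : S y) : S (X.comp k x y) := by
  exact (h.comp_iff hxy).2 hx

lemma IsCos.inter {S T : X.C → Prop} (h : IsCos X S) (h' : IsCos X T) :
    IsCos X (fun x => S x ∧ T x) := by
  exact ⟨fun x => and_congr (h.src x) (h'.src x), fun x hx => ⟨h.tgt x hx.1, h'.tgt x hx.2⟩⟩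

lemma isCos_true : IsCos X (fun _ => True) := ⟨fun _ => Iff.rfl, fun _ h => h⟩

lemma isCos_false : IsCos X (fun _ => False) := ⟨fun _ => Iff.rfl, fun _ h => h⟩

/-- The sub-omega-category attached to a cosieve. -/
noncomputable abbrev IsCos.fibO {S : X.C → Prop} (h : IsCos X S) : OmegaCat :=
  X.sub S h.bd h.comp

noncomputable abbrev IsCos.fibι {S : X.C → Prop} (h : IsCos X S) : h.fibO ⟶ X :=
  OmegaCat.subι S h.bd h.comp

lemma IsCos.isFib {S : X.C → Prop} (h : IsCos X S) : IsFib h.fibι S := by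
  exact ⟨Subtype.val_injective, fun x => ⟨fun hx => ⟨⟨x, hx⟩, rfl⟩, fun ⟨x', hx⟩ => hx ▸ x'.2⟩⟩

lemma isFib_id : IsFib (𝟙 X) (fun _ => True) :=
  ⟨fun _ _ h => h, fun x => ⟨fun _ => ⟨x, rfl⟩, fun _ => trivial⟩⟩

lemma IsFib.lift {X' : OmegaCat} {e : X' ⟶ X} {S : X.C → Prop} (h : IsFib e S) (f : Z ⟶ X)
    (hf : ∀ z, S (f.toFun z)) : ∃ f' : Z ⟶ X', f' ≫ e = f := by
  choose w hw using fun z => (h.range _).1 (hf z)
  refine ⟨⟨w, fun α k z => h.inj ?_, fun k z z' hz => h.inj ?_⟩, OmegaCat.hom_ext hw⟩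
  · rw [e.map_bd, hw, hw, f.map_bd]
  · rw [e.map_comp, hw, hw, hw, f.map_comp _ _ _ hz]
    apply h.inj
    rw [e.map_bd, e.map_bd, hw, hw]
    exact f.map_cp hz

lemma IsFib.hom_ext {X' : OmegaCat} {e : X' ⟶ X} {S : X.C → Prop} (h : IsFib e S)
    {f f' : Z ⟶ X'} (hf : f ≫ e = f' ≫ e) : f = f' := by
  exact OmegaCat.hom_ext fun z => h.inj (congrArg (fun φ : Z ⟶ X => φ.toFun z) hf)

lemma IsFib.isNCat {X' : OmegaCat} {e : X' ⟶ X} {S : X.C → Prop} (h : IsFib e S)
    (hX : IsNCat n X) : IsNCat n X' := by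
  intro x
  obtain ⟨k, hk, hx⟩ := hX (e.toFun x)
  exact ⟨k, hk, h.inj (by rw [e.map_bd, hx])⟩

lemma IsFib.mono_nerve {X' : OmegaCat} {e : X' ⟶ X} {S : X.C → Prop} (h : IsFib e S) :
    Mono (streetNerve.map e) := by
  exact (NatTrans.mono_iff_mono_app _).2 fun m => (mono_iff_injective _).2 fun x y hxy =>
    nv_ext (h.hom_ext (congrArg nvVal hxy))

/-- Cells of the omega-category obtained by adding an initial object. -/
inductive PlC (Z : OmegaCat) : Type
  | old (x : Z.C) : PlC Z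
  | pt : PlC Z
  | arr (z : {z : Z.C // Z.Dim 0 z}) : PlC Z

/-- Boundaries of the new arrows. -/
def plArr (α : Bool) : ℕ → {z : Z.C // Z.Dim 0 z} → PlC Z
  | 0, z => cond α (.old z.1) .pt
  | _ + 1, z => .arr z

/-- Boundaries. -/
def plBd (α : Bool) (k : ℕ) : PlC Z → PlC Z
  | .old x => .old (Z.bd α k x)
  | .pt => .pt
  | .arr z => plArr α k z

/-- Composite of a new arrow with an old cell. -/
def plArrC : ℕ → {z : Z.C // Z.Dim 0 z} → Z.C → PlC Z
  | 0, _, y => .arr ⟨Z.bd true 0 y, PreOmega.dim_bd true 0 y⟩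
  | _ + 1, z, _ => .arr z

/-- Composite with an old cell on the left. -/
def plOld (k : ℕ) (x : Z.C) : PlC Z → PlC Z
  | .old y => .old (Z.comp k x y)
  | .pt => .old x
  | .arr _ => .old x

/-- Composite with a new arrow on the left. -/
def plNew (k : ℕ) (z : {z : Z.C // Z.Dim 0 z}) : PlC Z → PlC Z
  | .old y => plArrC k z y
  | .pt => .arr z
  | .arr _ => .arr z

/-- Composites. -/
def plComp (k : ℕ) : PlC Z → PlC Z → PlC Z
  | .old x => plOld k x
  | .pt => id
  | .arr z => plNew k z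

/-- The composable pairs. -/
inductive PlCp : ℕ → PlC Z → PlC Z → Prop
  | oo (k : ℕ) (x y : Z.C) : Z.Cp k x y → PlCp k (.old x) (.old y)
  | pp (k : ℕ) : PlCp k .pt .pt
  | pa (z : {z : Z.C // Z.Dim 0 z}) : PlCp 0 .pt (.arr z)
  | ao (z : {z : Z.C // Z.Dim 0 z}) (y : Z.C) : PlCp 0 (.arr z) (.old y)
  | aa (k : ℕ) (z : {z : Z.C // Z.Dim 0 z}) : PlCp (k + 1) (.arr z) (.arr z)

lemma plCp {k : ℕ} {x y : PlC Z} (h : plBd true k x = plBd false k y) : PlCp k x y := by
  rcases x with x | _ | z <;> rcases y with y | _ | z' <;> rcases k with _ | k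
  · exact .oo _ _ _ (PlC.old.inj h)
  · exact .oo _ _ _ (PlC.old.inj h)
  · cases h
  · cases h
  · cases h
  · cases h
  · cases h
  · cases h
  · exact .pp _
  · exact .pp _
  · exact .pa _
  · cases h
  · exact .ao _ _
  · cases h
  · cases h
  · cases h
  · cases h
  · cases h
    exact .aa _ _

variable (Z) in
/-- The omega-category obtained by adding an initial object. -/
def plO : OmegaCat where
  C := PlC Z
  bd := plBd
  comp := plComp
  bd_bd_le α β m k x h := by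
    rcases x with x | _ | z
    · exact congrArg PlC.old (Z.bd_bd_le α β m k x h)
    · rfl
    · rcases m with _ | m
      · cases α
        · rfl
        · exact congrArg PlC.old (z.2.bd_eq β h)
      · obtain ⟨k, rfl⟩ : ∃ l, k = l + 1 := ⟨k - 1, by omega⟩
        rfl
  bd_bd_lt α β m k x h := by
    obtain ⟨k, rfl⟩ : ∃ l, k = l + 1 := ⟨k - 1, by omega⟩
    rcases x with x | _ | z
    · exact congrArg PlC.old (Z.bd_bd_lt α β m _ x h)
    · rfl
    · rfl
  src_comp k x y h := by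
    cases plCp h with
    | oo _ x y h' => exact congrArg PlC.old (Z.src_comp _ x y h')
    | pp => rfl
    | pa => rfl
    | ao => rfl
    | aa => rfl
  tgt_comp k x y h := by
    cases plCp h with
    | oo _ x y h' => exact congrArg PlC.old (Z.tgt_comp _ x y h')
    | pp => rfl
    | pa => rfl
    | ao => rfl
    | aa => rfl
  bd_comp_gt α m k x y hm h := by
    obtain ⟨m, rfl⟩ : ∃ l, m = l + 1 := ⟨m - 1, by omega⟩
    cases plCp h with
    | oo _ x y h' => exact congrArg PlC.old (Z.bd_comp_gt α _ _ x y hm h')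
    | pp => rfl
    | pa => rfl
    | ao z y => exact congrArg PlC.arr (Subtype.ext (Z.bd_bd_lt α true 0 _ y hm).symm)
    | aa => rfl
  id_comp k x := by
    rcases x with x | _ | z
    · exact congrArg PlC.old (Z.id_comp k x)
    · rfl
    · cases k <;> rfl
  comp_id k x := by
    rcases x with x | _ | z
    · exact congrArg PlC.old (Z.comp_id k x)
    · rfl
    · rcases k with _ | k
      · exact congrArg PlC.arr (Subtype.ext (z.2.bd_eq true le_rfl))
      · rfl
  assoc k x y z h h' := by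
    have h₁ := plCp h
    have h₂ := plCp h'
    clear h h'
    cases h₁ with
    | oo _ x y h =>
      cases h₂ with
      | oo _ _ z h' => exact congrArg PlC.old (Z.assoc _ x y z h h')
    | pp => rfl
    | pa => rfl
    | ao w y =>
      cases h₂ with
      | oo _ _ z h' => exact congrArg PlC.arr (Subtype.ext (Z.tgt_comp 0 y z h').symm)
    | aa =>
      cases h₂ with
      | aa => rfl
  exchange m k x y x' y' hm h h' h'' := by
    obtain ⟨k, rfl⟩ : ∃ l, k = l + 1 := ⟨k - 1, by omega⟩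
    have h₁ := plCp h
    have h₂ := plCp h'
    have h₃ := plCp h''
    clear h h' h''
    cases h₁ with
    | oo _ x y h =>
      cases h₃ with
      | oo _ _ x' h'' =>
        cases h₂ with
        | oo _ _ y' h' => exact congrArg PlC.old (Z.exchange m _ x y x' y' hm h h' h'')
    | pp => rfl
    | aa =>
      cases h₃ with
      | ao _ x' =>
        cases h₂ with
        | oo _ _ y' h' => exact congrArg PlC.arr (Subtype.ext (h'.bd_comp_lt hm true))
      | aa =>
        cases h₂ with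
        | aa => rfl
  fin x := by
    rcases x with x | _ | z
    · obtain ⟨k, hk⟩ := Z.fin x
      exact ⟨k, congrArg PlC.old hk⟩
    · exact ⟨0, rfl⟩
    · exact ⟨1, rfl⟩

variable (Z) in
/-- The inclusion of the old cells. -/
def plι : Z ⟶ plO Z where
  toFun := PlC.old
  map_bd _ _ _ := rfl
  map_comp _ _ _ _ := rfl

/-- The old cells. -/
def plT : PlC Z → Prop
  | .old _ => True
  | .pt => False
  | .arr _ => False

lemma plT_ext {c c' : PlC Z} (h : ¬ plT c) (h' : ¬ plT c')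
    (e : plT (plBd true 0 c) ↔ plT (plBd true 0 c'))
    (e' : plT (plBd true 0 c) → plBd true 0 c = plBd true 0 c') : c = c' := by
  rcases c with x | _ | z
  · exact absurd trivial h
  · rcases c' with x | _ | z'
    · exact absurd trivial h'
    · rfl
    · exact (e.2 trivial).elim
  · rcases c' with x | _ | z'
    · exact absurd trivial h'
    · exact (e.1 trivial).elim
    · exact congrArg PlC.arr (Subtype.ext (PlC.old.inj (e' trivial)))

lemma pl_fun {B B' : OmegaCat} {S : B.C → Prop} {e : B' ⟶ B} (he : IsFib e S) (v : B' ⟶ Z) :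
    ∃ t : B.C → PlC Z, (∀ x x', e.toFun x' = x → t x = .old (v.toFun x')) ∧
      (∀ x y' (z : {z : Z.C // Z.Dim 0 z}), ¬ S x → e.toFun y' = B.bd true 0 x →
        z.1 = v.toFun y' → t x = .arr z) ∧
      ∀ x, ¬ S x → ¬ S (B.bd true 0 x) → t x = .pt := by
  classical
  choose w hw using fun x (h : S x) => (he.range x).1 h
  have hd : ∀ x (h : S (B.bd true 0 x)), Z.Dim 0 (v.toFun (w _ h)) := fun x h =>
    v.map_dim (he.inj (by rw [e.map_bd, hw]; exact PreOmega.dim_bd true 0 x))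
  refine ⟨fun x => if h : S x then .old (v.toFun (w x h)) else
    if h' : S (B.bd true 0 x) then .arr ⟨v.toFun (w _ h'), hd x h'⟩ else .pt,
    fun x x' hx => ?_, fun x y' z hx hy hz => ?_, fun x hx hx' => ?_⟩
  · have h : S x := (he.range x).2 ⟨x', hx⟩
    simp only [dif_pos h]
    rw [he.inj ((hw x h).trans hx.symm)]
  · have h : S (B.bd true 0 x) := (he.range _).2 ⟨y', hy⟩
    simp only [dif_neg hx, dif_pos h]
    refine congrArg PlC.arr (Subtype.ext ?_)
    rw [hz, ← he.inj ((hw _ h).trans hy.symm)]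
  · simp only [dif_neg hx, dif_neg hx']

lemma pl_ext {B B' : OmegaCat} {S : B.C → Prop} {e : B' ⟶ B} (hS : IsCos B S) (he : IsFib e S)
    (v : B' ⟶ Z) : ∃ t : B ⟶ plO Z, e ≫ t = v ≫ plι Z ∧ ∀ x, plT (t.toFun x) ↔ S x := by
  obtain ⟨t, ha, hb, hc⟩ := pl_fun he v
  have hb' : ∀ x, ¬ S x → S (B.bd true 0 x) → ∃ (y' : B'.C) (z : {z : Z.C // Z.Dim 0 z}),
      e.toFun y' = B.bd true 0 x ∧ z.1 = v.toFun y' := fun x _ h => by
    obtain ⟨y', hy⟩ := (he.range _).1 h
    exact ⟨y', ⟨v.toFun y', v.map_dim (he.inj (by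
      rw [e.map_bd, hy]; exact PreOmega.dim_bd true 0 x))⟩, hy, rfl⟩
  have hT : ∀ x, plT (t x) ↔ S x := fun x => by
    by_cases h : S x
    · obtain ⟨x', hx⟩ := (he.range _).1 h
      rw [ha x x' hx]
      exact iff_of_true trivial h
    · by_cases h' : S (B.bd true 0 x)
      · obtain ⟨y', z, hy, hz⟩ := hb' x h h'
        rw [hb x y' z h hy hz]
        exact iff_of_false id h
      · rw [hc x h h']
        exact iff_of_false id h
  have hd : ∀ x y, ¬ S x → ¬ S y → B.bd true 0 x = B.bd true 0 y → t x = t y := by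
    intro x y hx hy hxy
    by_cases h' : S (B.bd true 0 x)
    · obtain ⟨y', z, hy', hz⟩ := hb' x hx h'
      rw [hb x y' z hx hy' hz, hb y y' z hy (hy'.trans hxy) hz]
    · rw [hc x hx h', hc y hy (hxy ▸ h')]
  refine ⟨⟨t, fun α k x => ?_, fun k x y hxy => ?_⟩, OmegaCat.hom_ext fun x => ha _ x rfl, hT⟩
  · change t (B.bd α k x) = plBd α k (t x)
    by_cases h : S x
    · obtain ⟨x', hx⟩ := (he.range _).1 h
      rw [ha x x' hx, ha _ (B'.bd α k x') (by rw [e.map_bd, hx]), v.map_bd]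
      rfl
    · have h0 : t (B.bd false 0 x) = .pt := hc _ (mt (hS.src x).1 h) (by
        rw [PreOmega.bd_bd_self]; exact mt (hS.src x).1 h)
      have h1 : ∀ l, t (B.bd α (l + 1) x) = t x := fun l =>
        hd _ _ (mt (hS.bd_succ α l x).1 h) h (B.bd_bd_lt _ _ _ _ _ l.succ_pos)
      by_cases h' : S (B.bd true 0 x)
      · obtain ⟨y', z, hy, hz⟩ := hb' x h h'
        rcases k with _ | k
        · cases α
          · rw [h0, hb x y' z h hy hz]
            rfl
          · rw [ha _ y' hy, hb x y' z h hy hz, ← hz]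
            rfl
        · rw [h1, hb x y' z h hy hz]
          rfl
      · rcases k with _ | k
        · cases α
          · rw [h0, hc x h h']
            rfl
          · rw [hc x h h', hc _ h' (by rw [PreOmega.bd_bd_self]; exact h')]
            rfl
        · rw [h1, hc x h h']
          rfl
  · change t (B.comp k x y) = plComp k (t x) (t y)
    have hxy' : B.Cp k x y := hxy
    by_cases h : S x
    · obtain ⟨x', hx⟩ := (he.range _).1 h
      obtain ⟨y', hy⟩ := (he.range _).1 (hS.of_cp hxy' h)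
      have h1 : B'.bd true k x' = B'.bd false k y' := he.inj (by
        rw [e.map_bd, e.map_bd, hx, hy]; exact hxy)
      rw [ha x x' hx, ha y y' hy, ha _ (B'.comp k x' y') (by rw [e.map_comp _ _ _ h1, hx, hy]),
        v.map_comp _ _ _ h1]
      rfl
    · have h1 : ¬ S (B.comp k x y) := mt (hS.comp_iff hxy').1 h
      rcases k with _ | k
      · by_cases h' : S y
        · obtain ⟨y', hy⟩ := (he.range _).1 h'
          obtain ⟨x', z, hx, hz⟩ := hb' x h (by rw [hxy]; exact (hS.src y).2 h')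
          rw [hb x x' z h hx hz, ha y y' hy]
          exact hb _ (B'.bd true 0 y') _ h1 (by rw [e.map_bd, hy, cos_tgt0 hxy'])
            (v.map_bd true 0 y').symm
        · rw [hc x h (by rw [hxy]; exact mt (hS.src y).1 h'), hd _ y h1 h' (cos_tgt0 hxy')]
          rfl
      · have h2 : ¬ S y := by
          rw [← hS.src, ← hxy'.bd_lt k.succ_pos false, hS.src]
          exact h
        rw [hd _ y h1 h2 (cos_tgt0 hxy'), hd x y h h2 (hxy'.bd_lt k.succ_pos true)]
        have h3 := mt (hT y).1 h2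
        generalize t y = c at h3
        rcases c with c | _ | z
        · exact absurd trivial h3
        · rfl
        · rfl

theorem exists_plus (hn : 1 ≤ n) (Z : OmegaCat) (hZ : IsNCat n Z) :
    ∃ (P : OmegaCat) (ι : Z ⟶ P) (T : P.C → Prop), IsNCat n P ∧ IsCos P T ∧ IsFib ι T ∧
      ∀ (B B' : OmegaCat) (S : B.C → Prop) (e : B' ⟶ B), IsCos B S → IsFib e S →
        (∀ v : B' ⟶ Z, ∃ t : B ⟶ P, e ≫ t = v ≫ ι ∧ ∀ x, T (t.toFun x) ↔ S x) ∧
        ∀ t t' : B ⟶ P, e ≫ t = e ≫ t' → (∀ x, T (t.toFun x) ↔ S x) →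
          (∀ x, T (t'.toFun x) ↔ S x) → t = t' := by
  refine ⟨plO Z, plι Z, plT, fun c => ?_, ⟨fun c => ?_, fun c hc => ?_⟩,
    ⟨fun _ _ h => PlC.old.inj h, fun c => ?_⟩,
    fun B B' S e hS he => ⟨pl_ext hS he, fun t t' h h₁ h₂ => OmegaCat.hom_ext fun x => ?_⟩⟩
  · rcases c with x | _ | z
    · obtain ⟨k, hk, hx⟩ := hZ x
      exact ⟨k, hk, congrArg PlC.old hx⟩
    · exact ⟨0, zero_le, rfl⟩
    · exact ⟨1, hn, rfl⟩
  · rcases c with x | _ | z <;> exact Iff.rfl
  · rcases c with x | _ | z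
    · trivial
    · exact hc
    · trivial
  · rcases c with x | _ | z
    · exact iff_of_true trivial ⟨x, rfl⟩
    · exact iff_of_false id fun ⟨_, h⟩ => by cases h
    · exact iff_of_false id fun ⟨_, h⟩ => by cases h
  · have h₃ : ∀ y, S y → t.toFun y = t'.toFun y := fun y hy => by
      obtain ⟨y', rfl⟩ := (he.range y).1 hy
      exact congrArg (fun φ : B' ⟶ plO Z => φ.toFun y') h
    by_cases hx : S x
    · exact h₃ x hx
    · have e₁ : plBd true 0 (t.toFun x) = t.toFun (B.bd true 0 x) := (t.map_bd true 0 x).symm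
      have e₂ : plBd true 0 (t'.toFun x) = t'.toFun (B.bd true 0 x) := (t'.map_bd true 0 x).symm
      refine plT_ext (mt (h₁ x).1 hx) (mt (h₂ x).1 hx) ?_ fun h₄ => ?_
      · rw [e₁, e₂]
        exact (h₁ _).trans (h₂ _).symm
      · rw [e₁] at h₄
        rw [e₁, e₂]
        exact h₃ _ ((h₁ _).1 h₄)

/-- The omega-category with one cell. -/
def cosUnit : OmegaCat where
  C := Unit
  bd _ _ x := x
  comp _ x _ := x
  bd_bd_le _ _ _ _ _ _ := rfl
  bd_bd_lt _ _ _ _ _ _ := rfl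
  src_comp _ _ _ _ := rfl
  tgt_comp _ _ _ _ := rfl
  bd_comp_gt _ _ _ _ _ _ _ := rfl
  id_comp _ _ := rfl
  comp_id _ _ := rfl
  assoc _ _ _ _ _ _ := rfl
  exchange _ _ _ _ _ _ _ _ _ _ := rfl
  fin _ := ⟨0, rfl⟩

/-- The functor to the omega-category with one cell. -/
def cosTo (X : OmegaCat) : X ⟶ cosUnit where
  toFun _ := ()
  map_bd _ _ _ := rfl
  map_comp _ _ _ _ := rfl

/-- The functor from the empty omega-category. -/
def cosFrom (X : OmegaCat) : emptyO ⟶ X where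
  toFun x := x.elim
  map_bd _ _ x := x.elim
  map_comp _ x := x.elim

section
variable {A B : OmegaCat} {g : A ⟶ X} {j : A ⟶ B} {a : X ⟶ Y} {b : B ⟶ Y}

lemma cos_obj_surj (h : NPush n g j a b) (y : Y.C) :
    (∃ x, a.toFun x = Y.bd false 0 y) ∨ ∃ x, b.toFun x = Y.bd false 0 y := by
  let p : Y.C → Prop := fun y => ∀ β,
    (∃ x, a.toFun x = Y.bd β 0 y) ∨ ∃ x, b.toFun x = Y.bd β 0 y
  have hbd : ∀ α k y, p y → p (Y.bd α k y) := fun α k y hy β => by
    rcases k with _ | k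
    · rw [PreOmega.bd_bd_self]
      exact hy α
    · rw [Y.bd_bd_lt _ _ _ _ _ k.succ_pos]
      exact hy β
  have hcomp : ∀ k x y, Y.Cp k x y → p x → p y → p (Y.comp k x y) := fun k x y hxy hx hy β => by
    cases β
    · rw [cos_src0 hxy]
      exact hx false
    · rw [cos_tgt0 hxy]
      exact hy true
  obtain ⟨t, h1, h2⟩ := h.desc (Y.sub p hbd hcomp) (OmegaCat.isNCat_sub p hbd hcomp h.hY)
    (OmegaCat.subLift p hbd hcomp a fun x β => Or.inl ⟨_, a.map_bd β 0 x⟩)
    (OmegaCat.subLift p hbd hcomp b fun x β => Or.inr ⟨_, b.map_bd β 0 x⟩)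
    (OmegaCat.hom_ext fun x => Subtype.ext (congrArg (fun φ : A ⟶ Y => φ.toFun x) h.w))
  have h3 : t ≫ OmegaCat.subι p hbd hcomp = 𝟙 Y := h.ext Y h.hY _ _
    (by rw [← Category.assoc, h1]; rfl) (by rw [← Category.assoc, h2]; rfl)
  have h4 : (t.toFun y).1 = y := congrArg (fun φ : Y ⟶ Y => φ.toFun y) h3
  exact h4 ▸ (t.toFun y).2 false

lemma cos_unique (h : NPush n g j a b) {S S' : Y.C → Prop} (hS : IsCos Y S) (hS' : IsCos Y S')
    (ha : ∀ x, S (a.toFun x) ↔ S' (a.toFun x)) (hb : ∀ x, S (b.toFun x) ↔ S' (b.toFun x))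
    (y : Y.C) : S y ↔ S' y := by
  rw [← hS.src, ← hS'.src]
  rcases cos_obj_surj h y with ⟨x, hx⟩ | ⟨x, hx⟩
  · rw [← hx, ha]
  · rw [← hx, hb]

end

section
variable {A B : OmegaCat} {g : A ⟶ X} {j : A ⟶ B} {a : X ⟶ Y} {b : B ⟶ Y}

theorem NPush.exists_cos (hn : 1 ≤ n) (h : NPush n g j a b) {SX : X.C → Prop}
    {SB : B.C → Prop} (hX : IsCos X SX) (hB : IsCos B SB)
    (hc : ∀ x, SX (g.toFun x) ↔ SB (j.toFun x)) :
    ∃ S, IsCos Y S ∧ (∀ x, S (a.toFun x) ↔ SX x) ∧ ∀ x, S (b.toFun x) ↔ SB x := by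
  obtain ⟨P, ι, T, hP, hT, hι, H⟩ := exists_plus hn cosUnit fun _ => ⟨0, zero_le, rfl⟩
  obtain ⟨u, -, hu⟩ := (H X _ SX _ hX hX.isFib).1 (cosTo _)
  obtain ⟨v, -, hv⟩ := (H B _ SB _ hB hB.isFib).1 (cosTo _)
  have w : g ≫ u = j ≫ v := by
    refine (H A _ _ _ (hX.comap g) (hX.comap g).isFib).2 _ _ (OmegaCat.hom_ext fun x => ?_)
      (fun x => hu _) fun x => (hv _).trans (hc x).symm
    obtain ⟨c, h₁⟩ := (hι.range _).1 ((hu _).2 x.2)
    obtain ⟨c', h₂⟩ := (hι.range _).1 ((hv _).2 ((hc _).1 x.2))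
    exact h₁.symm.trans h₂
  obtain ⟨t, h₁, h₂⟩ := h.desc P hP u v w
  refine ⟨fun y => T (t.toFun y), hT.comap t, fun x => ?_, fun x => ?_⟩
  · rw [← hu, ← h₁]
    rfl
  · rw [← hv, ← h₂]
    rfl

theorem NPush.fib (hn : 1 ≤ n) (h : NPush n g j a b) {S : Y.C → Prop} (hS : IsCos Y S)
    {A' X' B' Y' : OmegaCat} {eA : A' ⟶ A} {eX : X' ⟶ X} {eB : B' ⟶ B} {eY : Y' ⟶ Y}
    (hA : IsFib eA fun x => S (a.toFun (g.toFun x))) (hX : IsFib eX fun x => S (a.toFun x))
    (hB : IsFib eB fun x => S (b.toFun x)) (hY : IsFib eY S)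
    {g' : A' ⟶ X'} {j' : A' ⟶ B'} {a' : X' ⟶ Y'} {b' : B' ⟶ Y'} (hg : g' ≫ eX = eA ≫ g)
    (hj : j' ≫ eB = eA ≫ j) (ha : a' ≫ eY = eX ≫ a) (hb : b' ≫ eY = eB ≫ b) :
    NPush n g' j' a' b' := by
  refine ⟨hX.isNCat h.hX, hY.isNCat h.hY, hY.hom_ext ?_, fun Z hZ u' v' w => ?_,
    fun Z hZ t₁ t₂ e₁ e₂ => ?_⟩
  · rw [Category.assoc, Category.assoc, ha, hb, ← Category.assoc, hg, ← Category.assoc j', hj,
      Category.assoc, Category.assoc, h.w]
  · obtain ⟨P, ι, T, hP, hT, hι, H⟩ := exists_plus hn Z hZ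
    obtain ⟨u, hu, hu'⟩ := (H X _ _ _ (hS.comap a) hX).1 u'
    obtain ⟨v, hv, hv'⟩ := (H B _ _ _ (hS.comap b) hB).1 v'
    have w' : g ≫ u = j ≫ v := by
      refine (H A _ _ _ ((hS.comap a).comap g) hA).2 _ _ ?_ (fun x => hu' _) fun x => ?_
      · rw [← Category.assoc, ← hg, ← Category.assoc, ← hj, Category.assoc, Category.assoc, hu, hv,
          ← Category.assoc, w, Category.assoc]
      · have e : a.toFun (g.toFun x) = b.toFun (j.toFun x) :=
          congrArg (fun φ : A ⟶ Y => φ.toFun x) h.w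
        rw [e]
        exact hv' _
    obtain ⟨t, h₁, h₂⟩ := h.desc P hP u v w'
    have h₃ := cos_unique h (hT.comap t) hS (fun x => by rw [← hu', ← h₁]; rfl)
      fun x => by rw [← hv', ← h₂]; rfl
    obtain ⟨t', ht⟩ := hι.lift (eY ≫ t) fun y => (h₃ _).2 ((hY.range _).2 ⟨y, rfl⟩)
    refine ⟨t', hι.hom_ext ?_, hι.hom_ext ?_⟩
    · rw [Category.assoc, ht, ← Category.assoc, ha, Category.assoc, h₁, hu]
    · rw [Category.assoc, ht, ← Category.assoc, hb, Category.assoc, h₂, hv]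
  · obtain ⟨P, ι, T, hP, hT, hι, H⟩ := exists_plus hn Z hZ
    obtain ⟨s₁, h₁, h₁'⟩ := (H Y _ _ _ hS hY).1 t₁
    obtain ⟨s₂, h₂, h₂'⟩ := (H Y _ _ _ hS hY).1 t₂
    have e : s₁ = s₂ := by
      refine h.ext P hP _ _
        ((H X _ _ _ (hS.comap a) hX).2 _ _ ?_ (fun x => h₁' _) fun x => h₂' _)
        ((H B _ _ _ (hS.comap b) hB).2 _ _ ?_ (fun x => h₁' _) fun x => h₂' _)
      · rw [← Category.assoc, ← Category.assoc, ← ha, Category.assoc, Category.assoc, h₁, h₂,
          ← Category.assoc, e₁, Category.assoc]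
      · rw [← Category.assoc, ← Category.assoc, ← hb, Category.assoc, Category.assoc, h₁, h₂,
          ← Category.assoc, e₂, Category.assoc]
    exact hι.hom_ext (by rw [← h₁, ← h₂, e])

theorem NPush.obj_surj (h : NPush n g j a b) (y : Y.C) :
    (∃ x, a.toFun x = Y.bd false 0 y) ∨ ∃ x, b.toFun x = Y.bd false 0 y := by
  exact cos_obj_surj h y

end

theorem NUniv.fib (hn : 1 ≤ n) {B : OmegaCat} {b : B ⟶ Y} (h : NUniv n b) {S : Y.C → Prop}
    (hS : IsCos Y S) {B' Y' : OmegaCat} {eB : B' ⟶ B} {eY : Y' ⟶ Y}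
    (hB : IsFib eB fun x => S (b.toFun x)) (hY : IsFib eY S) {b' : B' ⟶ Y'}
    (hb : b' ≫ eY = eB ≫ b) : NUniv n b' := by
  have h₁ : NPush n (𝟙 emptyO) (cosFrom B) (cosFrom Y) b :=
    ⟨fun x => x.elim, h.hY, OmegaCat.hom_ext fun x => x.elim, fun Z hZ u v _ =>
      (h.desc Z hZ v).imp fun t ht => ⟨OmegaCat.hom_ext fun x => x.elim, ht⟩,
      fun Z hZ t t' _ e => h.ext Z hZ t t' e⟩
  exact (h₁.fib hn hS (eA := 𝟙 emptyO) (eX := 𝟙 emptyO) ⟨fun x => x.elim, fun x => x.elim⟩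
    ⟨fun x => x.elim, fun x => x.elim⟩ hB hY (g' := 𝟙 emptyO) (j' := cosFrom B')
    (a' := cosFrom Y') rfl (OmegaCat.hom_ext fun x => x.elim) (OmegaCat.hom_ext fun x => x.elim)
    hb).nUniv ⟨fun x => x.elim⟩

section
variable {E W : Type} [PartialOrder E] [PartialOrder W]

/-- The cosieve of `OP E` attached to a set of elements. -/
def cosP (U : Set E) (x : Cell (chainsObj E)) : Prop := ∃ e ∈ U, (OP E).bd false 0 x = vtx e

lemma cosP_iff {U : Set E} {x : Cell (chainsObj E)} {e : E} (h : (OP E).bd false 0 x = vtx e) :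
    cosP U x ↔ e ∈ U :=
  ⟨fun ⟨_, h₁, h₂⟩ => vtx_injective (h₂.symm.trans h) ▸ h₁, fun h₁ => ⟨e, h₁, h⟩⟩

lemma isCos_cosP {U : Set E} (hU : IsUpperSet U) : IsCos (OP E) (cosP U) := by
  refine ⟨fun x => ?_, fun x ⟨e, he, hx⟩ => ?_⟩
  · obtain ⟨e, he⟩ := exists_vtx false x
    exact (cosP_iff ((PreOmega.bd_bd_self (X := (OP E).toPreOmega) _ _ _ _).trans he)).trans
      (cosP_iff he).symm
  · obtain ⟨e', he'⟩ := exists_vtx true x
    exact ⟨e', hU (le_of_cell x hx he') he,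
      (PreOmega.bd_bd_self (X := (OP E).toPreOmega) _ _ _ _).trans he'⟩

lemma cosP_map (f : W →o E) (U : Set E) (x : Cell (chainsObj W)) :
    cosP U (Cell.map (chainsMap f) x) ↔ cosP (f ⁻¹' U) x := by
  obtain ⟨e, he⟩ := exists_vtx false x
  have h : (OP E).bd false 0 (Cell.map (chainsMap f) x) = vtx (f e) := by
    rw [← map_vtx, ← he]
    exact ((opMap f).map_bd false 0 x).symm
  exact (cosP_iff h).trans (cosP_iff (U := f ⁻¹' U) he).symm

lemma cosP_univ (x : Cell (chainsObj E)) : cosP Set.univ x := by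
  obtain ⟨e, he⟩ := exists_vtx false x
  exact ⟨e, trivial, he⟩

lemma cosP_inter (U U' : Set E) (x : Cell (chainsObj E)) :
    cosP (U ∩ U') x ↔ cosP U x ∧ cosP U' x := by
  obtain ⟨e, he⟩ := exists_vtx false x
  rw [cosP_iff he, cosP_iff he, cosP_iff he]
  rfl

lemma cosP_union (U U' : Set E) (x : Cell (chainsObj E)) :
    cosP (U ∪ U') x ↔ cosP U x ∨ cosP U' x := by
  obtain ⟨e, he⟩ := exists_vtx false x
  rw [cosP_iff he, cosP_iff he, cosP_iff he]
  rfl

lemma isFib_opMap (w : W ↪o E) (hw : IsUpperSet (Set.range w)) :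
    IsFib (opMap w.toOrderHom) (cosP (Set.range w)) := by
  refine ⟨opMap_injective _ w.injective, fun x => ⟨fun ⟨e, he, hx⟩ => ?_, fun ⟨x', hx⟩ => ?_⟩⟩
  · exact exists_preimage w x fun ε i c hc t ht => hw (supp_ge x e hx ε i c hc t ht) he
  · obtain ⟨e, he⟩ := exists_vtx false x'
    rw [← hx]
    exact (cosP_map w.toOrderHom _ x').2 ⟨e, ⟨e, rfl⟩, he⟩

lemma IsCos.of_bot {S : (OP E).C → Prop} (h : IsCos (OP E) S) (t : E) (ht : ∀ x, t ≤ x)
    (hS : S (vtx t)) (x : (OP E).C) : S x := by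
  obtain ⟨e, he⟩ := exists_vtx false x
  obtain ⟨y, h₁, h₂⟩ := exists_edge (ht e)
  rw [← h.src, he, ← h₂]
  exact h.tgt y ((h.src y).1 (h₁ ▸ hS))

end

theorem isPushout_nerve_cos {S T : Y.C → Prop} (hS : IsCos Y S) (hT : IsCos Y T)
    (hST : ∀ y, S y ∨ T y) {Y₀ Y₁ Y₂ : OmegaCat} {e₁ : Y₁ ⟶ Y} {e₂ : Y₂ ⟶ Y} (h₁ : IsFib e₁ S)
    (h₂ : IsFib e₂ T) (t : Y₀ ⟶ Y₁) (l : Y₀ ⟶ Y₂) (w : t ≫ e₁ = l ≫ e₂)
    (h₀ : IsFib (t ≫ e₁) fun y => S y ∧ T y) :
    IsPushout (streetNerve.map t) (streetNerve.map l) (streetNerve.map e₁)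
      (streetNerve.map e₂) := by
  have := h₁.mono_nerve
  have := h₂.mono_nerve
  refine sset_isPushout _ _ _ _ (by rw [← streetNerve.map_comp, ← streetNerve.map_comp, w])
    (fun m x => ?_) fun m a₁ a₂ e => ?_
  · have hb : ∀ i : Ord m.unop.len, ULift.up 0 ≤ i := fun i => Fin.zero_le i.down
    rcases hST ((nvVal x).toFun (vtx (ULift.up 0))) with h | h
    · obtain ⟨σ, hσ⟩ := h₁.lift (nvVal x) ((hS.comap (nvVal x)).of_bot _ hb h)
      exact Or.inl ⟨nvMk σ, nv_ext hσ⟩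
    · obtain ⟨σ, hσ⟩ := h₂.lift (nvVal x) ((hT.comap (nvVal x)).of_bot _ hb h)
      exact Or.inr ⟨nvMk σ, nv_ext hσ⟩
  · have e' : nvVal a₁ ≫ e₁ = nvVal a₂ ≫ e₂ := congrArg nvVal e
    obtain ⟨σ, hσ⟩ := h₀.lift (nvVal a₁ ≫ e₁) fun z => ⟨(h₁.range _).2 ⟨_, rfl⟩, by
      rw [e']; exact (h₂.range _).2 ⟨_, rfl⟩⟩
    refine ⟨nvMk σ, nv_ext (h₁.hom_ext ?_), nv_ext (h₂.hom_ext ?_)⟩
    · exact (Category.assoc _ _ _).trans hσ
    · exact (Category.assoc _ _ _).trans ((congrArg (σ ≫ ·) w.symm).trans (hσ.trans e'))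

end Vale.Agent.P213
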