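import Vale.Agent.P213.GammaBeta
import Vale.Agent.P213.ChainsGood

/-!
P213: a functor to the cylinder omega-category gives a simplicial homotopy.

Proof of the chain map condition: if `P` is the projection on the chains on which `φ` is `true`,
the map is `1 ⊗ P + 0 ⊗ (1 - P) + e ⊗ (P d - d P)`, which commutes with `d` formally.

Plan.
* `exists_aw` (Alexander-Whitney map): `BADC.homMk` of
  `s ↦ cinj (some (φ of the least element of s)) (ch s) + cinj none (hφ s)`, where
  `hφ s = ∑ x ∈ s with φ x = false ∧ ∀ y ∈ s.erase x, φ y = true, ch (s.erase x)`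
  (at most one term, `x` is then the least element; the first sign is `true` iff `φ` is `true` on
  all of `s`). For the chain map condition distinguish the number (0, 1, 2, at least 3) of
  elements of `s` where `φ` is `false`; they form an initial segment of `s`. Use `cyl_d_some`,
  `cyl_d_none`, `lin_ch`, `sgn_erase`. Naturality: if `f` is not injective on `s` both sides
  vanish (`f` is then not injective on `s.erase x` for the `x` above).
* `htpy_of_gamma`: the homotopy sends `(σ, φ)` to `nvMk (nuMap (aw _ φ') ≫ G σ)`, where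
  `evHom (G σ) = nvVal σ ≫ h` (`evHom_surjective`) and `φ' i = (φ i = 1)`. Naturality by
  `evHom_injective`, `nuMap_evHom`, `nuMap_comp`; the ends by `evHom_proj`.
-/

open CategoryTheory MonoidalCategory Simplicial

namespace Vale.Agent.P213

instance good_cyl_chains (E : Type) [PartialOrder E] : Good (cyl (chainsObj E)) := instGoodCyl

section
open Classical

/-- The projection on the basis elements satisfying `T`. -/
noncomputable def ghP {B : Type} (T : B → Prop) : (B →₀ ℤ) →+ (B →₀ ℤ) :=
  Finsupp.filterAddHom T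

lemma ghP_apply {B : Type} (T : B → Prop) (x : B →₀ ℤ) (b : B) :
    ghP T x b = if T b then x b else 0 :=
  Finsupp.filter_apply T x b

lemma ghP_single {B : Type} (T : B → Prop) (b : B) :
    ghP T (Finsupp.single b 1) = if T b then Finsupp.single b 1 else 0 := by
  ext c
  rw [ghP_apply]
  by_cases h : c = b
  · subst h
    split_ifs <;> simp
  · split_ifs <;> simp [h]

/-- The homotopy part of the Alexander-Whitney map. -/
noncomputable def ghH (K : BADC) (T : K.B → Prop) : (K.B →₀ ℤ) →+ (K.B →₀ ℤ) :=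
  (ghP T).comp K.d - K.d.comp (ghP T)

lemma ghH_apply (K : BADC) (T : K.B → Prop) (x : K.B →₀ ℤ) :
    ghH K T x = ghP T (K.d x) - K.d (ghP T x) := rfl

/-- The Alexander-Whitney map on chains. -/
noncomputable def ghF (K : BADC) (T : K.B → Prop) : (K.B →₀ ℤ) →+ (Option Bool × K.B →₀ ℤ) :=
  (cinj (some true)).comp (ghP T) + (cinj (some false)).comp (AddMonoidHom.id _ - ghP T) +
    (cinj none).comp (ghH K T)

lemma ghF_apply (K : BADC) (T : K.B → Prop) (x : K.B →₀ ℤ) :
    ghF K T x = cinj (some true) (ghP T x) + cinj (some false) (x - ghP T x) +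
      cinj none (ghH K T x) := rfl

lemma ghF_comm (K : BADC) (T : K.B → Prop) (x : K.B →₀ ℤ) :
    (cyl K).d (ghF K T x) = ghF K T (K.d x) := by
  rw [ghF_apply, ghF_apply, map_add, map_add, cyl_d_some, cyl_d_some, cyl_d_none, ghH_apply,
    ghH_apply]
  simp only [map_sub, K.d_d, map_zero]
  abel

lemma ghH_ne (K : BADC) (T : K.B → Prop) (b c : K.B)
    (h : ghH K T (Finsupp.single b 1) c ≠ 0) : K.deg c + 1 = K.deg b := by
  refine K.d_deg b c fun e => h ?_
  rw [ghH_apply, Finsupp.sub_apply, ghP_apply, ghP_single]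
  split_ifs <;> simp [e]

/-- The Alexander-Whitney map of complexes. -/
noncomputable def ghHom (K : BADC) (T : K.B → Prop)
    (h : ∀ b, 0 ≤ ghH K T (Finsupp.single b 1)) : K ⟶ cyl K :=
  BADC.homMk (fun b => ghF K T (Finsupp.single b 1))
    (fun b => by
      have h₀ : (0 : K.B →₀ ℤ) ≤ Finsupp.single b 1 := Finsupp.single_nonneg.2 zero_le_one
      rw [ghF_apply, ghP_single]
      refine add_nonneg (add_nonneg (cinj_nonneg _ ?_) (cinj_nonneg _ ?_)) (cinj_nonneg _ (h b))
      · split_ifs
        exacts [h₀, le_rfl]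
      · split_ifs
        exacts [by rw [sub_self], by rwa [sub_zero]])
    (fun b => by
      rintro ⟨o, c⟩ hc
      rw [ghF_apply, ghP_single, Finsupp.add_apply, Finsupp.add_apply, cinj_apply, cinj_apply,
        cinj_apply] at hc
      rcases o with _ | _ | _
      · simpa using ghH_ne K T b c (by simpa using hc)
      · have hc' : (Finsupp.single b 1 : K.B →₀ ℤ) c ≠ 0 := by
          intro e
          by_cases hb : T b <;> simp [hb, e] at hc
        simp [(Finsupp.single_apply_ne_zero.1 hc').1]
      · have hc' : (Finsupp.single b 1 : K.B →₀ ℤ) c ≠ 0 := by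
          intro e
          by_cases hb : T b <;> simp [hb, e] at hc
        simp [(Finsupp.single_apply_ne_zero.1 hc').1])
    (fun b => by
      rw [ghF_comm]
      exact DFunLike.congr_fun (addHom_ext (f := ghF K T)
        (g := lin fun b => ghF K T (Finsupp.single b 1)) fun b => by simp) _)
    (fun b hb => by
      have h₀ : ghH K T (Finsupp.single b 1) = 0 := by
        ext c
        by_contra hc
        have := ghH_ne K T b c hc
        omega
      rw [ghF_apply, h₀, map_add, map_add, aug_cinj, aug_cinj, aug_cinj, map_sub, map_zero,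
        aug_single]
      ring)

lemma ghHom_f (K : BADC) (T : K.B → Prop) (h : ∀ b, 0 ≤ ghH K T (Finsupp.single b 1))
    (x : K.B →₀ ℤ) : (ghHom K T h).f x = ghF K T x :=
  DFunLike.congr_fun (addHom_ext (f := lin fun b => ghF K T (Finsupp.single b 1))
    (g := ghF K T) fun b => by simp) x

lemma ghF_nat {K L : BADC} (f : K ⟶ L) (T : K.B → Prop) (T' : L.B → Prop)
    (h : ∀ x, ghP T' (f.f x) = f.f (ghP T x)) (x : K.B →₀ ℤ) :
    ghF L T' (f.f x) = (cylMap f).f (ghF K T x) := by
  rw [ghF_apply, ghF_apply, map_add, map_add, cylMap_cinj, cylMap_cinj, cylMap_cinj, ghH_apply,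
    ghH_apply, f.comm, h, h, f.comm, map_sub f.f, map_sub f.f]

variable {E F : Type} [PartialOrder E] [PartialOrder F]

lemma ghP_ch (φ : E → Bool) (s : Finset E) :
    ghP (fun c : Chain E => ∀ y ∈ c.finset, φ y = true) (ch s) =
      if ∀ y ∈ s, φ y = true then ch s else 0 := by
  ext c
  rw [ghP_apply]
  by_cases hc : ch s c = 0
  · split_ifs <;> simp [hc]
  · rw [finset_eq_of_ch_ne hc]
    split_ifs <;> simp

lemma ghH_nonneg (φ : E →o Bool) (b : Chain E) :
    0 ≤ ghH (chainsObj E) (fun c : Chain E => ∀ y ∈ c.finset, φ y = true)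
      (Finsupp.single b 1) := by
  have hd : (chainsObj E).d (Finsupp.single b 1) = dch b.finset := by
    change lin _ _ = _
    rw [lin_single, one_smul]
  rw [ghH_apply, ghP_single, hd]
  split_ifs with hb
  · rw [hd, dch, map_sum, sub_nonneg]
    refine Finset.sum_le_sum fun x _ => le_of_eq ?_
    rw [map_zsmul, ghP_ch, if_pos fun y hy => hb y (Finset.mem_of_mem_erase hy)]
  · rw [map_zero, sub_zero, dch, map_sum]
    refine Finset.sum_nonneg fun x hx => ?_
    rw [map_zsmul, ghP_ch]
    split_ifs with h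
    · have e : sgn b.finset x = 1 := by
        unfold sgn
        rw [Finset.filter_false_of_mem, Finset.card_empty, pow_zero]
        intro y hy hyx
        refine hb fun z hz => ?_
        by_cases hzx : z = x
        · have h₁ := φ.monotone hyx.le
          rw [h y (Finset.mem_erase.2 ⟨hyx.ne, hy⟩)] at h₁
          rw [hzx]
          exact top_le_iff.1 h₁
        · exact h z (Finset.mem_erase.2 ⟨hzx, hz⟩)
      rw [e, one_smul]
      exact ch_nonneg _
    · rw [smul_zero]

lemma ghP_nat (f : E →o F) (ψ : F →o Bool) (x : Chain E →₀ ℤ) :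
    ghP (fun c : Chain F => ∀ y ∈ c.finset, ψ y = true) ((chainsMap f).f x) =
      (chainsMap f).f (ghP (fun c : Chain E => ∀ y ∈ c.finset, (ψ.comp f) y = true) x) := by
  refine DFunLike.congr_fun (addHom_ext (f := (ghP _).comp (chainsMap f).f)
    (g := (chainsMap f).f.comp (ghP _)) fun b => ?_) x
  rw [AddMonoidHom.comp_apply, AddMonoidHom.comp_apply, ← ch_finset, ghP_ch,
    chainsMap_ch _ b.isCh, apply_ite (chainsMap f).f, chainsMap_ch _ b.isCh, map_zero, chImage]
  by_cases hf : Set.InjOn f b.finset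
  · rw [if_pos hf, ghP_ch]
    simp only [Finset.forall_mem_image, OrderHom.comp_coe, Function.comp_apply]
  · rw [if_neg hf, map_zero, ite_self]

end

theorem exists_aw : ∃ aw : ∀ (E : Type) [PartialOrder E] (_ : E →o Bool),
    chainsObj E ⟶ cyl (chainsObj E),
    (∀ (E : Type) [PartialOrder E] (φ : E →o Bool) (ε : Bool), (∀ x, φ x = ε) →
      aw E φ = cylι _ ε) ∧
    ∀ (E F : Type) [PartialOrder E] [PartialOrder F] (f : E →o F) (ψ : F →o Bool),
      chainsMap f ≫ aw F ψ = aw E (ψ.comp f) ≫ cylMap (chainsMap f) := by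
  refine ⟨fun E _ φ => ghHom _ _ (ghH_nonneg φ), fun E _ φ ε h => ?_, fun E F _ _ f ψ => ?_⟩
  · refine BADC.Hom.ext (AddMonoidHom.ext fun x => ?_)
    rw [ghHom_f]
    change _ = cinj (some ε) x
    cases ε
    · have e : ∀ x, ghP (fun c : Chain E => ∀ y ∈ c.finset, φ y = true) x = 0 := fun x => by
        ext c
        obtain ⟨y, hy⟩ := c.nonempty
        rw [ghP_apply, if_neg fun h' => by simpa [h] using h' y hy]
        rfl
      rw [ghF_apply, ghH_apply, e, e]
      simp
    · have e : ∀ x, ghP (fun c : Chain E => ∀ y ∈ c.finset, φ y = true) x = x := fun x => by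
        ext c
        rw [ghP_apply, if_pos fun y _ => h y]
      rw [ghF_apply, ghH_apply, e, e]
      simp
  · refine BADC.Hom.ext (AddMonoidHom.ext fun x => ?_)
    change (ghHom _ _ (ghH_nonneg ψ)).f ((chainsMap f).f x) =
      (cylMap (chainsMap f)).f ((ghHom _ _ (ghH_nonneg (ψ.comp f))).f x)
    rw [ghHom_f, ghHom_f]
    exact ghF_nat (chainsMap f) _ _ (ghP_nat f ψ) x

/-- The monotone map to `Bool` given by a simplex of the interval. -/
def ghBool {n : SimplexCategoryᵒᵖ} (s : (Δ[1] : SSet.{0}).obj n) : Ord n.unop.len →o Bool where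
  toFun j := decide (s.down.toOrderHom j.down = (1 : Fin 2))
  monotone' i j h := by
    have h' : (s.down.toOrderHom i.down : Fin 2) ≤ s.down.toOrderHom j.down :=
      s.down.toOrderHom.monotone h
    exact (by decide : ∀ a b : Fin 2, a ≤ b → decide (a = 1) ≤ decide (b = 1)) _ _ h'

theorem htpy_of_gamma {X Y : OmegaCat} (h : X ⟶ Gamma Y) :
    Htpy (streetNerve.map (h ≫ proj Y false)) (streetNerve.map (h ≫ proj Y true)) := by
  obtain ⟨aw, h₁, h₂⟩ := exists_aw
  have hG : ∀ (n : SimplexCategoryᵒᵖ) (σ : (streetNerve.obj X).obj n),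
      ∃ G : nuObj (cyl (chainsObj (Ord n.unop.len))) ⟶ Y, evHom G = nvVal σ ≫ h :=
    fun n σ => evHom_surjective _
  choose G hG using hG
  have hnat : ∀ (n m : SimplexCategoryᵒᵖ) (a : n ⟶ m) (σ : (streetNerve.obj X).obj n),
      G m ((streetNerve.obj X).map a σ) =
        nuMap (cylMap (chainsMap (ordMap a.unop))) ≫ G n σ := fun n m a σ => by
    refine evHom_injective ?_
    rw [hG, ← nuMap_evHom, hG, ← Category.assoc]
    rfl
  have hend : ∀ (ε : Bool) (n : SimplexCategoryᵒᵖ) (σ : (streetNerve.obj X).obj n)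
      (φ : Ord n.unop.len →o Bool), (∀ j, φ j = ε) →
      nuMap (aw _ φ) ≫ G n σ = nvVal σ ≫ h ≫ proj Y ε := fun ε n σ φ hφ => by
    rw [h₁ _ φ ε hφ, ← evHom_proj, hG, Category.assoc]
  refine ⟨{ app n := TypeCat.ofHom fun p => nvMk (nuMap (aw _ (ghBool p.2)) ≫ G n p.1)
            naturality n m a := ?_ }, ?_, ?_⟩
  · ext p
    refine nv_ext ?_
    change nuMap (aw _ ((ghBool p.2).comp (ordMap a.unop))) ≫
        G m ((streetNerve.obj X).map a p.1) =
      nuMap (chainsMap (ordMap a.unop)) ≫ nuMap (aw _ (ghBool p.2)) ≫ G n p.1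
    rw [hnat, ← Category.assoc, ← Category.assoc, ← nuMap_comp, ← nuMap_comp, h₂]
  · ext n x
    exact nv_ext (hend false n x _ fun _ => rfl)
  · ext n x
    exact nv_ext (hend true n x _ fun _ => rfl)

end Vale.Agent.P213
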