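import Vale.Agent.P213.NPush
import Vale.Agent.P213.Beat
import Vale.Agent.P213.GammaHtpy

/-!
P213: pushouts along beat point inclusions and along Dwyer inclusions are weak equivalences.

Plan.
* `zhtpy_of_step`: with `rf` from `exists_refl Y`, descend `(a ≫ rf, evHom (nuMap H ≫ b))` to
  `h : Y ⟶ Gamma Y` (`isNCat_Gamma`, `nuMap_evHom`); `h ≫ proj Y ε` is `t` or `t'` by `NPush.ext`
  (`evHom_proj`); `htpy_of_gamma`.
* `NPush.whe_of_zigzag`: prove by induction on `EqvGen (Step j) F F'` that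
  `(j ≫ F = j ↔ j ≫ F' = j)` and that, if `j ≫ F = j`, any `t`, `t'` as in `htpy_of_step` have
  `ZHtpy` nerves (for transitivity the middle functor exists by `NPush.desc`). Let
  `ρ : Y ⟶ X` be the descent of `(𝟙 X, nuMap r ≫ g)`; `a ≫ ρ = 𝟙`; `whe_of_zhtpy_equiv`.
* `NPush.whe_dwyer`: induction on `Nat.card W - Nat.card A` (or on the card of the complement of
  the range), for all `W`, `e`, `Y`, `a`, `b`. If `e` is onto, `opMap e` is an isomorphism
  (`NPush.isIso`). Otherwise let `v` be minimal outside the range, `W' = {x // x ≠ v}`,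
  `u = e a₀` with `a₀` the largest element below `v`; factor `e` through `W'`, take
  `exists_nPush`, `NPush.of_comp`, the induction hypothesis and `beat_zigzag`.
* `whe_nerve_of_nUniv_bot`: `A = PUnit`-like subposet `{t}` (any one element type, `e _ = t`),
  `X = OP A` (an n-category by `dim_of_card_le`), `g = 𝟙`; the square is an `NPush`;
  `isIso_terminal_nerve`, `subsingleton_cell`, two out of three.
-/

open CategoryTheory Limits

namespace Vale.Agent.P213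

variable {n : ℕ∞}

theorem NPush.htpy_of_step {K' K : BADC} {j : K' ⟶ K} {X Y : OmegaCat} {g : nuObj K' ⟶ X}
    {a : X ⟶ Y} {b : nuObj K ⟶ Y} (h : NPush n g (nuMap j) a b) {F F' : K ⟶ K}
    (hF : Step j F F') (t t' : Y ⟶ Y) (ha : a ≫ t = a) (hb : b ≫ t = nuMap F ≫ b)
    (ha' : a ≫ t' = a) (hb' : b ≫ t' = nuMap F' ≫ b) :
    Htpy (streetNerve.map t) (streetNerve.map t') := by
  obtain ⟨H, h₀, h₁, hH⟩ := hF
  obtain ⟨rf, hrf, hrf'⟩ := exists_refl Y
  obtain ⟨k, hk₁, hk₂⟩ := h.desc (Gamma Y) (isNCat_Gamma h.hY) (a ≫ rf) (evHom (nuMap H ≫ b)) (by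
    rw [nuMap_evHom, ← Category.assoc (nuMap _), ← nuMap_comp, hH, nuMap_comp, Category.assoc,
      hrf', ← h.w, Category.assoc])
  have key : ∀ (ε : Bool) (G : K ⟶ K) (s : Y ⟶ Y), cylι K ε ≫ H = G → a ≫ s = a →
      b ≫ s = nuMap G ≫ b → k ≫ proj Y ε = s := by
    intro ε G s hG e₁ e₂
    refine h.ext Y h.hY _ _ ?_ ?_
    · rw [reassoc_of% hk₁, hrf, Category.comp_id, e₁]
    · rw [reassoc_of% hk₂, evHom_proj, e₂, ← hG, nuMap_comp, Category.assoc]
  rw [← key false F t h₀ ha hb, ← key true F' t' h₁ ha' hb']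
  exact htpy_of_gamma k

lemma dw_step_fix {K' K : BADC} {j : K' ⟶ K} {F F' : K ⟶ K} (h : Step j F F') :
    j ≫ F = j ∧ j ≫ F' = j := by
  obtain ⟨H, h₀, h₁, hH⟩ := h
  have key : ∀ ε, j ≫ cylι K ε ≫ H = j := fun ε => by
    rw [← Category.assoc, ← cylι_map, Category.assoc, hH, ← Category.assoc, cylι_π,
      Category.id_comp]
  exact ⟨h₀ ▸ key false, h₁ ▸ key true⟩

lemma dw_zigzag {K' K : BADC} {j : K' ⟶ K} {X Y : OmegaCat} {g : nuObj K' ⟶ X}
    {a : X ⟶ Y} {b : nuObj K ⟶ Y} (h : NPush n g (nuMap j) a b) {F F' : K ⟶ K}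
    (hF : Relation.EqvGen (Step j) F F') : (j ≫ F = j ↔ j ≫ F' = j) ∧
      (j ≫ F = j → ∀ t t' : Y ⟶ Y, a ≫ t = a → b ≫ t = nuMap F ≫ b → a ≫ t' = a →
        b ≫ t' = nuMap F' ≫ b → ZHtpy (streetNerve.map t) (streetNerve.map t')) := by
  induction hF with
  | rel F F' hF =>
    exact ⟨iff_of_true (dw_step_fix hF).1 (dw_step_fix hF).2, fun _ t t' h₁ h₂ h₃ h₄ =>
      .rel _ _ (h.htpy_of_step hF t t' h₁ h₂ h₃ h₄)⟩
  | refl F =>
    refine ⟨Iff.rfl, fun _ t t' h₁ h₂ h₃ h₄ => ?_⟩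
    rw [h.ext Y h.hY t t' (h₁.trans h₃.symm) (h₂.trans h₄.symm)]
    exact .refl _
  | symm F F' _ ih =>
    exact ⟨ih.1.symm, fun e t t' h₁ h₂ h₃ h₄ => .symm _ _ (ih.2 (ih.1.2 e) t' t h₃ h₄ h₁ h₂)⟩
  | trans F F' F'' _ _ ih ih' =>
    refine ⟨ih.1.trans ih'.1, fun e t t' h₁ h₂ h₃ h₄ => ?_⟩
    obtain ⟨s, hs₁, hs₂⟩ := h.desc Y h.hY a (nuMap F' ≫ b) (by
      rw [← Category.assoc, ← nuMap_comp, ih.1.1 e, h.w])
    exact .trans _ _ _ (ih.2 e t s h₁ h₂ hs₁ hs₂) (ih'.2 (ih.1.1 e) s t' hs₁ hs₂ h₃ h₄)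

theorem NPush.whe_of_zigzag {K' K : BADC} {j : K' ⟶ K} (r : K ⟶ K') (hr : j ≫ r = 𝟙 K')
    (hz : Relation.EqvGen (Step j) (𝟙 K) (r ≫ j)) {X Y : OmegaCat} {g : nuObj K' ⟶ X}
    {a : X ⟶ Y} {b : nuObj K ⟶ Y} (h : NPush n g (nuMap j) a b) : whe (streetNerve.map a) := by
  obtain ⟨ρ, h₁, h₂⟩ := h.desc X h.hX (𝟙 X) (nuMap r ≫ g) (by
    rw [← Category.assoc, ← nuMap_comp, hr, nuMap_id, Category.id_comp, Category.comp_id])
  have key := (dw_zigzag h hz).2 (Category.comp_id _) (𝟙 Y) (ρ ≫ a) (Category.comp_id _)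
    (by rw [nuMap_id, Category.id_comp, Category.comp_id])
    (by rw [reassoc_of% h₁])
    (by rw [reassoc_of% h₂, h.w, nuMap_comp, Category.assoc])
  refine whe_of_zhtpy_equiv _ (streetNerve.map ρ) ?_ ?_
  · rw [← Functor.map_comp, h₁, CategoryTheory.Functor.map_id]
    exact .refl _
  · rw [CategoryTheory.Functor.map_id, Functor.map_comp] at key
    exact .symm _ _ key

lemma dw_isIso {A W : Type} [PartialOrder A] [PartialOrder W] (e : A ↪o W)
    (he : Function.Surjective e) : IsIso (opMap e.toOrderHom) := by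
  choose s hs using he
  let s' : W →o A := ⟨s, fun x y hxy => e.le_iff_le.1 (by rwa [hs, hs])⟩
  have e₁ : s'.comp e.toOrderHom = OrderHom.id :=
    OrderHom.ext _ _ (funext fun a => e.injective (hs _))
  have e₂ : e.toOrderHom.comp s' = OrderHom.id := OrderHom.ext _ _ (funext hs)
  exact ⟨opMap s', by rw [← opMap_comp, e₁, opMap_id], by rw [← opMap_comp, e₂, opMap_id]⟩

lemma dw_ind {A : Type} [PartialOrder A] {X : OmegaCat} {g : OP A ⟶ X} (N : ℕ) :
    ∀ (W : Type) [PartialOrder W] [Finite W] (e : A ↪o W), Nat.card W = N →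
      (∀ w, ∃ a₀, ∀ a, e a ≤ w ↔ a ≤ a₀) → ∀ (Y : OmegaCat) (a : X ⟶ Y) (b : OP W ⟶ Y),
      NPush n g (opMap e.toOrderHom) a b → whe (streetNerve.map a) := by
  induction N using Nat.strong_induction_on with
  | _ N ih =>
  intro W _ _ e hN hd Y a b h
  classical
  by_cases he : Function.Surjective e
  · have := dw_isIso e he
    have := h.isIso
    exact whe_of_isIso _
  obtain ⟨v, hv, hmin⟩ := (Set.toFinite (Set.range e)ᶜ).exists_minimal
    (Set.nonempty_compl.2 fun h => he (Set.range_eq_univ.1 h))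
  obtain ⟨a₀, ha₀⟩ := hd v
  have hne : ∀ a, e a ≠ v := fun a h => hv ⟨a, h⟩
  have huv : e a₀ < v := lt_of_le_of_ne ((ha₀ a₀).2 le_rfl) (hne a₀)
  have hu : ∀ p, p < v → p ≤ e a₀ := fun p hp => by
    obtain ⟨q, rfl⟩ : p ∈ Set.range e := by
      by_contra hn
      exact hp.not_ge (hmin hn hp.le)
    exact e.monotone ((ha₀ q).1 hp.le)
  let j : {x // x ≠ v} →o W := ⟨Subtype.val, fun _ _ h => h⟩
  let r : W →o {x // x ≠ v} :=
    ⟨fun x => if hx : x = v then ⟨e a₀, hne a₀⟩ else ⟨x, hx⟩, fun x y hxy => by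
      by_cases hx : x = v <;> by_cases hy : y = v <;> simp only [hx, hy, dif_pos, dif_neg,
        not_false_eq_true, le_refl]
      · exact huv.le.trans (hx ▸ hxy)
      · exact hu x (lt_of_le_of_ne (hy ▸ hxy) hx)
      · exact hxy⟩
  let e' : A ↪o {x // x ≠ v} := OrderEmbedding.ofMapLEIff (fun a => ⟨e a, hne a⟩)
    fun _ _ => e.le_iff_le
  have hr : ∀ x, x ≠ v → j (r x) = x := fun x hx => congrArg Subtype.val (dif_neg hx)
  have hjr : r.comp j = OrderHom.id :=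
    OrderHom.ext _ _ (funext fun x => Subtype.ext (hr x.1 x.2))
  have hfac : opMap e.toOrderHom = opMap e'.toOrderHom ≫ opMap j := by
    rw [← opMap_comp]; rfl
  obtain ⟨Y', a', b', h'⟩ := exists_nPush h.hX g (opMap e'.toOrderHom)
  obtain ⟨a'', rfl, h''⟩ := h'.of_comp (hfac ▸ h)
  rw [Functor.map_comp]
  refine whe.comp_mem _ _ (ih _ ?_ _ e' rfl (fun w => hd w.1) Y' a' b' h') ?_
  · exact hN ▸ Finite.card_subtype_lt (x := v) (not_not.2 rfl)
  · exact NPush.whe_of_zigzag (chainsMap r) (by rw [← chainsMap_comp, hjr, chainsMap_id])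
      (beat_zigzag (e a₀) v huv hu j (fun x => x.2) r hr (congrArg Subtype.val (dif_pos rfl))) h''

theorem NPush.whe_dwyer {A W : Type} [PartialOrder A] [PartialOrder W] [Finite W] (e : A ↪o W)
    (hd : ∀ w, ∃ a₀, ∀ a, e a ≤ w ↔ a ≤ a₀) {X Y : OmegaCat}
    {g : OP A ⟶ X} {a : X ⟶ Y} {b : OP W ⟶ Y} (h : NPush n g (opMap e.toOrderHom) a b) :
    whe (streetNerve.map a) := by
  exact dw_ind _ W e rfl hd Y a b h

theorem whe_nerve_of_nUniv_bot {V : Type} [PartialOrder V] [Finite V] (t : V) (ht : ∀ x, t ≤ x)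
    {Y : OmegaCat} {b : OP V ⟶ Y} (h : NUniv n b) :
    whe (terminal.from (streetNerve.obj Y)) := by
  let e : Unit ↪o V := OrderEmbedding.ofMapLEIff (fun _ => t) fun _ _ => by simp
  have hp : NPush n (𝟙 (OP Unit)) (opMap e.toOrderHom) (opMap e.toOrderHom ≫ b) b :=
    { hX := fun x => ⟨0, by simp,
        dim_of_card_le (k := 0) (fun c => (Finset.card_le_univ _).trans (by simp)) x⟩
      hY := h.hY
      w := Category.id_comp _
      desc := fun Z hZ u v huv => by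
        obtain ⟨s, hs⟩ := h.desc Z hZ v
        exact ⟨s, by rw [Category.assoc, hs, ← huv, Category.id_comp], hs⟩
      ext := fun Z hZ s s' _ h₂ => h.ext Z hZ s s' h₂ }
  have hw := hp.whe_dwyer e fun w => ⟨(), fun _ => iff_of_true (ht w) le_rfl⟩
  have := isIso_terminal_nerve (X := OP Unit) ⟨vtx ()⟩ subsingleton_cell
  refine whe.of_precomp _ _ hw ?_
  rw [terminal.comp_from]
  exact whe_of_isIso _

end Vale.Agent.P213
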