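import Vale.Agent.P213.Transfer

open CategoryTheory Limits HomotopicalAlgebra

namespace Vale.Agent.P213

theorem final :
    (∃ M : ModelCategory SSet.{0},
      M.categoryWithCofibrations.cofibrations = MorphismProperty.monomorphisms _ ∧
      M.categoryWithFibrations.fibrations = kanFib ∧
      M.categoryWithWeakEquivalences.weakEquivalences = whe) ∧
    ∀ n : ℕ∞, 1 ≤ n →
      HasLimits (NCat n) ∧ HasColimits (NCat n) ∧
      (∃ M : ModelCategory (NCat n),
        M.categoryWithCofibrations.cofibrations = Cn n ∧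
        M.categoryWithFibrations.fibrations = Fn n ∧
        M.categoryWithWeakEquivalences.weakEquivalences = Wn n) ∧
      (∃ c : SSet.{0} ⥤ NCat n, Nonempty (c ⊣ nerveN n)) ∧
      ∀ (c : SSet.{0} ⥤ NCat n) (adj : c ⊣ nerveN n),
        (∀ (K L : SSet.{0}) (i : K ⟶ L), Mono i → Cn n (((SSet.sd ⋙ SSet.sd) ⋙ c).map i)) ∧
        (∀ (K L : SSet.{0}) (i : K ⟶ L), Mono i → whe i →
          Wn n (((SSet.sd ⋙ SSet.sd) ⋙ c).map i)) ∧
        ∀ (K : SSet.{0}) (X : NCat n) (f : ((SSet.sd ⋙ SSet.sd) ⋙ c).obj K ⟶ X),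
          Wn n f ↔
            whe (((SSet.sdExAdjunction.comp SSet.sdExAdjunction).comp adj).homEquiv K X f) :=
  ⟨exists_kanQuillen, fun n hn => ⟨inferInstance, inferInstance, exists_thomason hn,
    exists_leftAdjoint n, fun _ adj => ⟨fun _ _ i _ => cn_left adj i,
      fun _ _ i _ hi => wn_left hn adj i hi, wn_iff hn adj⟩⟩⟩

end Vale.Agent.P213
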