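import Vale.Agent.P213.StGlue

/-!
P213: complexes attached to globular sets; the infinite globe; grids (globular sums).

Plan.
* The atom of `b` has the entry `low ε i b` in degree `i ≤ deg b`; `low false i b` is below `b`
  and `low true i b` above `b` for `lt` when `i < deg b`, so they differ.
* `GSet.exists_hom`: `P213.exists_hom` with `Inv m F := ∀ b, deg b ≤ m → F (atom b) = ξ b`.
* The order of the grid is the lexicographic order (`Pi.Lex`, or an explicit first difference)
  of the sequences `l ↦ if l ≤ k then c l + 1 else 0`.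
-/

open CategoryTheory

namespace Vale.Agent.P213

/-- A globular set with an order making its basis strongly loop-free. -/
structure GSet : Type 1 where
  B : Type
  deg : B → ℕ
  face : Bool → B → B
  deg_face : ∀ ε b k, deg b = k + 1 → deg (face ε b) = k
  face_face : ∀ ε b k, deg b = k + 2 → face ε (face false b) = face ε (face true b)
  lt : B → B → Prop
  irrefl : ∀ a, ¬ lt a a
  trans : ∀ a b c, lt a b → lt b c → lt a c
  lt_false : ∀ b k, deg b = k + 1 → lt (face false b) b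
  lt_true : ∀ b k, deg b = k + 1 → lt b (face true b)

lemma gs_isDeg_single {B : Type} {deg : B → ℕ} {i : ℕ} {b : B} (h : deg b = i) (n : ℤ) :
    IsDeg deg i (Finsupp.single b n) := fun c hc => by
  rw [← h, (Finsupp.single_apply_ne_zero.1 hc).1]

namespace GSet

lemma face_face' (G : GSet) (ε α β : Bool) {b : G.B} {k : ℕ} (h : G.deg b = k + 2) :
    G.face ε (G.face α b) = G.face ε (G.face β b) := by
  have := G.face_face ε b k h
  cases α <;> cases β <;> simp [this]

@[reducible]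
noncomputable def adc (G : GSet) : BADC where
  B := G.B
  deg := G.deg
  d := lin fun b => if G.deg b = 0 then 0 else
    Finsupp.single (G.face true b) 1 - Finsupp.single (G.face false b) 1
  d_deg b c h := by
    rw [lin_single, one_smul] at h
    split_ifs at h with h0
    · exact absurd rfl h
    obtain ⟨k, hk⟩ := Nat.exists_eq_succ_of_ne_zero h0
    rw [hk]
    by_cases e : c = G.face true b
    · rw [e, G.deg_face _ _ _ hk]
    · by_cases e' : c = G.face false b
      · rw [e', G.deg_face _ _ _ hk]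
      · exact absurd (by simp [Finsupp.single_eq_of_ne e, Finsupp.single_eq_of_ne e']) h
  d_d x := by
    refine DFunLike.congr_fun (addHom_ext (f := (lin _).comp (lin _)) (g := 0) fun b => ?_) x
    rw [AddMonoidHom.comp_apply, lin_single, one_smul, AddMonoidHom.zero_apply]
    split_ifs with h0
    · exact map_zero _
    obtain ⟨k, hk⟩ := Nat.exists_eq_succ_of_ne_zero h0
    rw [map_sub, lin_single, lin_single, one_smul, one_smul, G.deg_face _ _ _ hk,
      G.deg_face _ _ _ hk]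
    cases k with
    | zero => simp
    | succ k =>
      rw [if_neg (Nat.succ_ne_zero k), if_neg (Nat.succ_ne_zero k), G.face_face true b k hk,
        G.face_face false b k hk, sub_self]
  aug_d b h := by
    rw [lin_single, one_smul, if_neg (by omega), map_sub, aug_single, aug_single, sub_self]

lemma d_single (G : GSet) {b : G.B} {k : ℕ} (h : G.deg b = k + 1) :
    G.adc.d (Finsupp.single b 1) =
      Finsupp.single (G.face true b) 1 - Finsupp.single (G.face false b) 1 := by
  change lin _ _ = _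
  rw [lin_single, one_smul, if_neg (by omega)]

lemma d_single_zero (G : GSet) {b : G.B} (h : G.deg b = 0) :
    G.adc.d (Finsupp.single b 1) = 0 := by
  change lin _ _ = _
  rw [lin_single, one_smul, if_pos h]

lemma deg_iter (G : GSet) (ε : Bool) (b : G.B) : ∀ j i, G.deg b = i + j →
    G.deg ((G.face ε)^[j] b) = i
  | 0, _, h => h
  | j + 1, i, h => by
    rw [Function.iterate_succ_apply']
    exact G.deg_face _ _ _ (deg_iter G ε b j (i + 1) (by omega))

lemma face_iter (G : GSet) (b : G.B) : ∀ j, j < G.deg b → ∀ α ε,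
    G.face α ((G.face ε)^[j] b) = (G.face α)^[j + 1] b
  | 0, _, _, _ => rfl
  | j + 1, h, α, ε => by
    rw [← face_iter G b j (by omega) ε α, Function.iterate_succ_apply',
      Function.iterate_succ_apply']
    exact G.face_face' α ε α (G.deg_iter α b j (G.deg b - j - 2 + 2) (by omega))

lemma lt_iter (G : GSet) (b : G.B) : ∀ j, j < G.deg b →
    G.lt ((G.face false)^[j + 1] b) b ∧ G.lt b ((G.face true)^[j + 1] b)
  | 0, h => ⟨G.lt_false b (G.deg b - 1) (by omega), G.lt_true b (G.deg b - 1) (by omega)⟩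
  | j + 1, h => by
    obtain ⟨h1, h2⟩ := lt_iter G b j (by omega)
    rw [Function.iterate_succ_apply', Function.iterate_succ_apply' (G.face true)]
    exact ⟨G.trans _ _ _ (G.lt_false _ _
        (G.deg_iter false b (j + 1) (G.deg b - j - 2 + 1) (by omega))) h1,
      G.trans _ _ _ h2 (G.lt_true _ _
        (G.deg_iter true b (j + 1) (G.deg b - j - 2 + 1) (by omega)))⟩

lemma isAtom_iter (G : GSet) (b : G.B) : IsAtom G.adc b fun ε i =>
    if i ≤ G.deg b then Finsupp.single ((G.face ε)^[G.deg b - i] b) 1 else 0 where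
  tab :=
    { nonneg ε i := by
        split_ifs
        exacts [Finsupp.single_nonneg.2 zero_le_one, le_rfl]
      deg ε i := by
        split_ifs with h
        · exact gs_isDeg_single (G.deg_iter ε b _ i (by omega)) 1
        · exact fun c hc => absurd rfl hc
      aug ε := by rw [if_pos (Nat.zero_le _), aug_single]
      d ε i := by
        by_cases h : i + 1 ≤ G.deg b
        · rw [if_pos h, if_pos (by omega), if_pos (by omega),
            G.d_single (G.deg_iter ε b _ (i + 1) (by omega)), G.face_iter b _ (by omega),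
            G.face_iter b _ (by omega), show G.deg b - (i + 1) + 1 = G.deg b - i by omega]
        · rw [if_neg h, map_zero]
          split_ifs
          · rw [show G.deg b - i = 0 by omega]
            exact (sub_self _).symm
          · exact (sub_self _).symm }
  top ε := by
    change (if G.deg b ≤ G.deg b then _ else _) = _
    rw [if_pos le_rfl, Nat.sub_self]
    rfl
  zero ε i h := if_neg (not_le.2 h)
  disj i h c := by
    have h' : i < G.deg b := h
    rw [if_pos h'.le, if_pos h'.le, show G.deg b - i = G.deg b - i - 1 + 1 by omega]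
    obtain ⟨h1, h2⟩ := G.lt_iter b (G.deg b - i - 1) (by omega)
    by_contra hne
    rw [not_or] at hne
    have e1 := (Finsupp.single_apply_ne_zero.1 hne.1).1
    have e2 := (Finsupp.single_apply_ne_zero.1 hne.2).1
    exact G.irrefl c (G.trans _ _ _ (e2 ▸ h1) (e1 ▸ h2))

instance good (G : GSet) : Good G.adc := by
  refine ⟨fun b => ⟨_, G.isAtom_iter b⟩, G.lt, G.irrefl, G.trans, fun b c => ?_⟩
  rcases h : G.deg b with _ | k
  · rw [G.d_single_zero h]
    exact ⟨fun h => absurd h (lt_irrefl _), fun h => absurd h (lt_irrefl _)⟩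
  · rw [G.d_single h, Finsupp.sub_apply]
    refine ⟨fun h1 => ?_, fun h1 => ?_⟩
    · by_cases e : c = G.face false b
      · exact e ▸ G.lt_false b k h
      · rw [Finsupp.single_eq_of_ne e, sub_zero] at h1
        exact absurd h1 (not_lt.2 (Finsupp.single_nonneg.2 zero_le_one c))
    · by_cases e : c = G.face true b
      · exact e ▸ G.lt_true b k h
      · rw [Finsupp.single_eq_of_ne e, zero_sub, neg_pos] at h1
        exact absurd h1 (not_lt.2 (Finsupp.single_nonneg.2 zero_le_one c))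

/-- The iterated face of dimension `k`. -/
def low (G : GSet) (ε : Bool) (k : ℕ) (b : G.B) : G.B := (G.face ε)^[G.deg b - k] b

lemma atom_val (G : GSet) (b : G.B) (ε : Bool) (i : ℕ) :
    (atom (K := G.adc) b).val ε i =
      if i ≤ G.deg b then Finsupp.single (G.low ε i b) 1 else 0 := by
  rw [(isAtom_atom (K := G.adc) b).unique (G.isAtom_iter b)]
  rfl

lemma bd_atom (G : GSet) (b : G.B) (α : Bool) {k : ℕ} (hk : G.deg b = k + 1) :
    (nuObj G.adc).bd α k (atom (K := G.adc) b) = atom (K := G.adc) (G.face α b) := by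
  refine Cell.ext (funext fun ε => funext fun i => ?_)
  have hf := G.deg_face α b k hk
  rw [Cell.bd_val, rbd, atom_val, atom_val, atom_val, hf, low, low, low, hf, hk]
  by_cases h1 : i < k
  · rw [if_pos h1, if_pos (by omega), if_pos h1.le, show k + 1 - i = k - i - 1 + 1 + 1 by omega,
      show k - i = k - i - 1 + 1 by omega, Function.iterate_succ_apply,
      Function.iterate_succ_apply, Function.iterate_succ_apply,
      G.face_face' ε ε α (k := k - 1) (by omega), Nat.add_sub_cancel]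
  · rw [if_neg h1]
    by_cases h2 : i = k
    · rw [if_pos h2, if_pos (by omega), if_pos h2.le, h2, Nat.sub_self, Nat.add_sub_cancel_left]
      rfl
    · rw [if_neg h2, if_neg (by omega)]

theorem exists_hom (G : GSet) (Y : OmegaCat) (ξ : G.B → Y.C) (h₁ : ∀ b, Y.Dim (G.deg b) (ξ b))
    (h₂ : ∀ ε b k, G.deg b = k + 1 → Y.bd ε k (ξ b) = ξ (G.face ε b)) :
    ∃ g : nuObj G.adc ⟶ Y, ∀ b, g.toFun (atom (K := G.adc) b) = ξ b := by
  obtain ⟨g, hg⟩ := P213.exists_hom (K := G.adc) Y
    (fun m F => ∀ b, G.deg b ≤ m → F (atom (K := G.adc) b) = ξ b)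
    (fun m F F' h hF b hb => (h _ ((dim_atom (K := G.adc) b).mono hb)).symm.trans (hF b hb))
    ⟨ξ, fun b hb => hb ▸ h₁ b, fun F _ h b hb => h b (Nat.le_zero.1 hb)⟩
    fun m F _ hF => ⟨ξ, fun b hb => ⟨hb ▸ h₁ b, fun α => by
      rw [h₂ α b m hb, G.bd_atom b α hb, hF _ (G.deg_face α b m hb).le]⟩,
      fun F' _ h h' b hb => by
        rcases hb.lt_or_eq with hb | hb
        · have hb' := Nat.lt_succ_iff.1 hb
          exact (h _ ((dim_atom (K := G.adc) b).mono hb')).trans (hF b hb')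
        · exact h' b hb⟩
  exact ⟨g, fun b => hg _ b le_rfl⟩

lemma isTab_seq (G : GSet) (s : Bool → ℕ → G.B) (h₁ : ∀ ε i, G.deg (s ε i) = i)
    (h₂ : ∀ α ε i, G.face α (s ε (i + 1)) = s α i) :
    IsTab G.adc fun ε i => Finsupp.single (s ε i) 1 where
  nonneg _ _ := Finsupp.single_nonneg.2 zero_le_one
  deg ε i := gs_isDeg_single (h₁ ε i) 1
  aug _ := aug_single _ _
  d ε i := by rw [G.d_single (h₁ ε (i + 1)), h₂, h₂]

lemma iter_seq (G : GSet) (s : Bool → ℕ → G.B)
    (h₂ : ∀ α ε i, G.face α (s ε (i + 1)) = s α i) (α : Bool) (i : ℕ) :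
    ∀ j ε, (G.face α)^[j + 1] (s ε (i + j + 1)) = s α i
  | 0, ε => h₂ α ε i
  | j + 1, ε => by
    rw [Function.iterate_succ_apply, h₂]
    exact iter_seq G s h₂ α i j α

lemma atom_seq (G : GSet) (s : Bool → ℕ → G.B) (h₁ : ∀ ε i, G.deg (s ε i) = i)
    (h₂ : ∀ α ε i, G.face α (s ε (i + 1)) = s α i) (ε : Bool) (k : ℕ) :
    (atom (K := G.adc) (s ε k)).val = rbd ε k fun ε i => Finsupp.single (s ε i) 1 := by
  funext α i
  rw [atom_val, rbd, low, h₁]
  by_cases h1 : i < k
  · obtain ⟨j, rfl⟩ := Nat.exists_eq_add_of_lt h1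
    rw [if_pos h1, if_pos h1.le, show i + j + 1 - i = j + 1 by omega, G.iter_seq s h₂]
  · rw [if_neg h1]
    by_cases h2 : i = k
    · rw [if_pos h2, if_pos h2.le, h2, Nat.sub_self]
      rfl
    · rw [if_neg h2, if_neg (by omega)]

lemma hom_d (G : GSet) {K : BADC} (g : G.B → (K.B →₀ ℤ))
    (h₁ : ∀ b, IsDeg K.deg (G.deg b) (g b))
    (h₂ : ∀ b k, G.deg b = k + 1 → K.d (g b) = g (G.face true b) - g (G.face false b)) (b : G.B) :
    K.d (g b) = lin g (G.adc.d (Finsupp.single b 1)) := by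
  rcases h : G.deg b with _ | k
  · rw [G.d_single_zero h, map_zero]
    exact IsDeg.d_zero (h ▸ h₁ b)
  · rw [G.d_single h, map_sub, lin_single, lin_single, one_smul, one_smul, h₂ b k h]

end GSet

/-- Tables of possibly infinite dimension. -/
@[ext]
structure Tab (K : BADC) : Type where
  val : Raw K.B
  tab : IsTab K val

variable {K L : BADC}

noncomputable def Tab.bd (α : Bool) (n : ℕ) (x : Tab K) : Tab K := ⟨rbd α n x.val, x.tab.rbd α n⟩

open Classical in
noncomputable def Tab.comp (n : ℕ) (x y : Tab K) : Tab K :=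
  if h : rbd true n x.val = rbd false n y.val then ⟨rcomp n x.val y.val, x.tab.rcomp y.tab n h⟩
  else x

lemma Tab.comp_val (n : ℕ) (x y : Tab K) (h : rbd true n x.val = rbd false n y.val) :
    (Tab.comp n x y).val = rcomp n x.val y.val := by
  rw [Tab.comp, dif_pos h]

@[reducible]
noncomputable def tabO (K : BADC) : PreOmega :=
  (rawOmega K.B).induced (Tab K) Tab.val (fun _ _ h => Tab.ext h) Tab.bd Tab.comp
    (fun _ _ _ => rfl) Tab.comp_val

noncomputable def Tab.map (f : K ⟶ L) (x : Tab K) : Tab L := ⟨rmap f x.val, x.tab.rmap f⟩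

def Cell.toTab (x : Cell K) : Tab K := ⟨x.val, x.tab⟩

/-- The finite dimensional boundary of a table, as a cell. -/
noncomputable def Tab.cell (α : Bool) (n : ℕ) (x : Tab K) : Cell K :=
  ⟨rbd α n x.val, x.tab.rbd α n, n, rbd_rbd_le _ _ _ _ _ le_rfl⟩

lemma Tab.map_bd (f : K ⟶ L) (α : Bool) (n : ℕ) (x : Tab K) :
    Tab.map f ((tabO K).bd α n x) = (tabO L).bd α n (Tab.map f x) :=
  Tab.ext (rmap_rbd f α n x.val)

lemma Tab.map_comp (f : K ⟶ L) (n : ℕ) (x y : Tab K) (h : (tabO K).Cp n x y) :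
    Tab.map f ((tabO K).comp n x y) = (tabO L).comp n (Tab.map f x) (Tab.map f y) := by
  have h₂ : rbd true n x.val = rbd false n y.val := congrArg Tab.val h
  have h₃ : rbd true n (Tab.map f x).val = rbd false n (Tab.map f y).val := by
    change rbd true n (rmap f x.val) = rbd false n (rmap f y.val)
    rw [← rmap_rbd, ← rmap_rbd, h₂]
  apply Tab.ext
  change rmap f (Tab.comp n x y).val = (Tab.comp n (Tab.map f x) (Tab.map f y)).val
  rw [Tab.comp_val _ _ _ h₂, Tab.comp_val _ _ _ h₃, rmap_rcomp]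
  rfl

/-- The infinite globe. -/
@[reducible]
def globe : GSet where
  B := ℕ × Bool
  deg p := p.1
  face ε p := (p.1 - 1, ε)
  deg_face _ _ _ h := by simp only at h ⊢; omega
  face_face _ _ _ _ := rfl
  lt p q := (p.2 = false ∧ q.2 = false ∧ p.1 < q.1) ∨ (p.2 = false ∧ q.2 = true) ∨
    (p.2 = true ∧ q.2 = true ∧ q.1 < p.1)
  irrefl := by rintro ⟨a, _ | _⟩ <;> simp
  trans := by rintro ⟨a, _ | _⟩ ⟨b, _ | _⟩ ⟨c, _ | _⟩ <;> simp <;> omega
  lt_false := by rintro ⟨a, _ | _⟩ k h <;> simp at h ⊢ <;> omega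
  lt_true := by rintro ⟨a, _ | _⟩ k h <;> simp at h ⊢ <;> omega

instance good_globe : Good globe.adc := GSet.good globe

/-- The universal table. -/
noncomputable def utab : Tab globe.adc := ⟨fun ε i => Finsupp.single (i, ε) 1,
  globe.isTab_seq (fun ε i => (i, ε)) (fun _ _ => rfl) fun _ _ _ => rfl⟩

/-- The morphism classifying a table. -/
noncomputable def tabHom (x : Tab K) : globe.adc ⟶ K :=
  BADC.homMk (fun p => x.val p.2 p.1) (fun p => x.tab.nonneg p.2 p.1) (fun p => x.tab.deg p.2 p.1)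
    (globe.hom_d _ (fun p => x.tab.deg p.2 p.1) (by
      rintro ⟨i, ε⟩ k rfl
      exact x.tab.d ε k))
    (by
      rintro ⟨i, ε⟩ rfl
      exact x.tab.aug ε)

lemma gs_tabHom_single (x : Tab K) (k : ℕ) (ε : Bool) :
    (tabHom x).f (Finsupp.single (k, ε) 1) = x.val ε k := BADC.homMk_single _ _ _ _ _ _

lemma map_tabHom_utab (x : Tab K) : Tab.map (tabHom x) utab = x := by
  exact Tab.ext (funext fun ε => funext fun k => gs_tabHom_single x k ε)

lemma tabHom_comp (x : Tab K) (f : K ⟶ L) : tabHom x ≫ f = tabHom (Tab.map f x) := by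
  refine BADC.hom_ext fun ⟨k, ε⟩ => ?_
  rw [BADC.comp_f, gs_tabHom_single, gs_tabHom_single]
  rfl

lemma tabHom_utab : tabHom utab = 𝟙 _ := by
  exact BADC.hom_ext fun ⟨k, ε⟩ => gs_tabHom_single utab k ε

lemma atom_globe (k : ℕ) (ε : Bool) : atom (K := globe.adc) (k, ε) = Tab.cell ε k utab := by
  exact Cell.ext (globe.atom_seq (fun ε i => (i, ε)) (fun _ _ => rfl) (fun _ _ _ => rfl) ε k)

lemma map_tabHom_atom (x : Tab K) (k : ℕ) (ε : Bool) :
    Cell.map (tabHom x) (atom (K := globe.adc) (k, ε)) = Tab.cell ε k x := by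
  rw [atom_globe]
  exact Cell.ext ((rmap_rbd _ ε k utab.val).trans
    (congrArg (fun y : Tab K => rbd ε k y.val) (map_tabHom_utab x)))

/-- The address of the `ε`-face of dimension `k` of the column `c`. -/
def cut (c : ℕ → ℕ) (k : ℕ) (ε : Bool) : ℕ → ℕ :=
  fun l => if l < k then c l else if l = k then c k + ε.toNat else 0

lemma cut_eq_iff (c c' : ℕ → ℕ) (k : ℕ) (ε ε' : Bool) :
    cut c k ε = cut c' k ε' ↔ (∀ l, l < k → c l = c' l) ∧ c k + ε.toNat = c' k + ε'.toNat := by
  refine ⟨fun h => ⟨fun l hl => ?_, ?_⟩, fun h => funext fun l => ?_⟩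
  · simpa [cut, hl] using congrFun h l
  · simpa [cut] using congrFun h k
  · unfold cut
    split_ifs with h1
    exacts [h.1 l h1, h.2, rfl]

lemma gs_cut_cut (c : ℕ → ℕ) {k k' : ℕ} (h : k < k') (ε ε' : Bool) :
    cut (cut c k' ε') k ε = cut c k ε :=
  (cut_eq_iff _ _ _ _ _).2 ⟨fun l hl => if_pos (hl.trans h), by rw [cut, if_pos h]⟩

lemma gs_lex_trans {f g h : ℕ → ℕ} (h₁ : ∃ l, (∀ l', l' < l → f l' = g l') ∧ f l < g l)
    (h₂ : ∃ l, (∀ l', l' < l → g l' = h l') ∧ g l < h l) :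
    ∃ l, (∀ l', l' < l → f l' = h l') ∧ f l < h l := by
  obtain ⟨l, a, a'⟩ := h₁
  obtain ⟨m, b, b'⟩ := h₂
  rcases lt_trichotomy l m with e | rfl | e
  · exact ⟨l, fun i hi => (a i hi).trans (b i (hi.trans e)), a'.trans_eq (b l e)⟩
  · exact ⟨l, fun i hi => (a i hi).trans (b i hi), a'.trans b'⟩
  · exact ⟨m, fun i hi => (a i (hi.trans e)).trans (b i hi), (a m e).trans_lt b'⟩

/-- The union of the columns with addresses in `Λ`. -/
@[reducible]
def grid (Λ : Set (ℕ → ℕ)) : GSet where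
  B := {p : ℕ × (ℕ → ℕ) // ∃ c ∈ Λ, ∃ ε, p.2 = cut c p.1 ε}
  deg p := p.1.1
  face ε p := if h : p.1.1 = 0 then p else ⟨(p.1.1 - 1, cut p.1.2 (p.1.1 - 1) ε), by
    obtain ⟨c, hc, ε', e⟩ := p.2
    exact ⟨c, hc, ε, by rw [e]; exact gs_cut_cut c (by omega) ε ε'⟩⟩
  deg_face := by
    rintro ε ⟨⟨i, a⟩, hp⟩ k rfl
    rfl
  face_face := by
    rintro ε ⟨⟨i, a⟩, hp⟩ k rfl
    exact Subtype.ext (Prod.ext rfl ((gs_cut_cut a k.lt_succ_self ε false).trans
      (gs_cut_cut a k.lt_succ_self ε true).symm))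
  lt p q := ∃ l, (∀ l', l' < l → (if l' ≤ p.1.1 then p.1.2 l' + 1 else 0) =
      (if l' ≤ q.1.1 then q.1.2 l' + 1 else 0)) ∧
    (if l ≤ p.1.1 then p.1.2 l + 1 else 0) < (if l ≤ q.1.1 then q.1.2 l + 1 else 0)
  irrefl _ := fun ⟨_, _, h⟩ => lt_irrefl _ h
  trans _ _ _ := gs_lex_trans
  lt_false := by
    rintro ⟨⟨i, a⟩, hp⟩ k rfl
    refine ⟨k + 1, fun l hl => ?_, ?_⟩
    · change (if l ≤ k then cut a k false l + 1 else 0) = if l ≤ k + 1 then a l + 1 else 0
      rw [if_pos (by omega), if_pos hl.le, cut]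
      split_ifs with h1 h2
      · rfl
      · rw [h2]
        rfl
      · omega
    · change (if k + 1 ≤ k then _ else 0) < if k + 1 ≤ k + 1 then a (k + 1) + 1 else 0
      rw [if_neg (by omega), if_pos le_rfl]
      omega
  lt_true := by
    rintro ⟨⟨i, a⟩, hp⟩ k rfl
    refine ⟨k, fun l hl => ?_, ?_⟩
    · change (if l ≤ k + 1 then a l + 1 else 0) = if l ≤ k then cut a k true l + 1 else 0
      rw [if_pos (by omega), if_pos hl.le, cut, if_pos hl]
    · change (if k ≤ k + 1 then a k + 1 else 0) < if k ≤ k then cut a k true k + 1 else 0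
      rw [if_pos (by omega), if_pos le_rfl, cut, if_neg (lt_irrefl k), if_pos rfl]
      exact Nat.lt_succ_self _

instance good_grid (Λ : Set (ℕ → ℕ)) : Good (grid Λ).adc := GSet.good _

/-- A basis element of the grid. -/
def gridB {Λ : Set (ℕ → ℕ)} (c : Λ) (k : ℕ) (ε : Bool) : (grid Λ).B :=
  ⟨(k, cut c.1 k ε), c.1, c.2, ε, rfl⟩

lemma gridB_surj {Λ : Set (ℕ → ℕ)} (b : (grid Λ).B) : ∃ c k ε, b = gridB c k ε := by
  obtain ⟨⟨k, a⟩, c, hc, ε, e⟩ := b
  exact ⟨⟨c, hc⟩, k, ε, Subtype.ext (Prod.ext rfl e)⟩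

lemma gridB_eq_iff {Λ : Set (ℕ → ℕ)} (c c' : Λ) (k k' : ℕ) (ε ε' : Bool) :
    gridB c k ε = gridB c' k' ε' ↔ k = k' ∧ cut c.1 k ε = cut c'.1 k ε' := by
  constructor
  · intro h
    obtain ⟨h1, h2⟩ := Prod.ext_iff.1 (congrArg Subtype.val h)
    obtain rfl : k = k' := h1
    exact ⟨rfl, h2⟩
  · rintro ⟨rfl, h⟩
    exact Subtype.ext (Prod.ext rfl h)

lemma face_gridB {Λ : Set (ℕ → ℕ)} (c : Λ) (k : ℕ) (ε α : Bool) :
    (grid Λ).face α (gridB c (k + 1) ε) = gridB c k α := by
  exact Subtype.ext (Prod.ext rfl (gs_cut_cut c.1 k.lt_succ_self α ε))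

/-- A column of the grid. -/
noncomputable def col {Λ : Set (ℕ → ℕ)} (c : Λ) : Tab (grid Λ).adc :=
  ⟨fun ε k => Finsupp.single (gridB c k ε) 1, (grid Λ).isTab_seq (fun ε k => gridB c k ε)
    (fun _ _ => rfl) fun α ε k => face_gridB c k ε α⟩

lemma atom_gridB {Λ : Set (ℕ → ℕ)} (c : Λ) (k : ℕ) (ε : Bool) :
    atom (K := (grid Λ).adc) (gridB c k ε) = Tab.cell ε k (col c) := by
  exact Cell.ext ((grid Λ).atom_seq (fun ε k => gridB c k ε) (fun _ _ => rfl)
    (fun α ε k => face_gridB c k ε α) ε k)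

lemma exists_gridHom {Λ : Set (ℕ → ℕ)} (x : Λ → Tab K)
    (h : ∀ (c c' : Λ) k ε ε', cut c.1 k ε = cut c'.1 k ε' → (x c).val ε k = (x c').val ε' k) :
    ∃ φ : (grid Λ).adc ⟶ K, ∀ c, Tab.map φ (col c) = x c := by
  obtain ⟨g, hg⟩ : ∃ g : (grid Λ).B → (K.B →₀ ℤ), ∀ c k ε, g (gridB c k ε) = (x c).val ε k := by
    choose γ κ η hb using gridB_surj (Λ := Λ)
    refine ⟨fun b => (x (γ b)).val (η b) (κ b), fun c k ε => ?_⟩
    obtain ⟨h1, h2⟩ := (gridB_eq_iff _ _ _ _ _ _).1 (hb (gridB c k ε))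
    beta_reduce
    rw [← h1]
    exact (h _ _ _ _ _ h2).symm
  have h₂ : ∀ b, IsDeg K.deg ((grid Λ).deg b) (g b) := fun b => by
    obtain ⟨c, k, ε, rfl⟩ := gridB_surj b
    rw [hg]
    exact (x c).tab.deg ε k
  refine ⟨BADC.homMk g (fun b => ?_) h₂ ((grid Λ).hom_d g h₂ fun b j hj => ?_) fun b hb => ?_,
    fun c => Tab.ext (funext fun ε => funext fun k =>
      (BADC.homMk_single _ _ _ _ _ _).trans (hg c k ε))⟩
  · obtain ⟨c, k, ε, rfl⟩ := gridB_surj b
    rw [hg]
    exact (x c).tab.nonneg ε k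
  · obtain ⟨c, k, ε, rfl⟩ := gridB_surj b
    obtain rfl : k = j + 1 := hj
    rw [face_gridB, face_gridB, hg, hg, hg]
    exact (x c).tab.d ε j
  · obtain ⟨c, k, ε, rfl⟩ := gridB_surj b
    obtain rfl : k = 0 := hb
    rw [hg]
    exact (x c).tab.aug ε

/-- Columns agreeing below level `i` and adjacent at level `i` are composable. -/
lemma col_cp {Λ : Set (ℕ → ℕ)} (c c' : Λ) (i : ℕ) (h₁ : ∀ l, l < i → c.1 l = c'.1 l)
    (h₂ : c'.1 i = c.1 i + 1) : (tabO (grid Λ).adc).Cp i (col c) (col c') := by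
  refine Tab.ext (funext fun ε => funext fun k => ?_)
  change rbd true i (col c).val ε k = rbd false i (col c').val ε k
  unfold rbd
  split_ifs with h1
  · exact congrArg (Finsupp.single · 1) ((gridB_eq_iff _ _ _ _ _ _).2 ⟨rfl,
      (cut_eq_iff _ _ _ _ _).2 ⟨fun l hl => h₁ l (hl.trans h1), by rw [h₁ k h1]⟩⟩)
  · exact congrArg (Finsupp.single · 1) ((gridB_eq_iff _ _ _ _ _ _).2 ⟨rfl,
      (cut_eq_iff _ _ _ _ _).2 ⟨h₁, h₂.symm⟩⟩)
  · rfl

end Vale.Agent.P213
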