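import Vale.Agent.P213.GSet
import Vale.Agent.P213.Cyl

/-! P213: cylinders in an omega-category, part 1: gluing along grids and composition. -/

open CategoryTheory

namespace Vale.Agent.P213

variable {K L : BADC} {Y Z : OmegaCat}

instance good_cyl_globe : Good (cyl globe.adc) := instGoodCyl

instance good_cyl_grid (Λ : Set (ℕ → ℕ)) : Good (cyl (grid Λ).adc) := instGoodCyl

/-- Cylinders of possibly infinite dimension. -/
abbrev GHom (Y : OmegaCat) : Type := nuObj (cyl globe.adc) ⟶ Y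

noncomputable def ev (G : nuObj (cyl K) ⟶ Y) (x : Tab K) : GHom Y :=
  nuMap (cylMap (tabHom x)) ≫ G

lemma ev_utab (γ : GHom Y) : ev γ utab = γ := by
  rw [ev, tabHom_utab, cylMap_id]
  rfl

lemma ev_map (φ : K ⟶ L) (G : nuObj (cyl L) ⟶ Y) (x : Tab K) :
    ev (nuMap (cylMap φ) ≫ G) x = ev G (Tab.map φ x) := by
  rw [ev, ev, ← tabHom_comp, cylMap_comp]
  rfl

lemma ev_comp_right (G : nuObj (cyl K) ⟶ Y) (f : Y ⟶ Z) (x : Tab K) :
    ev (G ≫ f) x = ev G x ≫ f := rfl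

lemma ev_atom (G : nuObj (cyl K) ⟶ Y) (x : Tab K) (o : Option Bool) (k : ℕ) (ε : Bool) :
    (ev G x).toFun (atom (K := cyl globe.adc) (o, (k, ε))) =
      G.toFun (cylC o (Tab.cell ε k x)) := by
  change G.toFun (Cell.map (cylMap (tabHom x)) (atom (K := cyl globe.adc) (o, (k, ε)))) = _
  rw [atom_cyl (K := globe.adc), map_cylC, map_tabHom_atom]

noncomputable def gbd (α : Bool) (k : ℕ) (γ : GHom Y) : GHom Y :=
  ev γ ((tabO globe.adc).bd α k utab)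

lemma gbd_ev (α : Bool) (k : ℕ) (G : nuObj (cyl K) ⟶ Y) (x : Tab K) :
    gbd α k (ev G x) = ev G ((tabO K).bd α k x) := by
  rw [gbd, ev.eq_1 G x, ev_map, Tab.map_bd, map_tabHom_utab]

lemma g1_atom_inj [Good K] {b b' : K.B} (hd : K.deg b = K.deg b') (h : atom b = atom b') :
    b = b' := by
  have h₁ := (isAtom_atom b).top false
  rw [h, hd, (isAtom_atom b').top false] at h₁
  exact (Finsupp.single_left_injective one_ne_zero h₁).symm

lemma g1_map_atom {Λ : Set (ℕ → ℕ)} (c : Λ) (o : Option Bool) (k : ℕ) (ε : Bool) :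
    Cell.map (cylMap (tabHom (col c))) (atom (K := cyl globe.adc) (o, (k, ε))) =
      atom (K := cyl (grid Λ).adc) (o, gridB c k ε) := by
  rw [atom_cyl (K := globe.adc), map_cylC, map_tabHom_atom, atom_cyl (K := (grid Λ).adc), atom_gridB]

lemma g1_gbd_atom (γ : GHom Y) (o : Option Bool) (k : ℕ) (ε : Bool) :
    (gbd ε k γ).toFun (atom (K := cyl globe.adc) (o, (k, false))) =
      γ.toFun (atom (K := cyl globe.adc) (o, (k, ε))) := by
  rw [gbd, ev_atom, atom_cyl (K := globe.adc), atom_globe]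
  exact congrArg (fun z => γ.toFun (cylC o z)) (Cell.ext (rbd_rbd_le _ _ _ _ _ le_rfl))

theorem gridGlue {Λ : Set (ℕ → ℕ)} (γ : Λ → GHom Y)
    (h : ∀ (c c' : Λ) k ε ε', cut c.1 k ε = cut c'.1 k ε' → gbd ε k (γ c) = gbd ε' k (γ c')) :
    ∃ G : nuObj (cyl (grid Λ).adc) ⟶ Y, ∀ c, ev G (col c) = γ c := by
  refine glue (K := cyl (grid Λ).adc) (fun _ : Λ => cyl globe.adc)
    (fun c => cylMap (tabHom (col c))) Y γ ?_ ?_ ?_
  · rintro ⟨o, b⟩
    obtain ⟨c, k, ε, rfl⟩ := gridB_surj b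
    exact ⟨c, (o, (k, ε)), rfl, g1_map_atom c o k ε⟩
  · rintro c ⟨o, k, ε⟩
    exact Or.inl ⟨(o, gridB c k ε), rfl, g1_map_atom c o k ε⟩
  · rintro c ⟨o, k, ε⟩ c' ⟨o', k', ε'⟩ b h₁ h₂ e₁ e₂
    rw [g1_map_atom] at e₁ e₂
    obtain ⟨rfl, e⟩ := Prod.mk.inj ((g1_atom_inj h₁ e₁).trans (g1_atom_inj h₂ e₂).symm)
    obtain ⟨rfl, e'⟩ := (gridB_eq_iff _ _ _ _ _ _).1 e
    rw [← g1_gbd_atom, ← g1_gbd_atom (γ c'), h c c' k ε ε' e']

theorem gridGlue_unique {Λ : Set (ℕ → ℕ)} (G G' : nuObj (cyl (grid Λ).adc) ⟶ Y)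
    (h : ∀ c, ev G (col c) = ev G' (col c)) : G = G' := by
  refine hom_ext_atoms fun ⟨o, b⟩ => ?_
  obtain ⟨c, k, ε, rfl⟩ := gridB_surj b
  rw [← g1_map_atom]
  exact congrArg (fun g : GHom Y => g.toFun (atom (K := cyl globe.adc) (o, (k, ε)))) (h c)

lemma gbd_gbd_le (α β : Bool) (m n : ℕ) (γ : GHom Y) (h : m ≤ n) :
    gbd β n (gbd α m γ) = gbd α m γ := by
  rw [gbd.eq_1 α, gbd_ev, (tabO globe.adc).bd_bd_le _ _ _ _ _ h]

lemma gbd_gbd_lt (α β : Bool) (m n : ℕ) (γ : GHom Y) (h : m < n) :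
    gbd β m (gbd α n γ) = gbd β m γ := by
  rw [gbd.eq_1 α, gbd_ev, (tabO globe.adc).bd_bd_lt _ _ _ _ _ h, gbd]

/-- Two adjacent columns at level `i`. -/
def lam2 (i : ℕ) : Set (ℕ → ℕ) := {0, Pi.single i 1}

def lam2a (i : ℕ) : lam2 i := ⟨0, Or.inl rfl⟩

def lam2b (i : ℕ) : lam2 i := ⟨Pi.single i 1, Or.inr rfl⟩

lemma lam2_cp (i : ℕ) : (tabO (grid (lam2 i)).adc).Cp i (col (lam2a i)) (col (lam2b i)) := by
  refine col_cp _ _ i (fun l hl => ?_) ?_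
  · exact (Pi.single_eq_of_ne (M := fun _ => ℕ) hl.ne 1).symm
  · exact Pi.single_eq_same (M := fun _ => ℕ) i 1

lemma g1_lam2 {T : Type} (i : ℕ) (P : Bool → ℕ → T → T → Bool → Prop) (a b : T)
    (h₀ : ∀ ε k t, P ε k t t ε) (h₁ : ∀ ε k, k < i → P ε k a b ε ∧ P ε k b a ε)
    (h₂ : P true i a b false ∧ P false i b a true) :
    ∃ x : lam2 i → T, x (lam2a i) = a ∧ x (lam2b i) = b ∧
      ∀ (c c' : lam2 i) k ε ε', cut c.1 k ε = cut c'.1 k ε' → P ε k (x c) (x c') ε' := by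
  have key : ∀ k ε ε', cut 0 k ε = cut (Pi.single i 1) k ε' →
      (k < i ∧ ε = ε') ∨ (k = i ∧ ε = true ∧ ε' = false) := fun k ε ε' e => by
    obtain ⟨e₁, e₂⟩ := (cut_eq_iff _ _ _ _ _).1 e
    rcases lt_trichotomy k i with hk | rfl | hk
    · refine Or.inl ⟨hk, ?_⟩
      cases ε <;> cases ε' <;> simp_all [hk.ne]
    · refine Or.inr ⟨rfl, ?_⟩
      cases ε <;> cases ε' <;> simp_all
    · simpa using e₁ i hk
  have same : ∀ (c : ℕ → ℕ) k ε ε', cut c k ε = cut c k ε' → ε = ε' := fun c k ε ε' e => by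
    have e₂ := ((cut_eq_iff _ _ _ _ _).1 e).2
    cases ε <;> cases ε' <;> simp_all
  refine ⟨fun c => if c.1 i = 0 then a else b, if_pos rfl, if_neg (by simp [lam2b]), ?_⟩
  rintro ⟨_, rfl | rfl⟩ ⟨_, rfl | rfl⟩ k ε ε' e <;>
    simp only [Pi.zero_apply, Pi.single_eq_same, if_true, one_ne_zero, if_false]
  · exact same _ _ _ _ e ▸ h₀ _ _ _
  · rcases key _ _ _ e with ⟨hk, rfl⟩ | ⟨rfl, rfl, rfl⟩
    exacts [(h₁ _ _ hk).1, h₂.1]
  · rcases key _ _ _ e.symm with ⟨hk, rfl⟩ | ⟨rfl, rfl, rfl⟩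
    exacts [(h₁ _ _ hk).2, h₂.2]
  · exact same _ _ _ _ e ▸ h₀ _ _ _

lemma exists_glue2 (i : ℕ) (γ γ' : GHom Y) (h : gbd true i γ = gbd false i γ') :
    ∃ G : nuObj (cyl (grid (lam2 i)).adc) ⟶ Y,
      ev G (col (lam2a i)) = γ ∧ ev G (col (lam2b i)) = γ' := by
  have h' : ∀ ε k, k < i → gbd ε k γ = gbd ε k γ' := fun ε k hk => by
    rw [← gbd_gbd_lt true ε k i γ hk, h, gbd_gbd_lt _ _ _ _ _ hk]
  obtain ⟨x, h₁, h₂, h₃⟩ := g1_lam2 i (fun ε k s t ε' => gbd ε k s = gbd ε' k t) γ γ'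
    (fun _ _ _ => rfl) (fun ε k hk => ⟨h' ε k hk, (h' ε k hk).symm⟩) ⟨h, h.symm⟩
  obtain ⟨G, hG⟩ := gridGlue x h₃
  exact ⟨G, (hG _).trans h₁, (hG _).trans h₂⟩

open Classical in
noncomputable def gcomp (i : ℕ) (γ γ' : GHom Y) : GHom Y :=
  if h : gbd true i γ = gbd false i γ' then
    ev (exists_glue2 i γ γ' h).choose
      ((tabO (grid (lam2 i)).adc).comp i (col (lam2a i)) (col (lam2b i)))
  else γ

theorem ev_comp (G : nuObj (cyl K) ⟶ Y) (i : ℕ) (x y : Tab K) (h : (tabO K).Cp i x y) :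
    ev G ((tabO K).comp i x y) = gcomp i (ev G x) (ev G y) := by
  have h₀ : gbd true i (ev G x) = gbd false i (ev G y) := by
    rw [gbd_ev, gbd_ev]
    exact congrArg (ev G) h
  have h' : ∀ ε k, rbd true i x.val ε k = rbd false i y.val ε k := fun ε k =>
    congrFun (congrFun (congrArg Tab.val h) ε) k
  have h₁ : ∀ ε k, k < i → x.val ε k = y.val ε k := fun ε k hk => by
    simpa only [rbd, if_pos hk] using h' ε k
  have h₂ : x.val true i = y.val false i := by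
    simpa only [rbd, lt_irrefl, if_false, if_true] using h' true i
  obtain ⟨z, e₁, e₂, e₃⟩ := g1_lam2 i (fun ε k (s t : Tab K) ε' => s.val ε k = t.val ε' k) x y
    (fun _ _ _ => rfl) (fun ε k hk => ⟨h₁ ε k hk, (h₁ ε k hk).symm⟩) ⟨h₂, h₂.symm⟩
  obtain ⟨φ, hφ⟩ := exists_gridHom z e₃
  have hs := (exists_glue2 i _ _ h₀).choose_spec
  rw [gcomp, dif_pos h₀, gridGlue_unique (exists_glue2 i _ _ h₀).choose (nuMap (cylMap φ) ≫ G),
    ev_map, Tab.map_comp _ _ _ _ (lam2_cp i), hφ, hφ, e₁, e₂]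
  rintro ⟨_, rfl | rfl⟩ <;> rw [ev_map, hφ]
  · exact hs.1.trans (congrArg (ev G) e₁.symm)
  · exact hs.2.trans (congrArg (ev G) e₂.symm)

end Vale.Agent.P213
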