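import Vale.Agent.P213.Gamma1

/-!
P213: cylinders in an omega-category, part 2: the omega-category `Gamma Y` and its structure maps.

Plan.
* Each law: write the cylinders involved as `ev G (col c)` for one gluing `G` (`exists_glue2`,
  or `gridGlue` on `{0, e_n, 2 e_n}` for associativity and on `{0, e_n, e_m, e_m + e_n}` for
  the exchange law; `ev_utab` for the unit laws), then use `gbd_ev`, `ev_comp`, `col_cp` and the
  law in `tabO`.
* `proj ε γ = γ (ε ⊗ (k, false))` for any `k` bounding the dimension of `γ`; in general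
  `proj ε (ev G x) = G (map (cylι ε) (cell false k x))` (`ev_atom`).
* `refl y = nuMap cylπ ≫ (classifying functor of y)` (`GSet.exists_hom` for `globe`); for the
  composite use `GSet.exists_hom` for `grid (lam2 i)` and `ev_comp`.
* `isNCat_Gamma`: for finite `n`, `gbd false n γ = γ`: both functors agree on atoms of degree
  `≤ n` (`FunUpTo.ext`), and every value of a functor to `Y` equals the value on the n-source.
-/

open CategoryTheory

namespace Vale.Agent.P213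

variable {K L : BADC} {X Y Z : OmegaCat}

section Compat

variable {C : Type} (bd : Bool → ℕ → C → C)
  (hlt : ∀ α β m n x, m < n → bd β m (bd α n x) = bd β m x)

include hlt

lemma bd_eq_of_cp {n k : ℕ} {x y : C} (h : bd true n x = bd false n y) (hk : k < n) (β : Bool) :
    bd β k x = bd β k y := by
  rw [← hlt true β k n x hk, h, hlt _ _ _ _ _ hk]

/-- All columns on the line in direction `n`. -/
def lamL (n : ℕ) : Set (ℕ → ℕ) := {c | ∀ l, l ≠ n → c l = 0}

/-- Four columns forming a square in the directions `m` and `n`. -/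
def lamQ (m n : ℕ) : Set (ℕ → ℕ) := {c | (∀ l, l ≠ m → l ≠ n → c l = 0) ∧ c m ≤ 1 ∧ c n ≤ 1}

lemma compatL {n : ℕ} (w : ℕ → C) (hw : ∀ i, bd true n (w i) = bd false n (w (i + 1)))
    (c c' : lamL n) (k : ℕ) (ε ε' : Bool) (h : cut c.1 k ε = cut c'.1 k ε') :
    bd ε k (w (c.1 n)) = bd ε' k (w (c'.1 n)) := by
  obtain ⟨hl, hk⟩ := (cut_eq_iff _ _ _ _ _).1 h
  have he : k ≠ n → ε = ε' := fun hkn => by
    rw [c.2 k hkn, c'.2 k hkn] at hk
    cases ε <;> cases ε' <;> simp_all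
  rcases lt_trichotomy k n with hkn | rfl | hkn
  · have A : ∀ i β, bd β k (w i) = bd β k (w 0) := fun i β => by
      induction i with
      | zero => rfl
      | succ i ih => rw [← bd_eq_of_cp bd hlt (hw i) hkn, ih]
    rw [he hkn.ne, A, A (c'.1 n)]
  · cases ε <;> cases ε' <;> simp only [Bool.toNat_false, Bool.toNat_true, add_zero] at hk
    · rw [hk]
    · rw [hk, hw]
    · rw [← hk, hw]
    · rw [Nat.succ_injective hk]
  · rw [he hkn.ne', hl n hkn]

lemma compatQ {m n : ℕ} (hmn : m < n) (w : ℕ → ℕ → C)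
    (h₁ : bd true n (w 0 0) = bd false n (w 0 1)) (h₂ : bd true n (w 1 0) = bd false n (w 1 1))
    (h₃ : bd true m (w 0 0) = bd false m (w 1 0))
    (c c' : lamQ m n) (k : ℕ) (ε ε' : Bool) (h : cut c.1 k ε = cut c'.1 k ε') :
    bd ε k (w (c.1 m) (c.1 n)) = bd ε' k (w (c'.1 m) (c'.1 n)) := by
  obtain ⟨hl, hk⟩ := (cut_eq_iff _ _ _ _ _).1 h
  obtain ⟨c, c0, cm, cn⟩ := c
  obtain ⟨c', c0', cm', cn'⟩ := c'
  dsimp only at hl hk ⊢
  have he : k ≠ m → k ≠ n → ε = ε' := fun hkm hkn => by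
    rw [c0 k hkm hkn, c0' k hkm hkn] at hk
    cases ε <;> cases ε' <;> simp_all
  have H : ∀ i, i ≤ 1 → bd true n (w i 0) = bd false n (w i 1) := fun i hi => by
    interval_cases i
    exacts [h₁, h₂]
  have A : ∀ i j β, i ≤ 1 → j ≤ 1 → k < n → bd β k (w i j) = bd β k (w i 0) :=
    fun i j β hi hj hkn => by
      interval_cases j
      exacts [rfl, (bd_eq_of_cp bd hlt (H i hi) hkn β).symm]
  rcases lt_trichotomy k m with hkm | rfl | hkm
  · have B : ∀ i β, i ≤ 1 → bd β k (w i 0) = bd β k (w 0 0) := fun i β hi => by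
      interval_cases i
      exacts [rfl, (bd_eq_of_cp bd hlt h₃ hkm β).symm]
    rw [he hkm.ne (hkm.trans hmn).ne, A _ _ _ cm cn (hkm.trans hmn),
      A _ _ _ cm' cn' (hkm.trans hmn), B _ _ cm, B _ _ cm']
  · rw [A _ _ _ cm cn hmn, A _ _ _ cm' cn' hmn]
    cases ε <;> cases ε' <;> simp only [Bool.toNat_false, Bool.toNat_true, add_zero] at hk
    · rw [hk]
    · rw [show c k = 1 by omega, show c' k = 0 by omega, h₃]
    · rw [show c k = 0 by omega, show c' k = 1 by omega, h₃]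
    · rw [Nat.succ_injective hk]
  · rw [← hl m hkm]
    rcases lt_trichotomy k n with hkn | rfl | hkn
    · rw [he hkm.ne' hkn.ne, A _ _ _ cm cn hkn, A _ _ _ cm cn' hkn]
    · cases ε <;> cases ε' <;> simp only [Bool.toNat_false, Bool.toNat_true, add_zero] at hk
      · rw [hk]
      · rw [show c k = 1 by omega, show c' k = 0 by omega, H _ cm]
      · rw [show c k = 0 by omega, show c' k = 1 by omega, H _ cm]
      · rw [Nat.succ_injective hk]
    · rw [he hkm.ne' hkn.ne', hl n hkn]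

end Compat

def lamLc (n i : ℕ) : lamL n := ⟨fun l => if l = n then i else 0, fun _ h => if_neg h⟩

lemma lamLc_val (n i : ℕ) : (lamLc n i).1 n = i := if_pos rfl

lemma lamLc_cp (n i : ℕ) :
    (tabO (grid (lamL n)).adc).Cp n (col (lamLc n i)) (col (lamLc n (i + 1))) :=
  col_cp _ _ _ (fun _ h => (if_neg h.ne).trans (if_neg h.ne).symm)
    (by rw [lamLc_val, lamLc_val])

def lamQc {m n : ℕ} (h : m < n) (i j : Bool) : lamQ m n :=
  ⟨fun l => if l = m then i.toNat else if l = n then j.toNat else 0,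
    fun _ h₁ h₂ => (if_neg h₁).trans (if_neg h₂), (if_pos rfl).trans_le (Bool.toNat_le _),
    ((if_neg h.ne').trans (if_pos rfl)).trans_le (Bool.toNat_le _)⟩

lemma lamQc_m {m n : ℕ} (h : m < n) (i j : Bool) : (lamQc h i j).1 m = i.toNat := if_pos rfl

lemma lamQc_n {m n : ℕ} (h : m < n) (i j : Bool) : (lamQc h i j).1 n = j.toNat :=
  (if_neg h.ne').trans (if_pos rfl)

lemma lamQc_cp_n {m n : ℕ} (h : m < n) (i : Bool) :
    (tabO (grid (lamQ m n)).adc).Cp n (col (lamQc h i false)) (col (lamQc h i true)) :=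
  col_cp _ _ _ (fun l hl => by simp only [lamQc, if_neg hl.ne])
    (by rw [lamQc_n, lamQc_n]; rfl)

lemma lamQc_cp_m {m n : ℕ} (h : m < n) (j : Bool) :
    (tabO (grid (lamQ m n)).adc).Cp m (col (lamQc h false j)) (col (lamQc h true j)) :=
  col_cp _ _ _ (fun l hl => by simp only [lamQc, if_neg hl.ne])
    (by rw [lamQc_m, lamQc_m]; rfl)

/-- The sequence `x, y, z, t z, t z, ...`. -/
def seq3 {C : Type} (x y z t : C) : ℕ → C
  | 0 => x
  | 1 => y
  | 2 => z
  | _ + 3 => t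

lemma rep2 {n : ℕ} {x y : GHom Y} (h : gbd true n x = gbd false n y) :
    ∃ (K : BADC) (G : nuObj (cyl K) ⟶ Y) (a b : Tab K),
      (tabO K).Cp n a b ∧ ev G a = x ∧ ev G b = y := by
  obtain ⟨G, h₁, h₂⟩ := exists_glue2 n x y h
  exact ⟨_, G, _, _, lam2_cp n, h₁, h₂⟩

lemma rep3 {n : ℕ} {x y z : GHom Y} (h : gbd true n x = gbd false n y)
    (h' : gbd true n y = gbd false n z) :
    ∃ (K : BADC) (G : nuObj (cyl K) ⟶ Y) (a b c : Tab K), (tabO K).Cp n a b ∧
      (tabO K).Cp n b c ∧ ev G a = x ∧ ev G b = y ∧ ev G c = z := by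
  obtain ⟨G, hG⟩ := gridGlue (Λ := lamL n) (fun c => seq3 x y z (gbd true n z) (c.1 n))
    (compatL gbd gbd_gbd_lt _ fun i => match i with
      | 0 => h
      | 1 => h'
      | 2 => (gbd_gbd_le _ _ _ _ _ le_rfl).symm
      | _ + 3 => (gbd_gbd_le _ _ _ _ _ le_rfl).trans (gbd_gbd_le _ _ _ _ _ le_rfl).symm)
  refine ⟨_, G, _, _, _, lamLc_cp n 0, lamLc_cp n 1, ?_, ?_, ?_⟩ <;> rw [hG, lamLc_val] <;> rfl

lemma rep4 {m n : ℕ} (hmn : m < n) {x y x' y' : GHom Y} (h₁ : gbd true n x = gbd false n y)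
    (h₂ : gbd true n x' = gbd false n y') (h₃ : gbd true m x = gbd false m x') :
    ∃ (K : BADC) (G : nuObj (cyl K) ⟶ Y) (a b a' b' : Tab K), (tabO K).Cp n a b ∧
      (tabO K).Cp n a' b' ∧ (tabO K).Cp m a a' ∧ (tabO K).Cp m b b' ∧
      ev G a = x ∧ ev G b = y ∧ ev G a' = x' ∧ ev G b' = y' := by
  obtain ⟨G, hG⟩ := gridGlue (Λ := lamQ m n)
    (fun c => seq3 (seq3 x y y y (c.1 n)) (seq3 x' y' y' y' (c.1 n)) x x (c.1 m))
    (compatQ gbd gbd_gbd_lt hmn
      (fun i j => seq3 (seq3 x y y y j) (seq3 x' y' y' y' j) x x i) h₁ h₂ h₃)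
  refine ⟨_, G, _, _, _, _, lamQc_cp_n hmn false, lamQc_cp_n hmn true, lamQc_cp_m hmn false,
    lamQc_cp_m hmn true, ?_, ?_, ?_, ?_⟩ <;> rw [hG, lamQc_m, lamQc_n] <;> rfl

lemma gbd_def (α : Bool) (k : ℕ) (γ : GHom Y) :
    gbd α k γ = ev γ ((tabO globe.adc).bd α k utab) := rfl

@[reducible]
noncomputable def gammaPre (Y : OmegaCat) : PreOmega where
  C := GHom Y
  bd := gbd
  comp := gcomp
  bd_bd_le := gbd_gbd_le
  bd_bd_lt := gbd_gbd_lt
  src_comp n x y h := by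
    obtain ⟨K, G, a, b, hc, rfl, rfl⟩ := rep2 h
    rw [← ev_comp G n a b hc, gbd_ev, gbd_ev, (tabO K).src_comp n a b hc]
  tgt_comp n x y h := by
    obtain ⟨K, G, a, b, hc, rfl, rfl⟩ := rep2 h
    rw [← ev_comp G n a b hc, gbd_ev, gbd_ev, (tabO K).tgt_comp n a b hc]
  bd_comp_gt α m n x y hm h := by
    obtain ⟨K, G, a, b, hc, rfl, rfl⟩ := rep2 h
    rw [← ev_comp G n a b hc, gbd_ev, gbd_ev, gbd_ev, (tabO K).bd_comp_gt α m n a b hm hc,
      ev_comp G n _ _ (hc.bd_gt hm α α)]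
  id_comp n x := by
    have h := ev_comp x n ((tabO globe.adc).bd false n utab) utab
      (PreOmega.bd_bd_self _ _ _ _)
    rw [PreOmega.id_comp, ev_utab] at h
    exact h.symm
  comp_id n x := by
    have h := ev_comp x n utab ((tabO globe.adc).bd true n utab)
      (PreOmega.bd_bd_self _ _ _ _).symm
    rw [PreOmega.comp_id, ev_utab] at h
    exact h.symm
  assoc n x y z h h' := by
    obtain ⟨K, G, a, b, c, hc, hc', rfl, rfl, rfl⟩ := rep3 h h'
    rw [← ev_comp G n a b hc, ← ev_comp G n b c hc',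
      ← ev_comp G n _ c (((tabO K).tgt_comp n a b hc).trans hc'),
      ← ev_comp G n a _ (hc.trans ((tabO K).src_comp n b c hc').symm),
      (tabO K).assoc n a b c hc hc']
  exchange m n x y x' y' hmn h₁ h₂ h₃ := by
    obtain ⟨K, G, a, b, a', b', c₁, c₂, c₃, c₄, rfl, rfl, rfl, rfl⟩ := rep4 hmn h₁ h₂ h₃
    have c₅ : (tabO K).Cp m ((tabO K).comp n a b) ((tabO K).comp n a' b') :=
      (c₁.bd_comp_lt hmn true).trans (c₃.trans (c₂.bd_comp_lt hmn false).symm)
    have c₆ : (tabO K).Cp n ((tabO K).comp m a a') ((tabO K).comp m b b') := by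
      unfold PreOmega.Cp
      rw [(tabO K).bd_comp_gt _ _ _ _ _ hmn c₃, (tabO K).bd_comp_gt _ _ _ _ _ hmn c₄, c₁, c₂]
    rw [← ev_comp G n a b c₁, ← ev_comp G n a' b' c₂, ← ev_comp G m a a' c₃,
      ← ev_comp G m b b' c₄, ← ev_comp G m _ _ c₅, ← ev_comp G n _ _ c₆,
      (tabO K).exchange m n a b a' b' hmn c₁ c₂ c₃]

/-- The omega-category of cylinders. -/
@[reducible]
noncomputable def Gamma (Y : OmegaCat) : OmegaCat := (gammaPre Y).finPart

lemma gamma_comp_val {n : ℕ} (γ γ' : (Gamma Y).C) (h : gbd true n γ.1 = gbd false n γ'.1) :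
    ((Gamma Y).comp n γ γ').1 = gcomp n γ.1 γ'.1 :=
  PreOmega.subComp_val (X := gammaPre Y) _
    (fun n x y h hx hy => (gammaPre Y).fin_comp n x y h hx hy) n γ γ' h

lemma gamma_comp_mk {n : ℕ} {γ γ' : GHom Y} (hγ : ∃ k, (gammaPre Y).Dim k γ)
    (hγ' : ∃ k, (gammaPre Y).Dim k γ') (h : gbd true n γ = gbd false n γ') :
    ((Gamma Y).comp n ⟨γ, hγ⟩ ⟨γ', hγ'⟩).1 = gcomp n γ γ' :=
  gamma_comp_val ⟨γ, hγ⟩ ⟨γ', hγ'⟩ h

lemma toTab_cp {n : ℕ} {x y : Cell K} (h : (nuObj K).Cp n x y) :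
    (tabO K).Cp n x.toTab y.toTab := Tab.ext ((cp_iff n x y).1 h)

lemma toTab_comp {n : ℕ} {x y : Cell K} (h : (nuObj K).Cp n x y) :
    Cell.toTab ((nuObj K).comp n x y) = (tabO K).comp n x.toTab y.toTab :=
  Tab.ext ((nu_comp_val n x y h).trans
    (Tab.comp_val n x.toTab y.toTab ((cp_iff n x y).1 h)).symm)

lemma gbd_ev_toTab (G : nuObj (cyl K) ⟶ Y) {k : ℕ} {x : Cell K} (h : (nuObj K).Dim k x) :
    gbd false k (ev G x.toTab) = ev G x.toTab := by
  rw [gbd_ev]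
  exact congrArg (ev G) (Tab.ext ((dim_iff_rDim k x).1 h))

/-- The transpose of a functor out of a cylinder. -/
noncomputable def evHom (G : nuObj (cyl K) ⟶ Y) : nuObj K ⟶ Gamma Y where
  toFun x := ⟨ev G x.toTab, ((nuObj K).fin x).imp fun _ h => gbd_ev_toTab G h⟩
  map_bd α n x := Subtype.ext (gbd_ev α n G (Cell.toTab x)).symm
  map_comp n x y h := Subtype.ext (((congrArg (ev G) (toTab_comp h)).trans
    (ev_comp G n _ _ (toTab_cp h))).trans (gamma_comp_mk _ _ (by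
      rw [gbd_ev, gbd_ev, toTab_cp h])).symm)

lemma evHom_val (G : nuObj (cyl K) ⟶ Y) (x : Cell K) :
    ((evHom G).toFun x).1 = ev G x.toTab := rfl

lemma gbd_comp_right (α : Bool) (k : ℕ) (γ : GHom Y) (f : Y ⟶ Z) :
    gbd α k (γ ≫ f) = gbd α k γ ≫ f := rfl

noncomputable def gammaMap (f : Y ⟶ Z) : Gamma Y ⟶ Gamma Z where
  toFun γ := ⟨γ.1 ≫ f, γ.2.imp fun k h => (gbd_comp_right false k γ.1 f).trans
    (congrArg (fun t : GHom Y => t ≫ f) h)⟩
  map_bd _ _ _ := rfl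
  map_comp n γ γ' h := Subtype.ext (by
    have h' : gbd true n γ.1 = gbd false n γ'.1 := congrArg Subtype.val h
    refine Eq.trans ?_ (gamma_comp_mk _ _ (by rw [gbd_comp_right, gbd_comp_right, h'])).symm
    change ((Gamma Y).comp n γ γ').1 ≫ f = _
    rw [gamma_comp_val _ _ h']
    obtain ⟨K, G, a, b, hc, ha, hb⟩ := rep2 h'
    rw [← ha, ← hb, ← ev_comp G n a b hc, ← ev_comp_right, ← ev_comp_right, ← ev_comp_right,
      ev_comp _ n a b hc])

lemma ev_atom_some (G : nuObj (cyl K) ⟶ Y) (x : Tab K) (δ : Bool) (k : ℕ) (ε : Bool) :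
    (ev G x).toFun (atom (K := cyl globe.adc) (some δ, (k, ε))) =
      (nuMap (cylι K δ) ≫ G).toFun (Tab.cell ε k x) := ev_atom G x _ k ε

lemma atom_some_of_le (ε : Bool) {γ : GHom Y} {k k' : ℕ} (h : gbd false k γ = γ) (hk : k ≤ k') :
    γ.toFun (atom (K := cyl globe.adc) (some ε, (k', false))) =
      γ.toFun (atom (K := cyl globe.adc) (some ε, (k, false))) := by
  rw [← h, gbd_def, ev_atom_some, ev_atom_some]
  exact congrArg _ (Cell.ext ((rbd_rbd_le _ _ _ _ _ hk).trans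
    (rbd_rbd_le _ _ _ _ _ le_rfl).symm))

lemma proj_aux (ε : Bool) (γ : (Gamma Y).C) {k : ℕ} (h : gbd false k γ.1 = γ.1) :
    γ.1.toFun (atom (K := cyl globe.adc) (some ε, (γ.2.choose, false))) =
      γ.1.toFun (atom (K := cyl globe.adc) (some ε, (k, false))) :=
  (atom_some_of_le ε γ.2.choose_spec (le_max_left _ k)).symm.trans
    (atom_some_of_le ε h (le_max_right _ k))

lemma cell_cp {n k : ℕ} {a b : Tab K} (h : (tabO K).Cp n a b) (hk : n < k) (α : Bool) :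
    (nuObj K).Cp n (Tab.cell α k a) (Tab.cell α k b) :=
  Cell.ext (congrArg Tab.val (h.bd_gt hk α α))

lemma cell_comp {n k : ℕ} {a b : Tab K} (h : (tabO K).Cp n a b) (hk : n < k) (α : Bool) :
    Tab.cell α k ((tabO K).comp n a b) = (nuObj K).comp n (Tab.cell α k a) (Tab.cell α k b) :=
  Cell.ext ((congrArg Tab.val (((tabO K).bd_comp_gt α k n a b hk h).trans
    (toTab_comp (cell_cp h hk α)).symm)))

noncomputable def proj (Y : OmegaCat) (ε : Bool) : Gamma Y ⟶ Y where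
  toFun γ := γ.1.toFun (atom (K := cyl globe.adc) (some ε, (γ.2.choose, false)))
  map_bd α n γ := by
    obtain ⟨k, hk⟩ := (Gamma Y).exists_dim γ
    have h₁ := hk.mono (show k ≤ k + n + 1 by omega)
    rw [proj_aux ε γ (congrArg Subtype.val h₁),
      proj_aux ε _ (congrArg Subtype.val (h₁.bd α n))]
    change (gbd α n γ.1).toFun _ = _
    rw [gbd_def, ev_atom_some]
    conv_rhs => rw [← ev_utab γ.1, ev_atom_some, ← PreOmega.Hom.map_bd]
    exact congrArg _ (Cell.ext ((rbd_rbd_le _ _ _ _ _ (by omega)).trans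
      (rbd_rbd_lt _ _ _ _ _ (by omega)).symm))
  map_comp n γ γ' h := by
    obtain ⟨k, hk⟩ := (Gamma Y).exists_dim γ
    obtain ⟨k', hk'⟩ := (Gamma Y).exists_dim γ'
    have h₁ := hk.mono (show k ≤ k + k' + n + 1 by omega)
    have h₂ := hk'.mono (show k' ≤ k + k' + n + 1 by omega)
    have h' : gbd true n γ.1 = gbd false n γ'.1 := congrArg Subtype.val h
    rw [proj_aux ε γ (congrArg Subtype.val h₁), proj_aux ε γ' (congrArg Subtype.val h₂),
      proj_aux ε _ (congrArg Subtype.val (h₁.comp h₂ h)), gamma_comp_val _ _ h']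
    obtain ⟨K, G, a, b, hc, ha, hb⟩ := rep2 h'
    have hn : n < k + k' + n + 1 := by omega
    rw [← ha, ← hb, ← ev_comp G n a b hc, ev_atom_some, ev_atom_some, ev_atom_some,
      cell_comp hc hn, PreOmega.Hom.map_comp _ _ _ _ (cell_cp hc hn false)]

lemma proj_toFun (ε : Bool) (γ : (Gamma Y).C) (k : ℕ) (h : gbd false k γ.1 = γ.1) :
    (proj Y ε).toFun γ = γ.1.toFun (atom (K := cyl globe.adc) (some ε, (k, false))) :=
  proj_aux ε γ h

lemma exists_cl (y : Y.C) : ∃ g : nuObj globe.adc ⟶ Y,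
    ∀ k ε, g.toFun (Tab.cell ε k utab) = Y.bd ε k y := by
  obtain ⟨g, hg⟩ := GSet.exists_hom globe Y (fun p => Y.bd p.2 p.1 y)
    (fun _ => PreOmega.dim_bd _ _ _) (by
      rintro ε ⟨k', δ⟩ k hk
      obtain rfl : k' = k + 1 := hk
      exact Y.bd_bd_lt _ _ _ _ _ k.lt_succ_self)
  exact ⟨g, fun k ε => by rw [← atom_globe, hg]⟩

/-- The degenerate cylinder on a cell. -/
noncomputable def reflC (y : Y.C) : GHom Y := nuMap (cylπ globe.adc) ≫ (exists_cl y).choose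

lemma ev_π (g : nuObj K ⟶ Y) (x : Tab K) (y : Y.C)
    (h : ∀ k ε, g.toFun (Tab.cell ε k x) = Y.bd ε k y) :
    ev (nuMap (cylπ K) ≫ g) x = reflC y := by
  have e : nuMap (tabHom x) ≫ g = (exists_cl y).choose := hom_ext_atoms fun ⟨k, ε⟩ => by
    rw [OmegaCat.comp_toFun, nuMap_toFun, map_tabHom_atom, h, atom_globe,
      (exists_cl y).choose_spec]
  rw [ev, ← Category.assoc, ← nuMap_comp, cylMap_π, nuMap_comp, Category.assoc, e, reflC]

lemma gbd_reflC (α : Bool) (n : ℕ) (y : Y.C) : gbd α n (reflC y) = reflC (Y.bd α n y) :=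
  ev_π _ _ _ fun k ε => by
    rw [← (exists_cl y).choose_spec, ← PreOmega.Hom.map_bd]
    rfl

lemma exists_gridFun {Λ : Set (ℕ → ℕ)} (w : Λ → Y.C)
    (h : ∀ (c c' : Λ) k ε ε', cut c.1 k ε = cut c'.1 k ε' → Y.bd ε k (w c) = Y.bd ε' k (w c')) :
    ∃ g : nuObj (grid Λ).adc ⟶ Y, ∀ c k ε, g.toFun (Tab.cell ε k (col c)) = Y.bd ε k (w c) := by
  choose c₀ k₀ ε₀ h₀ using gridB_surj (Λ := Λ)
  have hξ : ∀ c k ε, Y.bd (ε₀ (gridB c k ε)) (k₀ (gridB c k ε)) (w (c₀ (gridB c k ε))) =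
      Y.bd ε k (w c) := fun c k ε => by
    obtain ⟨h₁, h₂⟩ := (gridB_eq_iff _ _ _ _ _ _).1 (h₀ (gridB c k ε))
    rw [← h₁]
    exact (h _ _ _ _ _ h₂).symm
  obtain ⟨g, hg⟩ := GSet.exists_hom (grid Λ) Y (fun b => Y.bd (ε₀ b) (k₀ b) (w (c₀ b)))
    (fun b => by
      obtain ⟨c, k, ε, rfl⟩ := gridB_surj b
      rw [hξ]
      exact PreOmega.dim_bd _ _ _)
    (fun ε b k hk => by
      obtain ⟨c, k', δ, rfl⟩ := gridB_surj b
      obtain rfl : k' = k + 1 := hk
      rw [face_gridB, hξ, hξ]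
      exact Y.bd_bd_lt _ _ _ _ _ k.lt_succ_self)
  exact ⟨g, fun c k ε => by rw [← atom_gridB, hg, hξ]⟩

lemma reflC_comp {n : ℕ} {y y' : Y.C} (h : Y.Cp n y y') :
    reflC (Y.comp n y y') = gcomp n (reflC y) (reflC y') := by
  obtain ⟨g, hg⟩ := exists_gridFun (Λ := lamL n)
    (fun c => seq3 y y' (Y.bd true n y') (Y.bd true n y') (c.1 n))
    (compatL Y.bd Y.bd_bd_lt _ fun i => match i with
      | 0 => h
      | 1 => (PreOmega.bd_bd_self _ _ _ _).symm
      | 2 => (PreOmega.bd_bd_self _ _ _ _).trans (PreOmega.bd_bd_self _ _ _ _).symm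
      | _ + 3 => (PreOmega.bd_bd_self _ _ _ _).trans (PreOmega.bd_bd_self _ _ _ _).symm)
  have h₀ : ∀ k ε, g.toFun (Tab.cell ε k (col (lamLc n 0))) = Y.bd ε k y := fun k ε => by
    rw [hg, lamLc_val]; rfl
  have h₁ : ∀ k ε, g.toFun (Tab.cell ε k (col (lamLc n 1))) = Y.bd ε k y' := fun k ε => by
    rw [hg, lamLc_val]; rfl
  have hc := lamLc_cp n 0
  rw [← ev_π g _ _ h₀, ← ev_π g _ _ h₁, ← ev_comp _ n _ _ hc]
  refine (ev_π g _ _ fun k ε => ?_).symm
  have hn : n < k + n + 1 := by omega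
  have e : ∀ t : Tab (grid (lamL n)).adc, Tab.cell ε k t =
      (nuObj _).bd ε k (Tab.cell false (k + n + 1) t) := fun t =>
    Cell.ext (rbd_rbd_lt _ _ _ _ _ (by omega)).symm
  rw [e, g.map_bd, cell_comp hc hn, g.map_comp _ _ _ (cell_cp hc hn false), h₀, h₁,
    ← Y.bd_comp_gt _ _ _ _ _ hn h, Y.bd_bd_lt _ _ _ _ _ (by omega)]

theorem exists_refl (Y : OmegaCat) : ∃ r : Y ⟶ Gamma Y, (∀ ε, r ≫ proj Y ε = 𝟙 Y) ∧
    ∀ (K : BADC) (g : nuObj K ⟶ Y), evHom (nuMap (cylπ K) ≫ g) = g ≫ r := by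
  have hd : ∀ {k : ℕ} {y : Y.C}, Y.Dim k y → gbd false k (reflC y) = reflC y := fun h => by
    rw [gbd_reflC, h]
  refine ⟨⟨fun y => ⟨reflC y, (Y.fin y).imp fun _ h => hd h⟩,
    fun α n y => Subtype.ext (gbd_reflC α n y).symm,
    fun n y y' h => Subtype.ext ((reflC_comp h).trans (gamma_comp_mk _ _ ?_).symm)⟩,
    fun ε => OmegaCat.hom_ext fun y => ?_, fun K g => OmegaCat.hom_ext fun x => Subtype.ext ?_⟩
  · rw [gbd_reflC, gbd_reflC, h]
  · obtain ⟨k, hk⟩ := OmegaCat.exists_dim y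
    refine (proj_toFun ε ⟨reflC y, k, hd hk⟩ k (hd hk)).trans ?_
    change (reflC y).toFun _ = y
    rw [← ev_utab (reflC y), ev_atom_some, reflC, ← Category.assoc, ← nuMap_comp, cylι_π,
      nuMap_id, Category.id_comp, (exists_cl y).choose_spec, hk]
  · exact ev_π g _ _ fun k ε => g.map_bd ε k x

lemma evHom_proj (G : nuObj (cyl K) ⟶ Y) (ε : Bool) :
    evHom G ≫ proj Y ε = nuMap (cylι K ε) ≫ G := by
  refine OmegaCat.hom_ext fun x => ?_
  obtain ⟨k, hk⟩ := OmegaCat.exists_dim x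
  refine (proj_toFun ε ((evHom G).toFun x) k (gbd_ev_toTab G hk)).trans
    ((ev_atom_some G (Cell.toTab x) ε k false).trans ?_)
  exact congrArg _ hk

lemma nuMap_evHom (φ : K ⟶ L) (G : nuObj (cyl L) ⟶ Y) :
    nuMap φ ≫ evHom G = evHom (nuMap (cylMap φ) ≫ G) :=
  OmegaCat.hom_ext fun x => Subtype.ext (ev_map φ G (Cell.toTab x)).symm

lemma evHom_gammaMap (G : nuObj (cyl K) ⟶ Y) (f : Y ⟶ Z) :
    evHom G ≫ gammaMap f = evHom (G ≫ f) := rfl

theorem isNCat_Gamma {n : ℕ∞} (h : IsNCat n Y) : IsNCat n (Gamma Y) := by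
  intro γ
  induction n using ENat.recTopCoe with
  | top => exact ((Gamma Y).fin γ).imp fun _ hk => ⟨le_top, hk⟩
  | coe N =>
    have hN : ∀ y : Y.C, Y.Dim N y := fun y => by
      obtain ⟨k, hk, hy⟩ := h y
      exact PreOmega.Dim.mono hy (by exact_mod_cast hk)
    refine ⟨N, le_rfl, Subtype.ext (OmegaCat.hom_ext fun x => ?_)⟩
    change (gbd false N γ.1).toFun x = γ.1.toFun x
    rw [← hN ((gbd false N γ.1).toFun x), ← hN (γ.1.toFun x), ← PreOmega.Hom.map_bd,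
      ← PreOmega.Hom.map_bd]
    refine FunUpTo.ext (FunUpTo.of_hom _ N) (FunUpTo.of_hom _ N) ?_ _ (PreOmega.dim_bd _ _ _)
    rintro ⟨o, k, ε⟩ hb
    rcases lt_or_ge k N with hk | hk
    · conv_rhs => rw [← ev_utab γ.1, ev_atom]
      rw [gbd_def, ev_atom]
      exact congrArg (fun t => γ.1.toFun (cylC o t)) (Cell.ext (rbd_rbd_lt _ _ _ _ _ hk))
    · cases o with
      | none => exact absurd hb (by change ¬ (k + 1 ≤ N); omega)
      | some δ =>
        obtain rfl : k = N := le_antisymm hb hk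
        have e : ∀ β, (nuMap (cylι _ δ) ≫ γ.1).toFun (Tab.cell β k utab) =
            (nuMap (cylι _ δ) ≫ γ.1).toFun (Tab.cell false (k + 1) utab) := fun β => by
          rw [← (hN ((nuMap (cylι _ δ) ≫ γ.1).toFun (Tab.cell false (k + 1) utab))).bd_eq β le_rfl,
            ← PreOmega.Hom.map_bd]
          exact congrArg _ (Cell.ext (rbd_rbd_lt _ _ _ _ _ k.lt_succ_self).symm)
        conv_rhs => rw [← ev_utab γ.1, ev_atom_some, e, ← e false]
        rw [gbd_def, ev_atom_some]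
        exact congrArg _ (Cell.ext (rbd_rbd_le _ _ _ _ _ le_rfl))

end Vale.Agent.P213
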