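import Vale.Agent.P213.Gamma2

/-!
P213: functors `nu K ⟶ Gamma Y` are the same as functors `nu (D₁ ⊗ K) ⟶ Y`.

Plan.
* Injectivity: `hom_ext_atoms`, `atom_cyl`, `ev_atom` with `x = atom b`, `k = deg b`.
* Surjectivity: `exists_hom` for `cyl K` with
  `Inv m F := ∀ x z, Dim m z → F (map (cylMap (tabHom x.toTab)) z) = (H x).1.toFun z` and
  `y (o, b) = (H (atom b)).1.toFun (atom (o, (deg b, false)))`. To prove `Inv (m + 1) F'`, by
  `FunUpTo.ext` in `z` it suffices to treat atoms `z = atom (o, (k, ε))` of degree `m + 1`, and one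
  may replace `x` by `bd ε k x` (both sides only depend on it). Let `P x` be the statement of
  `Inv (m + 1)` for `x`. `P` is stable under composition: for composable `x₁`, `x₂` take `φ` from
  `exists_gridHom` and `G` from `exists_glue2`; `F' ∘ map (cylMap φ)` and `G` agree on atoms of
  degree `≤ m + 1` of `cyl (grid (lam2 i)).adc`, so on cells of dimension `≤ m + 1`; use `ev_comp`.
  Prove `P` first for cells of dimension `≤ m` (`cell_induction_le m`), then of dimension
  `≤ m + 1`, then for all cells. For an atom `x = atom b` and `z` as above: if `deg b = k` it is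
  the definition of `y`; if `deg b < k` both sides have lower dimension (`dim_cylC`) and `Inv m`
  applies to `map (cylMap (tabHom (bd false (deg b) utab))) z`; if `deg b > k` then `k = m`,
  `o = none`, and `bd ε k x` has dimension `≤ m`.
-/

open CategoryTheory

namespace Vale.Agent.P213

section
variable {K : BADC} {Y : OmegaCat}

lemma gb_cell_toTab (ε : Bool) (k : ℕ) (x : Cell K) :
    Tab.cell ε k x.toTab = (nuObj K).bd ε k x := rfl

lemma gb_map_atom (t : Tab K) (o : Option Bool) (k : ℕ) (ε : Bool) :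
    Cell.map (cylMap (tabHom t)) (atom (K := cyl globe.adc) (o, (k, ε))) =
      cylC o (Tab.cell ε k t) := by
  rw [atom_cyl (K := globe.adc), map_cylC, map_tabHom_atom]

lemma gb_gbd_atom (γ : GHom Y) (α β : Bool) {j k : ℕ} (h : j ≤ k) (o : Option Bool) :
    (gbd α j γ).toFun (atom (K := cyl globe.adc) (o, (k, β))) =
      γ.toFun (atom (K := cyl globe.adc) (o, (j, α))) := by
  rw [gbd, ev_atom, atom_cyl (K := globe.adc), atom_globe]
  congr 2
  exact Cell.ext (rbd_rbd_le _ _ _ _ _ h)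

lemma gb_H_bd (H : nuObj K ⟶ Gamma Y) (α : Bool) (k : ℕ) (x : Cell K) :
    (H.toFun ((nuObj K).bd α k x)).1 = gbd α k (H.toFun x).1 :=
  congrArg Subtype.val (H.map_bd α k x)

lemma gb_H_cp (H : nuObj K ⟶ Gamma Y) {i : ℕ} {x y : Cell K} (h : (nuObj K).Cp i x y) :
    gbd true i (H.toFun x).1 = gbd false i (H.toFun y).1 :=
  congrArg Subtype.val (H.map_cp h)

lemma gb_H_comp (H : nuObj K ⟶ Gamma Y) {i : ℕ} {x y : Cell K} (h : (nuObj K).Cp i x y) :
    (H.toFun ((nuObj K).comp i x y)).1 = gcomp i (H.toFun x).1 (H.toFun y).1 :=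
  (congrArg Subtype.val (H.map_comp i x y h)).trans
    (PreOmega.subComp_val (X := gammaPre Y) (fun x => ∃ k, (gammaPre Y).Dim k x)
      (fun n x y h hx hy => (gammaPre Y).fin_comp n x y h hx hy) i _ _ (gb_H_cp H h))

lemma gb_toTab_comp {i : ℕ} {x y : Cell K} (h : (nuObj K).Cp i x y) :
    Cell.toTab ((nuObj K).comp i x y) = (tabO K).comp i x.toTab y.toTab :=
  Tab.ext ((nu_comp_val i x y h).trans (Tab.comp_val i x.toTab y.toTab ((cp_iff i x y).1 h)).symm)

lemma gb_lam2_aux {i : ℕ} {x y : Raw K.B} (h : rbd true i x = rbd false i y) (k : ℕ)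
    (ε ε' : Bool) (hc : cut 0 k ε = cut (Pi.single i 1) k ε') : x ε k = y ε' k := by
  rw [cut_eq_iff] at hc
  obtain ⟨h₁, h₂⟩ := hc
  have e := congrFun (congrFun h ε) k
  rcases lt_trichotomy k i with hk | hk | hk
  · rw [Pi.single_eq_of_ne hk.ne] at h₂
    have : ε = ε' := by
      cases ε <;> cases ε' <;> simp_all
    subst this
    simpa [rbd, hk] using e
  · subst hk
    rw [Pi.single_eq_same] at h₂
    have h₃ : ε = true ∧ ε' = false := by
      cases ε <;> cases ε' <;> simp_all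
    obtain ⟨rfl, rfl⟩ := h₃
    simpa [rbd] using e
  · have := h₁ i hk
    simp at this

lemma gb_exists_lam2 {i : ℕ} (x y : Tab K) (h : rbd true i x.val = rbd false i y.val) :
    ∃ φ : (grid (lam2 i)).adc ⟶ K,
      Tab.map φ (col (lam2a i)) = x ∧ Tab.map φ (col (lam2b i)) = y := by
  classical
  have hne : (Pi.single i 1 : ℕ → ℕ) ≠ 0 := fun e => by simpa using congrFun e i
  have hε : ∀ (c : ℕ → ℕ) k ε ε', cut c k ε = cut c k ε' → ε = ε' := by
    intro c k ε ε' hc
    have h₂ := ((cut_eq_iff _ _ _ _ _).1 hc).2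
    cases ε <;> cases ε' <;> simp_all
  obtain ⟨φ, hφ⟩ := exists_gridHom (Λ := lam2 i) (fun c => if c.1 = 0 then x else y) (by
    rintro ⟨c, hc⟩ ⟨c', hc'⟩ k ε ε' e
    rcases hc with rfl | rfl <;> rcases hc' with rfl | rfl
    · rw [hε _ _ _ _ e]
    · simp only [if_true, if_neg hne]
      exact gb_lam2_aux h k ε ε' e
    · simp only [if_true, if_neg hne]
      exact (gb_lam2_aux h k ε' ε e.symm).symm
    · rw [hε _ _ _ _ e])
  refine ⟨φ, (hφ _).trans (if_pos rfl), (hφ _).trans (if_neg hne)⟩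

/-- The invariant is stable under composition. -/
lemma gb_comp (H : nuObj K ⟶ Gamma Y) {n : ℕ} {F : Cell (cyl K) → Y.C}
    (hF : FunUpTo n (cyl K) Y.toPreOmega F) {i : ℕ} {x y : Cell K} (h : (nuObj K).Cp i x y)
    (hx : ∀ z, (nuObj (cyl globe.adc)).Dim n z →
      F (Cell.map (cylMap (tabHom x.toTab)) z) = (H.toFun x).1.toFun z)
    (hy : ∀ z, (nuObj (cyl globe.adc)).Dim n z →
      F (Cell.map (cylMap (tabHom y.toTab)) z) = (H.toFun y).1.toFun z) :
    ∀ z, (nuObj (cyl globe.adc)).Dim n z →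
      F (Cell.map (cylMap (tabHom (Cell.toTab ((nuObj K).comp i x y)))) z) =
        (H.toFun ((nuObj K).comp i x y)).1.toFun z := by
  obtain ⟨φ, hφ₁, hφ₂⟩ := gb_exists_lam2 x.toTab y.toTab ((cp_iff i x y).1 h)
  obtain ⟨G, hG₁, hG₂⟩ := exists_glue2 i _ _ (gb_H_cp H h)
  have key : ∀ w, (nuObj (cyl (grid (lam2 i)).adc)).Dim n w →
      F (Cell.map (cylMap φ) w) = G.toFun w := by
    refine (hF.precomp (cylMap φ)).ext (FunUpTo.of_hom G n) ?_
    rintro ⟨o, b⟩ hb
    obtain ⟨c, k, ε, rfl⟩ := gridB_surj b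
    have hd : (nuObj (cyl globe.adc)).Dim n (atom (K := cyl globe.adc) (o, (k, ε))) :=
      (dim_atom (K := cyl globe.adc) (o, (k, ε))).mono hb
    have e : atom (K := cyl (grid (lam2 i)).adc) (o, gridB c k ε) =
        Cell.map (cylMap (tabHom (col c))) (atom (K := cyl globe.adc) (o, (k, ε))) := by
      rw [gb_map_atom, atom_cyl (K := (grid (lam2 i)).adc), atom_gridB]
    rw [e, Cell.map_map, ← cylMap_comp, tabHom_comp]
    obtain ⟨c, rfl | rfl⟩ := c
    · have e₁ := hx _ hd
      rw [← hφ₁, ← hG₁] at e₁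
      exact e₁
    · have e₁ := hy _ hd
      rw [← hφ₂, ← hG₂] at e₁
      exact e₁
  intro z hz
  rw [gb_H_comp H h, gb_toTab_comp h, ← hG₁, ← hG₂, ← ev_comp G i _ _ (lam2_cp i), ← hφ₁, ← hφ₂,
    ← Tab.map_comp φ i _ _ (lam2_cp i), ← tabHom_comp, cylMap_comp, ← Cell.map_map]
  exact key _ ((nuMap _).map_dim hz)

/-- The inductive step. -/
lemma gb_step [Good K] (H : nuObj K ⟶ Gamma Y) {n : ℕ} {F : Cell (cyl K) → Y.C}
    (hF : FunUpTo n (cyl K) Y.toPreOmega F)
    (low : ∀ (x : Cell K) z k, k < n → (nuObj (cyl globe.adc)).Dim k z →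
      F (Cell.map (cylMap (tabHom x.toTab)) z) = (H.toFun x).1.toFun z)
    (top : ∀ p : (cyl K).B, (cyl K).deg p = n → F (atom p) =
      (H.toFun (atom p.2)).1.toFun (atom (K := cyl globe.adc) (p.1, (K.deg p.2, false))))
    (d : ℕ) : ∀ x : Cell K, (nuObj K).Dim d x → ∀ z, (nuObj (cyl globe.adc)).Dim n z →
      F (Cell.map (cylMap (tabHom x.toTab)) z) = (H.toFun x).1.toFun z := by
  induction d using Nat.strong_induction_on with
  | _ d ih =>
  refine cell_induction_le d _ (fun b hb => ?_) fun j x y _ _ _ hxy hx hy =>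
    gb_comp H hF hxy hx hy
  refine (hF.precomp _).ext (FunUpTo.of_hom (H.toFun (atom b)).1 n) ?_
  rintro ⟨o, k, ε⟩ hk
  rcases hk.eq_or_lt with hk | hk
  swap
  · exact low _ _ _ hk (dim_atom (K := cyl globe.adc) (o, (k, ε)))
  rcases lt_trichotomy (K.deg b) k with h | h | h
  · have hlt : (cyl globe.adc).deg (o, (K.deg b, false)) < n := by
      rw [← hk]
      change (if o = none then K.deg b + 1 else K.deg b) < if o = none then k + 1 else k
      split_ifs <;> omega
    have e := low (atom b) _ _ hlt (dim_atom (K := cyl globe.adc) (o, (K.deg b, false)))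
    rw [gb_map_atom, gb_cell_toTab, (dim_atom b).bd_eq false le_rfl,
      ← gb_gbd_atom _ false ε h.le, ← gb_H_bd, (dim_atom b).bd_eq false le_rfl] at e
    rw [gb_map_atom, gb_cell_toTab, (dim_atom b).bd_eq ε h.le]
    exact e
  · subst h
    rw [gb_map_atom, gb_cell_toTab, (dim_atom b).bd_eq ε le_rfl, ← atom_cyl,
      ← gb_gbd_atom _ ε false le_rfl, ← gb_H_bd, (dim_atom b).bd_eq ε le_rfl]
    exact top (o, b) hk
  · have e := ih k (by omega) _ (PreOmega.dim_bd ε k (atom b)) _
      ((dim_atom (K := cyl globe.adc) (o, (k, ε))).mono hk.le)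
    rw [gb_map_atom, gb_cell_toTab, PreOmega.bd_bd_self, gb_H_bd, gb_gbd_atom _ ε ε le_rfl] at e
    rw [gb_map_atom, gb_cell_toTab]
    exact e

end

theorem evHom_injective {K : BADC} [Good K] {Y : OmegaCat} {G G' : nuObj (cyl K) ⟶ Y}
    (h : evHom G = evHom G') : G = G' := by
  refine hom_ext_atoms ?_
  rintro ⟨o, b⟩
  have e : ev G (atom b).toTab = ev G' (atom b).toTab := by
    rw [← evHom_val, ← evHom_val, h]
  have e₁ := ev_atom G (atom b).toTab o (K.deg b) false
  have e₂ := ev_atom G' (atom b).toTab o (K.deg b) false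
  rw [gb_cell_toTab, (dim_atom b).bd_eq false le_rfl, ← atom_cyl] at e₁ e₂
  rw [← e₁, ← e₂, e]

theorem evHom_surjective {K : BADC} [Good K] {Y : OmegaCat} (H : nuObj K ⟶ Gamma Y) :
    ∃ G : nuObj (cyl K) ⟶ Y, evHom G = H := by
  have hy : ∀ p : (cyl K).B, Y.Dim ((cyl K).deg p)
      ((H.toFun (atom p.2)).1.toFun (atom (K := cyl globe.adc) (p.1, (K.deg p.2, false)))) :=
    fun p => (H.toFun (atom p.2)).1.map_dim
      (dim_atom (K := cyl globe.adc) (p.1, (K.deg p.2, false)))
  obtain ⟨G, hG⟩ := exists_hom (K := cyl K) Y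
    (fun m F => ∀ (x : Cell K) z, (nuObj (cyl globe.adc)).Dim m z →
      F (Cell.map (cylMap (tabHom x.toTab)) z) = (H.toFun x).1.toFun z)
    (fun m F F' h hF x z hz => (h _ ((nuMap _).map_dim hz)).symm.trans (hF x z hz))
    ⟨fun p => (H.toFun (atom p.2)).1.toFun (atom (K := cyl globe.adc) (p.1, (K.deg p.2, false))),
      fun p hp => hp ▸ hy p, fun F hF hF' x => by
        obtain ⟨d, hd⟩ := OmegaCat.exists_dim (X := nuObj K) x
        exact gb_step H hF (fun _ _ k hk => absurd hk (Nat.not_lt_zero k)) hF' d x hd⟩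
    (fun m F hF hI => ⟨fun p => (H.toFun (atom p.2)).1.toFun
        (atom (K := cyl globe.adc) (p.1, (K.deg p.2, false))),
      fun p hp => ⟨hp ▸ hy p, fun α => by
        obtain ⟨o, b⟩ := p
        have e : atom (K := cyl K) (o, b) = Cell.map (cylMap (tabHom (atom b).toTab))
            (atom (K := cyl globe.adc) (o, (K.deg b, false))) := by
          rw [gb_map_atom, gb_cell_toTab, (dim_atom b).bd_eq false le_rfl, atom_cyl]
        rw [e]
        exact ((H.toFun (atom b)).1.map_bd α m _).symm.trans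
          ((hI _ _ (PreOmega.dim_bd α m _)).symm.trans
            (congrArg F ((nuMap _).map_bd α m _)))⟩,
      fun F' hF' h₁ h₂ x => by
        obtain ⟨d, hd⟩ := OmegaCat.exists_dim (X := nuObj K) x
        refine gb_step H hF' (fun x z k hk hz => ?_) h₂ d x hd
        have hz' := hz.mono (Nat.lt_succ_iff.1 hk)
        exact (h₁ _ ((nuMap _).map_dim hz')).trans (hI x z hz')⟩)
  refine ⟨G, OmegaCat.hom_ext fun x => Subtype.ext (OmegaCat.hom_ext fun z => ?_)⟩
  obtain ⟨m, hm⟩ := OmegaCat.exists_dim z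
  exact hG m x z hm

end Vale.Agent.P213
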