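import Vale.Agent.P213.SKQ

/-!
P213, simplicial part 10: `whe` is stable under filtered colimits.

Plan.
* `whe_colim`: small object argument in `J ⥤ SSet` for the set of maps
  `((evaluationLeftAdjoint SSet).obj j).map (horn inclusion)`; its right class is the class of
  objectwise fibrations (`evaluationAdjunctionRight`). Factor `φ = i ≫ p`. Each `i.app j` is
  anodyne (adjunction with `evaluationRightAdjoint`, products of fibrations), so each `p.app j`
  is a fibration and a `whe`, so trivial (`trivFib_of_whe`). The colimit of `i` is anodyne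
  (adjunction `colim ⊣ const`), the colimit of `p` is a trivial fibration (`trivFib_iff`, finite
  presentability of `∂Δ[n]` and `Δ[n]`). Any other correct route is fine.
-/

open CategoryTheory MonoidalCategory Simplicial Limits Opposite

namespace Vale.Agent.P213

section Proj

variable {J : Type} [SmallCategory J]

/-- Generating projective trivial cofibrations of `J ⥤ SSet`. -/
def projJ (J : Type) [SmallCategory J] : MorphismProperty (J ⥤ SSet.{0}) :=
  .ofHoms fun x : J × (Σ n : ℕ, Fin (n + 2)) =>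
    (evaluationLeftAdjoint SSet.{0} x.1).map (SSet.horn.{0} (x.2.1 + 1) x.2.2).ι

lemma projJ_rlp_iff {F G : J ⥤ SSet.{0}} (p : F ⟶ G) :
    (projJ J).rlp p ↔ ∀ j, kanFib (p.app j) := by
  constructor
  · intro h j A B i hi
    simp only [SSet.modelCategoryQuillen.J, MorphismProperty.iSup_iff] at hi
    obtain ⟨n, ⟨k⟩⟩ := hi
    exact ((evaluationAdjunctionRight SSet.{0} j).hasLiftingProperty_iff _ p).1
      (h _ (MorphismProperty.ofHoms.mk (f := fun x : J × (Σ n : ℕ, Fin (n + 2)) =>
        (evaluationLeftAdjoint SSet.{0} x.1).map (SSet.horn.{0} (x.2.1 + 1) x.2.2).ι) (j, ⟨n, k⟩)))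
  · rintro h _ _ _ ⟨j, n, k⟩
    exact ((evaluationAdjunctionRight SSet.{0} j).hasLiftingProperty_iff _ p).2
      (h j _ (SSet.modelCategoryQuillen.horn_ι_mem_J _ _))

attribute [local instance] Cardinal.fact_isRegular_aleph0 Cardinal.orderBotAleph0OrdToType in
lemma projJ_small (J : Type) [SmallCategory J] :
    MorphismProperty.HasSmallObjectArgument.{0} (projJ J) := by
  have h0 : MorphismProperty.IsSmall.{0} (projJ J) := by
    unfold projJ
    infer_instance
  refine ⟨Cardinal.aleph0, inferInstance, inferInstance, { preservesColimit := ?_ }⟩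
  intro A B X Y i hi f hf
  have : IsFinitelyPresentable.{0} A := by
    obtain ⟨j, n, k⟩ := hi
    have : ((evaluation J SSet.{0}).obj j).IsCardinalAccessible Cardinal.aleph0.{0} :=
      Functor.IsFinitelyAccessible_iff_preservesFilteredColimitsOfSize.2 inferInstance
    exact (evaluationAdjunctionRight SSet.{0} j).isCardinalPresentable_leftAdjoint_obj _ _
  infer_instance

lemma anodyne_app {F H : J ⥤ SSet.{0}} {i : F ⟶ H} (hi : (projJ J).rlp.llp i) (j : J) :
    SSet.anodyneExtensions (i.app j) := by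
  intro E D q hq
  refine ((evaluationAdjunctionLeft SSet.{0} j).hasLiftingProperty_iff i q).2
    (hi _ ((projJ_rlp_iff _).2 fun t A B k hk => ?_))
  have : HasLiftingProperty k q := hq k hk
  exact inferInstanceAs (HasLiftingProperty k (Limits.Pi.map fun _ : t ⟶ j => q))

lemma anodyne_colim {F H : J ⥤ SSet.{0}} {i : F ⟶ H} (hi : (projJ J).rlp.llp i) {cF : Cocone F}
    {cH : Cocone H} (hF : IsColimit cF) (hH : IsColimit cH) (g : cF.pt ⟶ cH.pt)
    (hg : ∀ j, cF.ι.app j ≫ g = i.app j ≫ cH.ι.app j) : SSet.anodyneExtensions g := by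
  intro E D q hq
  have hl : HasLiftingProperty i ((Functor.const J).map q) :=
    hi _ ((projJ_rlp_iff _).2 fun _ => hq)
  refine ⟨fun {u v} sq => ?_⟩
  have sq' : CommSq (cF.ι ≫ (Functor.const J).map u) i ((Functor.const J).map q)
      (cH.ι ≫ (Functor.const J).map v) := ⟨NatTrans.ext (funext fun j => by
    change (cF.ι.app j ≫ u) ≫ q = i.app j ≫ cH.ι.app j ≫ v
    rw [Category.assoc, sq.w, ← Category.assoc, hg, Category.assoc])⟩
  refine ⟨⟨⟨hH.desc ⟨E, sq'.lift⟩, hF.hom_ext fun j => ?_, hH.hom_ext fun j => ?_⟩⟩⟩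
  · rw [← Category.assoc, hg, Category.assoc, hH.fac]
    exact NatTrans.congr_app sq'.fac_left j
  · rw [← Category.assoc, hH.fac]
    exact NatTrans.congr_app sq'.fac_right j

lemma trivFib_colim [IsFiltered J] {H G : J ⥤ SSet.{0}} {p : H ⟶ G}
    (hp : ∀ j, trivFib (p.app j)) {cH : Cocone H} {cG : Cocone G} (hH : IsColimit cH)
    (hG : IsColimit cG) (t : cH.pt ⟶ cG.pt)
    (ht : ∀ j, cH.ι.app j ≫ t = p.app j ≫ cG.ι.app j) : trivFib t := by
  refine (trivFib_iff t).2 fun n => ⟨fun {u v} sq => ?_⟩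
  obtain ⟨j, u', rfl⟩ := IsFinitelyPresentable.exists_hom_of_isColimit hH u
  obtain ⟨k, v', rfl⟩ := IsFinitelyPresentable.exists_hom_of_isColimit hG v
  obtain ⟨l, a, b, hab⟩ := IsFinitelyPresentable.exists_eq_of_isColimit hG (u' ≫ p.app j)
    ((SSet.boundary.{0} n).ι ≫ v') (by
      rw [Category.assoc, ← ht, Category.assoc, ← sq.w, Category.assoc])
  have hl := (trivFib_iff _).1 (hp l) n
  have sq' : CommSq (u' ≫ H.map a) (SSet.boundary.{0} n).ι (p.app l) (v' ≫ G.map b) :=
    ⟨by rw [Category.assoc, p.naturality, ← Category.assoc, hab, Category.assoc]⟩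
  refine ⟨⟨⟨sq'.lift ≫ cH.ι.app l, ?_, ?_⟩⟩⟩
  · rw [sq'.fac_left_assoc, Category.assoc, cH.w]
  · rw [Category.assoc, ht, sq'.fac_right_assoc, Category.assoc, cG.w]

end Proj

theorem whe_colim {J : Type} [SmallCategory J] [IsFiltered J] {F G : J ⥤ SSet.{0}} (φ : F ⟶ G)
    (hφ : ∀ j, whe (φ.app j)) (cF : Cocone F) (cG : Cocone G) (hF : IsColimit cF)
    (hG : IsColimit cG) (f : cF.pt ⟶ cG.pt) (hf : ∀ j, cF.ι.app j ≫ f = φ.app j ≫ cG.ι.app j) :
    whe f := by
  have := projJ_small J
  obtain ⟨H, i, p, hip, hi, hp⟩ :=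
    MorphismProperty.factorizationData (projJ J).rlp.llp (projJ J).rlp φ
  have hp' : ∀ j, trivFib (p.app j) := fun j =>
    trivFib_of_whe ((projJ_rlp_iff p).1 hp j)
      (whe.of_precomp (i.app j) _ (whe_of_anodyne (anodyne_app hi j))
        (by rw [← NatTrans.comp_app, hip]; exact hφ j))
  have hH := colimit.isColimit H
  have h1 := anodyne_colim hi hF hH (hF.map _ i) (hF.ι_map _ i)
  have h2 := trivFib_colim hp' hH hG (hH.map _ p) (hH.ι_map _ p)
  have e : f = hF.map _ i ≫ hH.map cG p := hF.hom_ext fun j => by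
    rw [hf, hF.ι_map_assoc, hH.ι_map, ← hip, NatTrans.comp_app, Category.assoc]
  rw [e]
  exact whe.comp_mem _ _ (whe_of_anodyne h1) (whe_of_trivFib h2)

end Vale.Agent.P213
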