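import Vale.Agent.P213.NPush
import Vale.Agent.P213.SFilt

/-!
P213: the homotopy pushout property `Hsq` and its formal stability properties.

Plan.
* `Hsq.comp`: `exists_sPush`, `SPush.of_comp`; with `Q₁ = N X ⊔_K L`, the object `Q` is the
  pushout `Q₁ ⊔_L M`, and `Q ⟶ N Y₁ ⊔_L M` is a pushout of the `whe` `Q₁ ⟶ N Y₁` along the
  mono `Q₁ ⟶ Q` (`whe_pushout`); then the hypothesis for `i'`.
* `Hsq.uGood`: `X = emptyO`, `Q = L`.
* `Hsq.colim`: choose `c ⊣ nerveN n`. Put `P j = pushout g' (c.map (u j))` in `NCat n` and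
  `Q j = pushout g (u j)` in `SSet`, functorial in `j` (`pushout.map`), with the comparison maps
  `Q j ⟶ N (P j)` (a natural transformation, each a `whe` by `sPush_iff`). `isColimit_pushouts`
  twice (the second with `c.mapCocone cD`), `presFilt_nerveN`, `whe_colim`.
-/

open CategoryTheory Limits

namespace Vale.Agent.P213

/-- Attaching `L` along `K` in n-categories is a homotopy pushout. -/
def Hsq (n : ℕ∞) {K L : SSet.{0}} (i : K ⟶ L) : Prop :=
  ∀ (X Y : OmegaCat) (g : K ⟶ streetNerve.obj X) (a : X ⟶ Y) (b : L ⟶ streetNerve.obj Y),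
    SPush n g i a b → ∀ (Q : SSet.{0}) (a' : streetNerve.obj X ⟶ Q) (b' : L ⟶ Q),
      IsPushout g i a' b' → ∀ θ : Q ⟶ streetNerve.obj Y, a' ≫ θ = streetNerve.map a →
        b' ≫ θ = b → whe θ

/-- The unit at `L` is a weak equivalence. -/
def UGood (n : ℕ∞) (L : SSet.{0}) : Prop :=
  ∀ (Y : OmegaCat) (b : L ⟶ streetNerve.obj Y), SUniv n b → whe b

variable {n : ℕ∞} {K L M K' L' : SSet.{0}}

theorem Hsq.of_isIso (i : K ⟶ L) [IsIso i] : Hsq n i := by
  intro X Y g a b hp Q a' b' hq θ h₁ _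
  have := hp.isIso
  have := hq.isIso_inl_of_isIso
  exact whe.of_precomp a' θ (whe_of_isIso _) (h₁ ▸ whe_of_isIso _)

theorem Hsq.comp {i : K ⟶ L} {i' : L ⟶ M} [Mono i'] (h : Hsq n i) (h' : Hsq n i') :
    Hsq n (i ≫ i') := by
  intro X Y g a b hp Q a' b' hq θ h₁ h₂
  obtain ⟨Y₁, a₁, b₁, hp₁⟩ := exists_sPush hp.hX g i
  obtain ⟨a₂, rfl, hp₂⟩ := hp₁.of_comp hp
  have q₁ := IsPushout.of_hasPushout g i
  have q₂ := IsPushout.of_hasPushout b₁ i'
  have q := hq.of_top' q₁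
  have w₁ := h X Y₁ g a₁ b₁ hp₁ _ _ _ q₁ _ (q₁.inl_desc _ _ hp₁.w) (q₁.inr_desc _ _ hp₁.w)
  have w₂ := h' Y₁ Y b₁ a₂ b hp₂ _ _ _ q₂ _ (q₂.inl_desc _ _ hp₂.w) (q₂.inr_desc _ _ hp₂.w)
  have e : pushout.inr g i ≫ q₁.desc _ _ hp₁.w ≫ pushout.inl b₁ i' = i' ≫ pushout.inr b₁ i' := by
    rw [q₁.inr_desc_assoc, q₂.w]
  have w₃ := whe_glue q q₂ (𝟙 _) (𝟙 _) (q₁.desc _ _ hp₁.w) (q.desc _ _ e)
    (by rw [q₁.inr_desc, Category.id_comp]) (by rw [Category.id_comp, Category.comp_id])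
    (q.inl_desc _ _ e) (by rw [q.inr_desc, Category.id_comp]) (whe.id_mem _) (whe.id_mem _) w₁
  have : θ = q.desc _ _ e ≫ q₂.desc _ _ hp₂.w := by
    refine hq.hom_ext ?_ (by rw [h₂, q.inr_desc_assoc, q₂.inr_desc])
    refine h₁.trans (Eq.trans ?_ (q₁.inl_desc a' (i' ≫ b') (by rw [hq.w, Category.assoc]) =≫ _))
    rw [Category.assoc, q.inl_desc_assoc, Category.assoc, q₁.inl_desc_assoc, q₂.inl_desc,
      Functor.map_comp]
  rw [this]
  exact whe.comp_mem _ _ w₃ w₂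

theorem Hsq.pushout {t : K ⟶ K'} {i : K ⟶ L} {i' : K' ⟶ L'} {t' : L ⟶ L'}
    (hp : IsPushout t i i' t') (h : Hsq n i) : Hsq n i' := by
  intro X Y g a b hs Q a' b' hq θ h₁ h₂
  exact h X Y _ a _ (hs.paste hp) Q a' _ (hp.paste_horiz hq) θ h₁ (by rw [Category.assoc, h₂])

theorem Hsq.of_iso {i : K ⟶ L} {i' : K' ⟶ L'} (t : K ⟶ K') (t' : L ⟶ L') [IsIso t] [IsIso t']
    (w : t ≫ i' = i ≫ t') : Hsq n i ↔ Hsq n i' := by
  refine ⟨Hsq.pushout (IsPushout.of_horiz_isIso ⟨w⟩),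
    Hsq.pushout (t := inv t) (t' := inv t') (IsPushout.of_horiz_isIso ⟨?_⟩)⟩
  rw [IsIso.inv_comp_eq, ← Category.assoc, w, Category.assoc, IsIso.hom_inv_id, Category.comp_id]

/-- The map out of a levelwise empty simplicial set. -/
private def fromEmpty {A : SSet.{0}} (hA : ∀ m, IsEmpty (A.obj m)) (B : SSet.{0}) : A ⟶ B where
  app m := TypeCat.ofHom fun x => (hA m).elim x
  naturality m _ _ := by
    ext x
    exact (hA m).elim x

private lemma fromEmpty_ext {A B : SSet.{0}} (hA : ∀ m, IsEmpty (A.obj m)) (f g : A ⟶ B) :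
    f = g := by
  ext m x
  exact (hA m).elim x

theorem Hsq.uGood {i : K ⟶ L} (h : Hsq n i) (hK : ∀ m, IsEmpty (K.obj m)) : UGood n L := by
  intro Y b hb
  have hE := isEmpty_nerve (X := emptyO) (inferInstanceAs (IsEmpty Empty))
  let a : emptyO ⟶ Y := ⟨fun x => x.elim, fun _ _ x => x.elim, fun _ x => x.elim⟩
  have ha : ∀ {Z : OmegaCat} (u v : emptyO ⟶ Z), u = v := fun u v =>
    PreOmega.Hom.ext (funext fun x => x.elim)
  have : IsIso (fromEmpty hK (streetNerve.obj emptyO)) :=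
    ⟨fromEmpty hE K, fromEmpty_ext hK _ _, fromEmpty_ext hE _ _⟩
  refine h emptyO Y (fromEmpty hK _) a b
    ⟨fun x => x.elim, hb.hY, fromEmpty_ext hK _ _, fun Z hZ u v _ => ?_,
      fun Z hZ t t' _ e => hb.ext Z hZ t t' e⟩ L (fromEmpty hE L) (𝟙 L)
    (IsPushout.of_horiz_isIso ⟨fromEmpty_ext hK _ _⟩) b (fromEmpty_ext hE _ _)
    (Category.id_comp b)
  obtain ⟨t, ht⟩ := hb.desc Z hZ v
  exact ⟨t, ha _ _, ht⟩

theorem UGood.of_iso (t : K ⟶ L) [IsIso t] (h : UGood n K) : UGood n L := by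
  intro Y b hb
  refine whe.of_precomp t b (whe_of_isIso t) (h Y (t ≫ b) ⟨hb.hY, fun Z hZ v => ?_,
    fun Z hZ s s' e => hb.ext Z hZ s s' ?_⟩)
  · obtain ⟨s, hs⟩ := hb.desc Z hZ (inv t ≫ v)
    exact ⟨s, by rw [Category.assoc, hs, IsIso.hom_inv_id_assoc]⟩
  · rwa [Category.assoc, Category.assoc, cancel_epi] at e

theorem Hsq.whe_map {i : K ⟶ L} [Mono i] (h : Hsq n i) (hi : whe i) {X Y : OmegaCat}
    {g : K ⟶ streetNerve.obj X} {a : X ⟶ Y} {b : L ⟶ streetNerve.obj Y}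
    (hp : SPush n g i a b) : whe (streetNerve.map a) := by
  have q := IsPushout.of_hasPushout g i
  rw [← q.inl_desc _ _ hp.w]
  exact whe.comp_mem _ _ (whe_pushout_of_mono q hi)
    (h X Y g a b hp _ _ _ q _ (q.inl_desc _ _ hp.w) (q.inr_desc _ _ hp.w))

/-- A pushout along a filtered colimit is the filtered colimit of the pushouts. -/
private lemma exists_colim_pushouts {C : Type 1} [Category.{0} C] [HasPushouts C] {J : Type}
    [SmallCategory J] [IsFiltered J] {K X : C} (g : K ⟶ X) {D : J ⥤ C} (u : ∀ j, K ⟶ D.obj j)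
    (hu : ∀ {j j' : J} (f : j ⟶ j'), u j ≫ D.map f = u j') (cD : Cocone D) (hD : IsColimit cD)
    (u' : K ⟶ cD.pt) (hu' : ∀ j, u j ≫ cD.ι.app j = u') {T : C} {a' : X ⟶ T} {b' : cD.pt ⟶ T}
    (h : IsPushout g u' a' b') :
    ∃ (P : J ⥤ C) (a : ∀ j, X ⟶ P.obj j) (b : D ⟶ P) (ι : P ⟶ (Functor.const J).obj T),
      (∀ {j j' : J} (f : j ⟶ j'), a j ≫ P.map f = a j') ∧
      (∀ j, IsPushout g (u j) (a j) (b.app j)) ∧ (∀ j, a j ≫ ι.app j = a') ∧
      (∀ j, b.app j ≫ ι.app j = cD.ι.app j ≫ b') ∧ Nonempty (IsColimit (Cocone.mk T ι)) := by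
  have w : ∀ {j j' : J} (f : j ⟶ j'),
      g ≫ pushout.inl g (u j') = u j ≫ D.map f ≫ pushout.inr g (u j') := fun f => by
    rw [← Category.assoc, hu, pushout.condition]
  have w' : ∀ j, g ≫ a' = u j ≫ cD.ι.app j ≫ b' := fun j => by
    rw [← Category.assoc, hu', h.w]
  let P : J ⥤ C :=
    { obj j := pushout g (u j)
      map f := pushout.desc _ _ (w f)
      map_id j := pushout.hom_ext (by rw [pushout.inl_desc, Category.comp_id])
        (by rw [pushout.inr_desc, D.map_id, Category.id_comp, Category.comp_id])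
      map_comp f f' := pushout.hom_ext
        (by rw [pushout.inl_desc, pushout.inl_desc_assoc, pushout.inl_desc])
        (by rw [pushout.inr_desc, pushout.inr_desc_assoc, Category.assoc, pushout.inr_desc,
          D.map_comp, Category.assoc]) }
  let b : D ⟶ P :=
    { app j := pushout.inr g (u j)
      naturality _ _ f := (pushout.inr_desc _ _ (w f)).symm }
  let ι : P ⟶ (Functor.const J).obj T :=
    { app j := pushout.desc _ _ (w' j)
      naturality _ _ f := pushout.hom_ext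
        (by simp [P, pushout.inl_desc, pushout.inl_desc_assoc])
        (by simp [P, pushout.inr_desc, pushout.inr_desc_assoc]) }
  have ha : ∀ {j j' : J} (f : j ⟶ j'), pushout.inl g (u j) ≫ P.map f = pushout.inl g (u j') :=
    fun f => pushout.inl_desc _ _ (w f)
  refine ⟨P, fun j => pushout.inl g (u j), b, ι, ha, fun j => IsPushout.of_hasPushout _ _,
    fun j => pushout.inl_desc _ _ (w' j), fun j => pushout.inr_desc _ _ (w' j), ?_⟩
  exact isColimit_pushouts g u hu (fun j => pushout.inl g (u j)) ha b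
    (fun j => IsPushout.of_hasPushout _ _) cD hD (Cocone.mk T ι) u' hu' a'
    (fun j => pushout.inl_desc _ _ (w' j)) b' (fun j => (pushout.inr_desc _ _ (w' j)).symm) h

/-- The property `Hsq` in terms of a left adjoint of the nerve. -/
lemma hsq_iff_adj {c : SSet.{0} ⥤ NCat n} (adj : c ⊣ nerveN n) (i : K ⟶ L) :
    Hsq n i ↔ ∀ (X Y : NCat n) (g : c.obj K ⟶ X) (a : X ⟶ Y) (b : c.obj L ⟶ Y),
      IsPushout g (c.map i) a b → ∀ (Q : SSet.{0}) (a' : (nerveN n).obj X ⟶ Q) (b' : L ⟶ Q),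
        IsPushout (adj.homEquiv _ _ g) i a' b' → ∀ θ : Q ⟶ (nerveN n).obj Y,
          a' ≫ θ = (nerveN n).map a → b' ≫ θ = adj.homEquiv _ _ b → whe θ := by
  refine ⟨fun h X Y g a b hp Q a' b' hq θ h₁ h₂ =>
    h _ _ _ _ _ ((sPush_iff adj g i a b).2 hp) Q a' b' hq θ h₁ h₂,
    fun h X Y g a b hp Q a' b' hq θ h₁ h₂ => ?_⟩
  have hX : IsNCat n X := hp.hX
  have hY : IsNCat n Y := hp.hY
  obtain ⟨g₀, rfl⟩ : ∃ g₀, adj.homEquiv K ⟨X, hX⟩ g₀ = g := Equiv.surjective _ _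
  obtain ⟨b₀, rfl⟩ : ∃ b₀, adj.homEquiv L ⟨Y, hY⟩ b₀ = b := Equiv.surjective _ _
  let a₀ : (⟨X, hX⟩ : NCat n) ⟶ ⟨Y, hY⟩ := ObjectProperty.homMk a
  exact h _ _ g₀ a₀ b₀ ((sPush_iff adj g₀ i a₀ b₀).1 hp) Q a' b' hq θ h₁ h₂

theorem Hsq.colim {J : Type} [SmallCategory J] [IsFiltered J] {D : J ⥤ SSet.{0}}
    (u : ∀ j, K ⟶ D.obj j) (hu : ∀ {j j' : J} (f : j ⟶ j'), u j ≫ D.map f = u j')
    (cD : Cocone D) (hD : IsColimit cD) (u' : K ⟶ cD.pt) (hu' : ∀ j, u j ≫ cD.ι.app j = u')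
    (h : ∀ j, Hsq n (u j)) : Hsq n u' := by
  obtain ⟨c, ⟨adj⟩⟩ := exists_leftAdjoint n
  have : PreservesColimitsOfSize.{0, 0} c := adj.leftAdjoint_preservesColimits
  simp only [hsq_iff_adj adj] at h ⊢
  intro X Y g a b hp Q a' b' hq θ h₁ h₂
  obtain ⟨P, aP, bP, ιP, p₁, p₂, p₃, p₄, ⟨p₅⟩⟩ := exists_colim_pushouts g (D := D ⋙ c)
    (fun j => c.map (u j)) (fun f => (c.map_comp _ _).symm.trans (congrArg c.map (hu f)))
    (c.mapCocone cD) (isColimitOfPreserves c hD) (c.map u')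
    (fun j => (c.map_comp _ _).symm.trans (congrArg c.map (hu' j))) hp
  obtain ⟨R, aR, bR, ιR, r₁, r₂, r₃, r₄, ⟨r₅⟩⟩ := exists_colim_pushouts _ u hu cD hD u' hu' hq
  have s : ∀ j, ∃ φ : R.obj j ⟶ (nerveN n).obj (P.obj j), aR j ≫ φ = (nerveN n).map (aP j) ∧
      bR.app j ≫ φ = adj.homEquiv (D.obj j) (P.obj j) (bP.app j) := fun j =>
    (r₂ j).exists_desc _ _ ((adj.homEquiv_naturality_right _ _).symm.trans
      (Eq.trans (congrArg _ (p₂ j).w) (adj.homEquiv_naturality_left _ _)))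
  choose φ₀ e₁ e₂ using s
  let φ : R ⟶ P ⋙ nerveN n :=
    { app := φ₀
      naturality j j' f := by
        change R.map f ≫ φ₀ j' = φ₀ j ≫ (nerveN n).map (P.map f)
        refine (r₂ j).hom_ext ?_ ?_
        · rw [← Category.assoc, ← Category.assoc, r₁, e₁, e₁, ← p₁ f, Functor.map_comp]
        · rw [← Category.assoc, ← Category.assoc, ← bR.naturality, Category.assoc, e₂, e₂]
          exact (adj.homEquiv_naturality_left _ _).symm.trans
            (Eq.trans (congrArg _ (bP.naturality f)) (adj.homEquiv_naturality_right _ _)) }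
  refine whe_colim φ (fun j => h j _ _ _ _ _ (p₂ j) _ _ _ (r₂ j) _ (e₁ j) (e₂ j)) _ _ r₅
    (isColimitOfPreserves (nerveN n) p₅) θ fun j => (r₂ j).hom_ext ?_ ?_
  · refine ((Category.assoc _ _ _).symm.trans ?_).trans (Category.assoc _ _ _)
    refine ((r₃ j =≫ θ).trans h₁).trans (Eq.trans ?_ (e₁ j =≫ _).symm)
    exact ((congrArg (nerveN n).map (p₃ j)).symm.trans ((nerveN n).map_comp _ _))
  · refine ((Category.assoc _ _ _).symm.trans ?_).trans (Category.assoc _ _ _)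
    refine (r₄ j =≫ θ).trans (Eq.trans ?_ (e₂ j =≫ _).symm)
    refine ((Category.assoc _ _ _).trans (_ ≫= h₂)).trans ?_
    exact (adj.homEquiv_naturality_left _ _).symm.trans
      (Eq.trans (congrArg _ (p₄ j).symm) (adj.homEquiv_naturality_right _ _))

end Vale.Agent.P213
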