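import Vale.Agent.P213.SNerve

/-!
P213, simplicial part 11: cellular induction over the subcomplexes of a simplicial set.

Plan.
* `isColimit_chain`: levelwise a directed union of sets (`evaluationJointlyReflectsColimits`,
  `Types.FilteredColimit.isColimitOf'` or a direct `desc` by choice).
* `cell_induction`: Zorn's lemma (`zorn_le_nonempty₀` or `zorn_le₀`) on the subcomplexes above
  `A₀` satisfying `P`; if the maximal one `A` is not `⊤`, take a simplex `x ∉ A` of minimal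
  dimension `d` (it is nondegenerate and all its proper faces lie in `A`), put
  `A' = A ⊔ ofSimplex x`, and check the pushout (Eilenberg-Zilber uniqueness; compare the proof
  of `isPushout` in `Mathlib/AlgebraicTopology/SimplicialSet/Skeleton`, or apply that lemma to
  the mono `homOfLE : A ⟶ A'`, which has exactly one cell).
-/

open CategoryTheory MonoidalCategory Simplicial Limits Opposite

namespace Vale.Agent.P213

/-- The diagram of the members of a set of subcomplexes. -/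
def chainDiag {L : SSet.{0}} (S : Set L.Subcomplex) : S ⥤ SSet.{0} :=
  Monotone.functor (f := fun A : S => A.1) (fun _ _ h => h) ⋙ SSet.Subcomplex.toSSetFunctor

/-- The cocone with vertex the supremum. -/
def chainCocone {L : SSet.{0}} (S : Set L.Subcomplex) : Cocone (chainDiag S) where
  pt := (sSup S : L.Subcomplex)
  ι := { app A := SSet.Subcomplex.homOfLE (le_sSup A.2)
         naturality _ _ _ := rfl }

lemma isFiltered_chain {L : SSet.{0}} (S : Set L.Subcomplex) (hS : IsChain (· ≤ ·) S)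
    (hne : S.Nonempty) : IsFiltered S := by
  have : Nonempty S := hne.to_subtype
  have : IsDirectedOrder S := ⟨fun A B => by
    rcases hS.total A.2 B.2 with h | h
    · exact ⟨B, h, le_rfl⟩
    · exact ⟨A, le_rfl, h⟩⟩
  infer_instance

lemma isColimit_chain {L : SSet.{0}} (S : Set L.Subcomplex) (hS : IsChain (· ≤ ·) S)
    (hne : S.Nonempty) : Nonempty (IsColimit (chainCocone S)) := by
  have := isFiltered_chain S hS hne
  let c : Cocone (Monotone.functor (f := fun A : S => A.1) fun _ _ h => h) :=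
    { pt := sSup S
      ι := { app A := homOfLE (le_sSup A.2) } }
  have hc : IsColimit c :=
    { desc s := homOfLE (sSup_le fun A hA => (s.ι.app ⟨A, hA⟩).le) }
  exact ⟨isColimitOfPreserves SSet.Subcomplex.toSSetFunctor hc⟩

lemma cell_pushout {L : SSet.{0}} (A : L.Subcomplex) {d : ℕ} (x : L _⦋d⦌)
    (hx : x ∈ L.nonDegenerate d) (hA : x ∉ A.obj _)
    (hlow : ∀ n < d, ∀ y : L _⦋n⦌, y ∈ A.obj _) :
    ∃ (t : (SSet.boundary.{0} d : SSet.{0}) ⟶ A)
      (b : (Δ[d] : SSet.{0}) ⟶ (A ⊔ SSet.Subcomplex.ofSimplex x : L.Subcomplex)),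
      IsPushout t (SSet.boundary.{0} d).ι (SSet.Subcomplex.homOfLE le_sup_left) b := by
  obtain ⟨m, hm⟩ : ∃ m : (Δ[d] : SSet.{0}) ⟶ L, m = SSet.yonedaEquiv.symm x := ⟨_, rfl⟩
  have hm' : ∀ {n : SimplexCategory} (f : n ⟶ ⦋d⦌),
      m.app _ (SSet.stdSimplex.objEquiv.symm f) = L.map f.op x := fun f => by
    rw [hm]
    exact SSet.yonedaEquiv_symm_app_objEquiv_symm _ _
  have hpre : A.preimage m = SSet.boundary.{0} d := by
    rw [SSet.stdSimplex.eq_boundary_iff]
    refine ⟨?_, fun h => hA ?_⟩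
    · rw [SSet.Subcomplex.le_iff_contains_nonDegenerate]
      rintro n ⟨y, hy₁⟩ hy₂
      have : n < d := SSet.dim_lt_of_nonDegenerate (X := SSet.boundary.{0} d)
        ⟨⟨y, hy₂⟩, (SSet.Subcomplex.mem_nonDegenerate_iff _ _).2 hy₁⟩ d
      exact hlow n this _
    · have h1 : m.app _ (SSet.stdSimplex.objEquiv.symm (𝟙 ⦋d⦌)) ∈ A.obj _ :=
        h.symm.le _ (show SSet.stdSimplex.objEquiv.symm (𝟙 ⦋d⦌) ∈ _ from Set.mem_univ _)
      rw [hm'] at h1
      simpa using h1
  have hb : SSet.Subcomplex.range m ≤ A ⊔ SSet.Subcomplex.ofSimplex x := by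
    refine le_trans (le_of_eq ?_) le_sup_right
    rw [hm, SSet.Subcomplex.range_eq_ofSimplex, Equiv.apply_symm_apply]
  have ht : SSet.Subcomplex.range ((SSet.boundary.{0} d).ι ≫ m) ≤ A := by
    rintro n _ ⟨y, rfl⟩
    exact hpre.ge _ y.2
  have w : SSet.Subcomplex.lift _ ht ≫ SSet.Subcomplex.homOfLE le_sup_left =
      (SSet.boundary.{0} d).ι ≫ SSet.Subcomplex.lift m hb := rfl
  refine ⟨SSet.Subcomplex.lift _ ht, SSet.Subcomplex.lift m hb, ⟨w⟩,
    ⟨evaluationJointlyReflectsColimits _ fun ⟨n⟩ => ?_⟩⟩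
  refine (isColimitMapCoconePushoutCoconeEquiv _ _).2 (IsPushout.isColimit ?_)
  have : Mono (((evaluation SimplexCategoryᵒᵖ Type).obj (op n)).map
      (SSet.Subcomplex.homOfLE (le_sup_left : A ≤ A ⊔ SSet.Subcomplex.ofSimplex x))) :=
    inferInstance
  refine Types.isPushout_of_isPullback_of_mono' ?_ ?_ ?_
  · rw [Types.isPullback_iff]
    refine ⟨NatTrans.congr_app w _, fun x₁ x₂ h => Subtype.ext h.2, fun y z h => ?_⟩
    have h1 : y.1 = m.app _ z := congrArg Subtype.val h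
    refine ⟨⟨z, hpre.le _ (show m.app _ z ∈ A.obj _ from h1 ▸ y.2)⟩, Subtype.ext h1.symm, rfl⟩
  · refine Set.eq_univ_of_forall fun ⟨y, hy⟩ => ?_
    rcases hy with hy | ⟨f, rfl⟩
    · exact Or.inl ⟨⟨y, hy⟩, rfl⟩
    · exact Or.inr ⟨SSet.stdSimplex.objEquiv.symm f.unop, Subtype.ext (hm' f.unop)⟩
  · intro x₁ x₂ hx₁ hx₂ h
    have he : ∀ z : (Δ[d] : SSet.{0}).obj (op n), z ∉ (SSet.boundary.{0} d).obj (op n) →
        Epi (SSet.stdSimplex.objEquiv z) := fun z hz => by
      simpa [SimplexCategory.epi_iff_surjective, SSet.boundary] using! hz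
    have e₁ := he x₁ fun h => hx₁ ⟨⟨x₁, h⟩, rfl⟩
    have e₂ := he x₂ fun h => hx₂ ⟨⟨x₂, h⟩, rfl⟩
    have h1 : m.app _ x₁ = m.app _ x₂ := congrArg Subtype.val h
    have h2 : L.map (SSet.stdSimplex.objEquiv x₁).op x =
        L.map (SSet.stdSimplex.objEquiv x₂).op x := by
      rw [← hm', ← hm', Equiv.symm_apply_apply, Equiv.symm_apply_apply, h1]
    obtain ⟨n⟩ := n
    exact SSet.stdSimplex.objEquiv.injective
      (L.unique_nonDegenerate_map _ _ ⟨x, hx⟩ rfl _ ⟨x, hx⟩ h2)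

theorem cell_induction {L : SSet.{0}} (A₀ : L.Subcomplex) (P : L.Subcomplex → Prop) (h₀ : P A₀)
    (hsup : ∀ S : Set L.Subcomplex, IsChain (· ≤ ·) S → S.Nonempty →
      (∀ A ∈ S, A₀ ≤ A ∧ P A) → P (sSup S))
    (hcell : ∀ (A A' : L.Subcomplex) (h : A ≤ A') (d : ℕ)
      (t : (SSet.boundary.{0} d : SSet.{0}) ⟶ A) (b : (Δ[d] : SSet.{0}) ⟶ A'), A₀ ≤ A →
      IsPushout t (SSet.boundary.{0} d).ι (SSet.Subcomplex.homOfLE h) b → P A → P A') :
    P ⊤ := by
  classical
  obtain ⟨A, -, hA⟩ := zorn_le_nonempty₀ (Set.ofPred fun A : L.Subcomplex => A₀ ≤ A ∧ P A)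
    (fun S hS hc B hB => ⟨sSup S, ⟨(hS hB).1.trans (le_sSup hB), hsup S hc ⟨B, hB⟩ fun A h => hS h⟩,
      fun _ h => le_sSup h⟩) A₀ ⟨le_rfl, h₀⟩
  by_cases h : A = ⊤
  · exact h ▸ hA.prop.2
  exfalso
  have hex : ∃ d, ∃ x : L _⦋d⦌, x ∉ A.obj _ := by
    by_contra hne
    push Not at hne
    exact h (top_unique fun ⟨⟨n⟩⟩ y _ => hne n y)
  obtain ⟨x, hx⟩ := Nat.find_spec hex
  have hlow : ∀ n < Nat.find hex, ∀ y : L _⦋n⦌, y ∈ A.obj _ := fun n hn y =>
    by_contra fun hy => Nat.find_min hex hn ⟨y, hy⟩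
  have hnd : x ∈ L.nonDegenerate _ := by
    by_contra hd
    rw [← SSet.mem_degenerate_iff_notMem_nonDegenerate] at hd
    obtain ⟨n, hn, f, y, rfl⟩ := hd
    exact hx (A.map _ (hlow n hn y))
  obtain ⟨t, b, hp⟩ := cell_pushout A x hnd hx hlow
  have h1 := hA.le_of_ge (y := A ⊔ SSet.Subcomplex.ofSimplex x)
    ⟨hA.prop.1.trans le_sup_left, hcell A _ le_sup_left _ t b hA.prop.1 hp hA.prop.2⟩ le_sup_left
  exact hx (h1 _ (Or.inr (SSet.Subcomplex.mem_ofSimplex_obj x)))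

end Vale.Agent.P213
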