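import Vale.Agent.P213.KeyPoset
import Vale.Agent.P213.SCell

/-!
P213: the homotopy pushout property for the second subdivision of every mono.

Plan.
* `hsq_chain`: strong induction on `Nat.card S`, for all `S`, `S₀`, `e`. If `e` is onto, then
  `nmap (chMap e)` is an isomorphism. Otherwise take `T` maximal outside the range of `e`; it is
  maximal in `S`. Let `S₁ = {x // x ≠ T}`; `e` factors through `S₁` (induction hypothesis), and
  `hsq_poset` applies to `chEmb` of the inclusion `S₁ ↪o S`, with `W = {c | c ≠ chOne T}`,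
  `t = chOne T`, `a₀` the chain `w.erase T`; `{c // c ∈ W ∧ c ∉ range}` is order isomorphic to
  `Chain {x // x < T}` (`c ↦ c.erase T`), and `UGood` holds for it by the induction hypothesis
  for the empty sieve of `{x // x < T}` (`Hsq.uGood`, `UGood.of_iso`, `isIso_nmap`).
* `hsq_sd_sub`: `sd_map_sub`, `SdData.isIso_comp`, and `SdData.comp_nat` for `sdNerve`;
  `subFaces_lower`; `Hsq.of_iso`.
* `hsq_sd_mono`: `cell_induction` with `A₀ = range i` and
  `P A := ∀ h : A₀ ≤ A, Hsq n (sd.map (sd.map (homOfLE h)))`; `sd` is a left adjoint;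
  `Hsq.pushout`, `Hsq.comp`, `mono_sd_map`, `Hsq.colim`, `isColimit_chain`; finally
  `K ≅ range i`, `⊤ ≅ L`.
* `uGood_sd`: the map from the initial object.
-/

open CategoryTheory Limits Simplicial

namespace Vale.Agent.P213

/-- Direct image of chains along an order embedding. -/
noncomputable def chEmb {E F : Type} [PartialOrder E] [PartialOrder F] (e : E ↪o F) :
    Chain E ↪o Chain F :=
  OrderEmbedding.ofMapLEIff (chMap e.toOrderHom) fun c c' =>
    ⟨fun h x hx => by
      obtain ⟨y, hy, hxy⟩ := (sdd_mem_chMap _ c' _).1 (h ((sdd_mem_chMap _ c _).2 ⟨x, hx, rfl⟩))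
      exact e.injective hxy ▸ hy, fun h => (chMap e.toOrderHom).monotone h⟩

lemma chEmb_toOrderHom {E F : Type} [PartialOrder E] [PartialOrder F] (e : E ↪o F) :
    (chEmb e).toOrderHom = chMap e.toOrderHom := rfl

variable {n : ℕ∞}

lemma ki_finite (E : Type) [PartialOrder E] [Finite E] : Finite (Chain E) :=
  Finite.of_injective (fun c : Chain E => c.finset) fun _ _ h =>
    PartialOrder.NonemptyFiniteChains.ext h

lemma ki_isIso {E F : Type} [PartialOrder E] [PartialOrder F] (f : E ↪o F)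
    (hf : Function.Surjective f) : IsIso (nmap f.toOrderHom) :=
  isIso_nmap (RelIso.ofSurjective f hf)

lemma ki_mem {E F : Type} [PartialOrder E] [PartialOrder F] (e : E ↪o F) (c : Chain E) (y : F) :
    y ∈ (chEmb e c).finset ↔ ∃ x, x ∈ c.finset ∧ e x = y := sdd_mem_chMap e.toOrderHom c y

lemma ki_range {E F : Type} [PartialOrder E] [PartialOrder F] (e : E ↪o F) (c : Chain F) :
    c ∈ Set.range (chEmb e) ↔ ∀ y ∈ c.finset, y ∈ Set.range e := by
  constructor
  · rintro ⟨c, rfl⟩ y hy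
    obtain ⟨x, -, h⟩ := (ki_mem e c y).1 hy
    exact ⟨x, h⟩
  · intro h
    refine ⟨⟨c.finset.preimage e e.injective.injOn, ?_, fun a b => ?_⟩, sdd_chain_ext fun y => ?_⟩
    · obtain ⟨y, hy⟩ := c.nonempty
      obtain ⟨x, rfl⟩ := h y hy
      exact ⟨x, Finset.mem_preimage.2 hy⟩
    · exact (c.isCh _ (Finset.mem_preimage.1 a.2) _ (Finset.mem_preimage.1 b.2)).imp
        e.le_iff_le.1 e.le_iff_le.1
    · rw [ki_mem]
      constructor
      · rintro ⟨x, hx, rfl⟩
        exact (Finset.mem_preimage (hf := e.injective.injOn)).1 hx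
      · intro hy
        obtain ⟨x, rfl⟩ := h y hy
        exact ⟨x, (Finset.mem_preimage (hf := e.injective.injOn)).2 hy, rfl⟩

lemma ki_range_ne {S : Type} [PartialOrder S] (T : S) (c : Chain S) :
    c ∈ Set.range (chEmb (OrderEmbedding.subtype fun x => x ≠ T)) ↔ T ∉ c.finset := by
  rw [ki_range]
  constructor
  · intro h hT
    obtain ⟨x, hx⟩ := h T hT
    exact x.2 hx
  · intro h y hy
    exact ⟨⟨y, fun e => h (e ▸ hy)⟩, rfl⟩

lemma ki_erase {S : Type} [PartialOrder S] (T : S) (c : Chain S) (hc : c ≠ chOne T) :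
    ∃ c' : Chain S, ∀ x, x ∈ c'.finset ↔ x ≠ T ∧ x ∈ c.finset := by
  classical
  refine ⟨⟨c.finset.erase T, ?_, fun a b =>
    c.isCh _ (Finset.mem_of_mem_erase a.2) _ (Finset.mem_of_mem_erase b.2)⟩,
    fun x => Finset.mem_erase⟩
  by_contra h
  have h1 : ∀ x ∈ c.finset, x = T := fun x hx =>
    by_contra fun hne => h ⟨x, Finset.mem_erase.2 ⟨hne, hx⟩⟩
  obtain ⟨y, hy⟩ := c.nonempty
  exact hc (sdd_chain_ext fun x => ⟨fun hx => Finset.mem_singleton.2 (h1 x hx),
    fun hx => by rw [Finset.mem_singleton.1 hx, ← h1 y hy]; exact hy⟩)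

open Classical in
/-- Adding the element `T` to a chain below `T`. -/
noncomputable def kiCone {S : Type} [PartialOrder S] (T : S) (c : Chain {x // x < T}) : Chain S :=
  ⟨insert T (chEmb (OrderEmbedding.subtype fun x => x < T) c).finset, Finset.insert_nonempty _ _,
    fun a b => by
      have h : ∀ y ∈ (chEmb (OrderEmbedding.subtype fun x => x < T) c).finset, y ≤ T :=
        fun y hy => by
          obtain ⟨x, -, rfl⟩ := (ki_mem _ c y).1 hy
          exact x.2.le
      rcases Finset.mem_insert.1 a.2 with ha | ha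
      · rcases Finset.mem_insert.1 b.2 with hb | hb
        · exact Or.inl (ha.trans hb.symm).le
        · exact Or.inr ((h _ hb).trans ha.ge)
      · rcases Finset.mem_insert.1 b.2 with hb | hb
        · exact Or.inl ((h _ ha).trans hb.ge)
        · exact Chain.isCh _ _ ha _ hb⟩

lemma ki_mem_cone {S : Type} [PartialOrder S] (T : S) (c : Chain {x // x < T}) (y : S) :
    y ∈ (kiCone T c).finset ↔ y = T ∨ ∃ x, x ∈ c.finset ∧ x.1 = y := by
  classical
  exact Finset.mem_insert.trans (or_congr Iff.rfl (ki_mem _ c y))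

lemma ki_link {S : Type} [PartialOrder S] (T : S) (hT : ∀ x, T ≤ x → x ≤ T)
    (h : UGood n (nerve (Chain {x // x < T}))) :
    UGood n (nerve {c // c ∈ (Set.ofPred fun c : Chain S => c ≠ chOne T) ∧
      c ∉ Set.range (chEmb (OrderEmbedding.subtype fun x => x ≠ T))}) := by
  let φ : Chain {x // x < T} ↪o {c // c ∈ (Set.ofPred fun c : Chain S => c ≠ chOne T) ∧
      c ∉ Set.range (chEmb (OrderEmbedding.subtype fun x => x ≠ T))} :=
    OrderEmbedding.ofMapLEIff (fun c => ⟨kiCone T c, fun e => by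
      obtain ⟨x, hx⟩ := c.nonempty
      have h1 := (ki_mem_cone T c x.1).2 (Or.inr ⟨x, hx, rfl⟩)
      rw [e] at h1
      exact x.2.ne (Finset.mem_singleton.1 h1), fun e =>
        (ki_range_ne T _).1 e ((ki_mem_cone T c T).2 (Or.inl rfl))⟩) fun c c' =>
      ⟨fun hc x hx => by
        rcases (ki_mem_cone T c' x.1).1 (hc ((ki_mem_cone T c x.1).2 (Or.inr ⟨x, hx, rfl⟩))) with
          h1 | ⟨y, hy, h1⟩
        · exact absurd h1 x.2.ne
        · exact Subtype.ext h1 ▸ hy,
      fun hc y hy => (ki_mem_cone T c' y).2 (((ki_mem_cone T c y).1 hy).imp_right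
        fun ⟨x, hx, e⟩ => ⟨x, hc hx, e⟩)⟩
  have := ki_isIso φ fun c => by
    obtain ⟨c', hc'⟩ := ki_erase T c.1 c.2.1
    have h1 : T ∈ c.1.finset := by_contra fun e => c.2.2 ((ki_range_ne T _).2 e)
    obtain ⟨d, hd⟩ := (ki_range (OrderEmbedding.subtype fun x => x < T) c').2 fun y hy =>
      ⟨⟨y, lt_of_le_of_ne ((c.1.isCh _ ((hc' y).1 hy).2 _ h1).elim id fun h2 => hT y h2)
        ((hc' y).1 hy).1⟩, rfl⟩
    refine ⟨d, Subtype.ext (sdd_chain_ext fun y => (ki_mem_cone T d y).trans ?_)⟩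
    have h2 := (ki_mem _ d y).symm.trans (hd ▸ hc' y)
    refine (or_congr Iff.rfl h2).trans ⟨?_, fun hy => ?_⟩
    · rintro (rfl | hy)
      · exact h1
      · exact hy.2
    · exact (eq_or_ne y T).imp_right fun e => ⟨e, hy⟩
  exact UGood.of_iso (nmap φ.toOrderHom) h

lemma ki_step (hn : 1 ≤ n) {S : Type} [PartialOrder S] [Finite S] (T : S)
    (hT : ∀ x, T ≤ x → x ≤ T) (h : UGood n (nerve (Chain {x // x < T}))) :
    Hsq n (nmap (chMap (OrderEmbedding.subtype fun x => x ≠ T).toOrderHom)) := by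
  have := ki_finite S
  refine hsq_poset hn (chEmb (OrderEmbedding.subtype fun x => x ≠ T)) (fun c c' hc h1 => ?_)
    (Set.ofPred fun c => c ≠ chOne T) (fun c c' hc h1 e => h1 ?_) (fun a e => ?_) (fun w hw => ?_) (chOne T)
    (fun e => (ki_range_ne T _).1 e (Finset.mem_singleton_self T)) (fun x hx y hy => ?_)
    (ki_link T hT h)
  · rw [ki_range_ne] at h1 ⊢
    exact fun e => h1 (hc e)
  · obtain ⟨y, hy⟩ := c.nonempty
    have h2 : ∀ x ∈ c.finset, x = T := fun x hx => Finset.mem_singleton.1 (e.le (hc hx))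
    exact sdd_chain_ext fun x => ⟨fun hx => Finset.mem_singleton.2 (h2 x hx),
      fun hx => by rw [Finset.mem_singleton.1 hx, ← h2 y hy]; exact hy⟩
  · exact (ki_range_ne T _).1 ⟨a, rfl⟩ (e.ge (Finset.mem_singleton_self T))
  · obtain ⟨c', hc'⟩ := ki_erase T w hw
    obtain ⟨a₀, rfl⟩ := (ki_range_ne T c').2 fun e => ((hc' T).1 e).1 rfl
    refine ⟨a₀, fun a => Iff.trans ⟨fun h1 y hy => (hc' y).2 ⟨fun e => ?_, sdd_chain_le_iff.1 h1 y hy⟩,
      fun h1 y hy => ((hc' y).1 (sdd_chain_le_iff.1 h1 y hy)).2⟩ (chEmb _).le_iff_le⟩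
    exact (ki_range_ne T _).1 ⟨a, rfl⟩ (e ▸ hy)
  · rw [Finset.mem_singleton.1 hy]
    exact by_contra fun e => hx ((ki_range_ne T _).2 e)

lemma ki_ind (hn : 1 ≤ n) (k : ℕ) : ∀ (S : Type) [PartialOrder S] [Finite S], Nat.card S = k →
    ∀ (S₀ : Type) [PartialOrder S₀] (e : S₀ ↪o S), IsLowerSet (Set.range e) →
      Hsq n (nmap (chMap e.toOrderHom)) := by
  induction k using Nat.strong_induction_on with
  | _ k ih =>
  intro S _ _ hk S₀ _ e hl
  by_cases he : Function.Surjective e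
  · have : IsIso (nmap (chMap e.toOrderHom)) :=
      ki_isIso (chEmb e) fun c => (ki_range e c).2 fun y _ => he y
    exact Hsq.of_isIso _
  obtain ⟨T, hT⟩ := (Set.toFinite (Set.range e)ᶜ).exists_maximal
    (Set.nonempty_compl.2 fun h => he (Set.range_eq_univ.1 h))
  have hT' : ∀ x, T ≤ x → x ≤ T := fun x hx => hT.2 (fun h => hT.1 (hl hx h)) hx
  let e₁ : S₀ ↪o {x // x ≠ T} :=
    OrderEmbedding.ofMapLEIff (fun a => ⟨e a, fun h => hT.1 ⟨a, h⟩⟩) fun _ _ => e.le_iff_le
  have h1 := ih _ (hk ▸ Finite.card_subtype_lt (p := fun x => x ≠ T) (x := T) fun h => h rfl)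
    {x // x ≠ T} rfl S₀ e₁ (by
      rintro x y hxy ⟨a, rfl⟩
      obtain ⟨b, hb⟩ := hl (show y.1 ≤ e a from hxy) ⟨a, rfl⟩
      exact ⟨b, Subtype.ext hb⟩)
  have h2 := ih _ (hk ▸ Finite.card_subtype_lt (p := fun x => x < T) (x := T) (lt_irrefl T))
    {x // x < T} rfl _ (OrderEmbedding.subtype fun _ => False) (by
      rintro x y _ ⟨a, _⟩
      exact a.2.elim)
  have h3 := ki_step hn T hT' (h2.uGood fun m => ⟨fun x => by
    obtain ⟨y, _⟩ := (x.obj 0).nonempty
    exact y.2⟩)
  have := mono_nmap (chEmb (OrderEmbedding.subtype fun x => x ≠ T)).toOrderHom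
    (chEmb (OrderEmbedding.subtype fun x => x ≠ T)).injective
  have h4 := Hsq.comp (i' := nmap (chEmb (OrderEmbedding.subtype fun x => x ≠ T)).toOrderHom) h1 h3
  have h5 : (chEmb (OrderEmbedding.subtype fun x => x ≠ T)).toOrderHom.comp (chMap e₁.toOrderHom) =
      chMap e.toOrderHom := OrderHom.ext _ _ (funext fun c => sdd_chMap_chMap _ _ c)
  rwa [← nmap_comp, h5] at h4

theorem hsq_chain (hn : 1 ≤ n) {S₀ S : Type} [PartialOrder S₀] [PartialOrder S] [Finite S]
    (e : S₀ ↪o S) (hl : IsLowerSet (Set.range e)) : Hsq n (nmap (chMap e.toOrderHom)) := by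
  exact ki_ind hn _ S rfl S₀ e hl

theorem hsq_sd_sub (hn : 1 ≤ n) {m : ℕ} (S : (Δ[m] : SSet.{0}).Subcomplex) :
    Hsq n (SSet.sd.map (SSet.sd.map S.ι)) := by
  have := ki_finite (Ord m)
  have := (sdSub S).isIso_comp
  have := (sdStd m).isIso_comp
  have := (sdNerve (subFaces S)).isIso_comp
  have := (sdNerve (Chain (Ord m))).isIso_comp
  have h1 := hsq_chain hn (OrderEmbedding.subtype fun c => c ∈ subFaces S)
    ((Subtype.range_coe (s := subFaces S)).symm ▸ subFaces_lower S)
  have h2 := (Hsq.of_iso _ _ ((sdNerve (subFaces S)).comp_nat (sdNerve (Chain (Ord m)))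
    (nmap (OrderEmbedding.subtype fun c => c ∈ subFaces S).toOrderHom)
    (OrderEmbedding.subtype fun c => c ∈ subFaces S).toOrderHom rfl _ fun _ => rfl).symm).2 h1
  refine (Hsq.of_iso (SSet.sd.map (sdSub S).comp) (SSet.sd.map (sdStd m).comp) ?_).2 h2
  rw [← Functor.map_comp, ← Functor.map_comp, sd_map_sub]

theorem hsq_sd_mono (hn : 1 ≤ n) {K L : SSet.{0}} (i : K ⟶ L) [Mono i] :
    Hsq n (SSet.sd.map (SSet.sd.map i)) := by
  have : PreservesColimitsOfSize.{0, 0} SSet.sd.{0} :=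
    SSet.sdExAdjunction.leftAdjoint_preservesColimits
  have mono2 : ∀ {A B : SSet.{0}} (f : A ⟶ B) [Mono f], Mono (SSet.sd.map (SSet.sd.map f)) :=
    fun f _ => have := mono_sd_map f; mono_sd_map _
  have key := cell_induction (SSet.Subcomplex.range i) (fun A => ∀ h : SSet.Subcomplex.range i ≤ A,
    Hsq n (SSet.sd.map (SSet.sd.map (SSet.Subcomplex.homOfLE h)))) (fun h => by
      have : IsIso (SSet.Subcomplex.homOfLE h) := inferInstanceAs (IsIso (𝟙 _))
      exact Hsq.of_isIso _) (fun S hS hne hP h => by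
      have := isFiltered_chain S hS hne
      obtain ⟨hc⟩ := isColimit_chain S hS hne
      refine Hsq.colim (D := chainDiag S ⋙ SSet.sd ⋙ SSet.sd)
        (fun j => SSet.sd.map (SSet.sd.map (SSet.Subcomplex.homOfLE (hP j.1 j.2).1)))
        (fun f => ?_) _ (isColimitOfPreserves (SSet.sd ⋙ SSet.sd) hc) _ (fun j => ?_)
        fun j => (hP j.1 j.2).2 _
      · exact (SSet.sd.map_comp _ _).symm.trans (congrArg SSet.sd.map (SSet.sd.map_comp _ _).symm)
      · exact (SSet.sd.map_comp _ _).symm.trans (congrArg SSet.sd.map (SSet.sd.map_comp _ _).symm))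
    (fun A A' h d t b hA hp hP h' => by
      have := mono2 (SSet.Subcomplex.homOfLE h)
      have h1 := (hP hA).comp (Hsq.pushout ((hp.map SSet.sd).map SSet.sd) (hsq_sd_sub hn _))
      rw [← Functor.map_comp, ← Functor.map_comp] at h1
      exact h1) le_top
  refine (Hsq.of_iso (SSet.sd.map (SSet.sd.map (SSet.Subcomplex.toRange i)))
    (SSet.sd.map (SSet.sd.map (SSet.Subcomplex.topIso L).inv)) ?_).2 key
  rw [← Functor.map_comp, ← Functor.map_comp, ← Functor.map_comp, ← Functor.map_comp]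
  rfl

theorem uGood_sd (hn : 1 ≤ n) (K : SSet.{0}) : UGood n (SSet.sd.obj (SSet.sd.obj K)) := by
  have : PreservesColimitsOfSize.{0, 0} SSet.sd.{0} :=
    SSet.sdExAdjunction.leftAdjoint_preservesColimits
  refine (hsq_sd_mono hn (⊥ : K.Subcomplex).ι).uGood fun m => ⟨fun x => ?_⟩
  have h := IsInitial.isInitialObj SSet.sd _
    (IsInitial.isInitialObj SSet.sd _ (SSet.Subcomplex.isInitialBot (X := K)))
  exact ((h.to ((⊥ : K.Subcomplex) : SSet.{0})).app m x).2

end Vale.Agent.P213
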