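import Vale.Agent.P213.KeyFormal
import Vale.Agent.P213.Dwyer
import Vale.Agent.P213.Cosieve

/-!
P213: the homotopy pushout property for a Dwyer inclusion of finite posets.

Plan. Write `g = unitP A ≫ N g₀`, `b = unitP B ≫ N b₀` (`unitP_desc`), get an `NPush`
(`sPush_iff_nPush`). Let `V` be the complement of the range of `e` (an upper set).
`NPush.exists_cos` gives cosieves `S` (from `True` on `X`, `cosP W`) and `T` (from `False`,
`cosP V`) of `Y`; `S y ∨ T y` by `NPush.obj_surj`. With `Y₁ = fibO S`, `Y₂ = fibO T`,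
`Y₀ = fibO (S ∧ T)`: `NPush.fib` gives an `NPush` for `X ⟵ OP A ⟶ OP W` with vertex `Y₁`
(`NPush.whe_dwyer`) and one for `emptyO ⟵ emptyO ⟶ OP V` with vertex `Y₂` (`NPush.nUniv`);
`NUniv.fib` gives `NUniv` for `OP (W ∩ V) ⟶ Y₀`. Let `Q₁` be the pushout of
`N X ⟵ nerve A ⟶ nerve W`: `N X ⟶ Q₁` is anodyne (`anodyne_nmap_of_retraction`), so
`Q₁ ⟶ N Y₁` is a `whe`; `nerve V ⟶ N Y₂` is a `whe` (`whe_of_terminal`, `whe_nerve_of_bot`,
`whe_nerve_of_nUniv_bot`); `nerve (W ∩ V) ⟶ N Y₀` is a `whe` by `hU` (`sUniv_iff_nUniv`).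
`nerve B` is the pushout of `nerve W ⟵ nerve (W ∩ V) ⟶ nerve V` (`sset_isPushout`,
`mem_range_nmap`: look at the first vertex), so `Q` is the pushout of
`Q₁ ⟵ nerve (W ∩ V) ⟶ nerve V` (pasting). Conclude by `isPushout_nerve_cos` and `whe_glue`.
-/

open CategoryTheory Limits

namespace Vale.Agent.P213

lemma IsFib.kp_congr {X' X : OmegaCat} {e : X' ⟶ X} {S S' : X.C → Prop} (h : IsFib e S)
    (hh : ∀ x, S' x ↔ S x) : IsFib e S' :=
  ⟨h.inj, fun x => (hh x).trans (h.range x)⟩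

/-- The functor from the empty omega-category. -/
def kpEmpty (X : OmegaCat) : emptyO ⟶ X where
  toFun x := x.elim
  map_bd _ _ x := x.elim
  map_comp _ x := x.elim

lemma kp_isFib_empty {X : OmegaCat} {S : X.C → Prop} (h : ∀ x, ¬ S x) : IsFib (kpEmpty X) S :=
  ⟨fun x => x.elim, fun x => ⟨fun hx => (h x hx).elim, fun ⟨y, _⟩ => y.elim⟩⟩

lemma kp_empty_ext {X : OmegaCat} (f g : emptyO ⟶ X) : f = g :=
  OmegaCat.hom_ext fun x => x.elim

section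
variable {A B W V U : Type} [PartialOrder A] [PartialOrder B] [PartialOrder W] [PartialOrder V]
  [PartialOrder U]

lemma kp_nerve_pushout (w : W ↪o B) (v : V ↪o B) (uW : U ↪o W) (uV : U ↪o V)
    (h2 : w.toOrderHom.comp uW.toOrderHom = v.toOrderHom.comp uV.toOrderHom)
    (hw : IsUpperSet (Set.range w)) (hv : IsUpperSet (Set.range v))
    (hc : ∀ x, x ∈ Set.range w ∨ x ∈ Set.range v)
    (hi : Set.range uV = v ⁻¹' Set.range w) :
    IsPushout (nmap uW.toOrderHom) (nmap uV.toOrderHom) (nmap w.toOrderHom)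
      (nmap v.toOrderHom) := by
  have := mono_nmap w.toOrderHom w.injective
  have := mono_nmap v.toOrderHom v.injective
  refine sset_isPushout _ _ _ _ (by rw [← nmap_comp, h2, nmap_comp]) (fun m x => ?_)
    fun m a₁ a₂ h => ?_
  · exact (hc (x.obj 0)).imp
      (fun h => mem_range_nmap w x fun i => hw (nerve_monotone x (Fin.zero_le i)) h)
      fun h => mem_range_nmap v x fun i => hv (nerve_monotone x (Fin.zero_le i)) h
  · have h' : ∀ i, w (a₁.obj i) = v (a₂.obj i) := fun i =>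
      congrArg (fun z : (nerve B).obj m => z.obj i) h
    obtain ⟨a₀, h₀⟩ := mem_range_nmap uV a₂ fun i => hi.ge ⟨_, h' i⟩
    refine ⟨a₀, nerve_ext fun i => w.injective ?_, h₀⟩
    rw [h', ← h₀]
    exact congrArg (fun f : U →o B => f (a₀.obj i)) h2

lemma kp_anodyne (e : A ↪o W) (hd : ∀ w, ∃ a₀, ∀ a, e a ≤ w ↔ a ≤ a₀) :
    SSet.anodyneExtensions (nmap e.toOrderHom) := by
  choose r hr using hd
  exact anodyne_nmap_of_retraction e
    ⟨r, fun x y h => (hr y _).1 (((hr x _).2 le_rfl).trans h)⟩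
    (fun x => le_antisymm (e.le_iff_le.1 ((hr _ _).2 le_rfl)) ((hr _ _).1 le_rfl))
    fun y => (hr y _).2 le_rfl

/-- The simplicial part of the argument. -/
lemma kp_glue (w : W ↪o B) (v : V ↪o B) (eW : A ↪o W) (uW : U ↪o W) (uV : U ↪o V)
    (hp : IsPushout (nmap uW.toOrderHom) (nmap uV.toOrderHom) (nmap w.toOrderHom)
      (nmap v.toOrderHom)) (han : SSet.anodyneExtensions (nmap eW.toOrderHom))
    {X Y Y₀ Y₁ Y₂ Q : SSet.{0}} {g : nerve A ⟶ X} {a' : X ⟶ Q} {b' : nerve B ⟶ Q}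
    (hQ : IsPushout g (nmap eW.toOrderHom ≫ nmap w.toOrderHom) a' b') {t : Y₀ ⟶ Y₁} {l : Y₀ ⟶ Y₂}
    {e₁ : Y₁ ⟶ Y} {e₂ : Y₂ ⟶ Y} [Mono l] (hY : IsPushout t l e₁ e₂) (θ : Q ⟶ Y) (a₁ : X ⟶ Y₁)
    (b₀ : nerve U ⟶ Y₀) (b₁ : nerve W ⟶ Y₁) (b₂ : nerve V ⟶ Y₂)
    (c₀ : g ≫ a₁ = nmap eW.toOrderHom ≫ b₁) (c₁ : nmap uW.toOrderHom ≫ b₁ = b₀ ≫ t)
    (c₂ : nmap uV.toOrderHom ≫ b₂ = b₀ ≫ l) (c₃ : a' ≫ θ = a₁ ≫ e₁)
    (c₄ : nmap w.toOrderHom ≫ b' ≫ θ = b₁ ≫ e₁) (c₅ : nmap v.toOrderHom ≫ b' ≫ θ = b₂ ≫ e₂)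
    (w₀ : whe b₀) (w₁ : whe a₁) (w₂ : whe b₂) : whe θ := by
  have h₁ := IsPushout.of_hasPushout g (nmap eW.toOrderHom)
  have h₂ := hp.paste_horiz (hQ.of_top' h₁)
  have := mono_nmap uV.toOrderHom uV.injective
  have h₃ : whe (pushout.inl g (nmap eW.toOrderHom)) :=
    whe_of_anodyne (MorphismProperty.of_isPushout h₁ han)
  refine whe_glue h₂ hY b₀ b₂ (h₁.desc a₁ b₁ c₀) θ ?_ c₂ (h₁.hom_ext ?_ ?_) ?_ w₀ w₂
    (whe.of_precomp _ _ h₃ (by rwa [h₁.inl_desc]))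
  · rw [Category.assoc, h₁.inr_desc, c₁]
  · rw [h₁.inl_desc_assoc, h₁.inl_desc_assoc, c₃]
  · rw [h₁.inr_desc_assoc, h₁.inr_desc_assoc, Category.assoc, c₄]
  · rw [Category.assoc, c₅]

lemma kp_core {n : ℕ∞} (hn : 1 ≤ n) [Finite W] [Finite V] (w : W ↪o B) (v : V ↪o B) (eW : A ↪o W)
    (uW : U ↪o W) (uV : U ↪o V)
    (h2 : w.toOrderHom.comp uW.toOrderHom = v.toOrderHom.comp uV.toOrderHom)
    (hw : IsUpperSet (Set.range w)) (hv : IsUpperSet (Set.range v))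
    (hc : ∀ x, x ∈ Set.range w ∨ x ∈ Set.range v) (hi : Set.range uV = v ⁻¹' Set.range w)
    (he : ∀ a, w (eW a) ∉ Set.range v) (hd : ∀ w, ∃ a₀, ∀ a, eW a ≤ w ↔ a ≤ a₀) (t : V)
    (ht : ∀ x, t ≤ x) (hU : UGood n (nerve U)) :
    Hsq n (nmap (w.toOrderHom.comp eW.toOrderHom)) := by
  intro X Y g a b hp Q a' b' hQ θ ha hb
  obtain ⟨g₀, rfl⟩ := unitP_desc g
  obtain ⟨b₀, rfl⟩ := unitP_desc b
  have h := (sPush_iff_nPush _ g₀ a b₀).1 hp
  obtain ⟨S, hS, Sa, Sb⟩ := h.exists_cos hn isCos_true (isCos_cosP hw) fun x =>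
    ⟨fun _ => (cosP_map _ _ x).2 (by
      obtain ⟨c, -, hc⟩ := cosP_univ x
      exact ⟨c, ⟨eW c, rfl⟩, hc⟩), fun _ => trivial⟩
  obtain ⟨T, hT, Ta, Tb⟩ := h.exists_cos hn isCos_false (isCos_cosP hv) fun x =>
    ⟨False.elim, fun hx => by
      obtain ⟨c, hc, -⟩ := (cosP_map _ _ x).1 hx
      exact he c hc⟩
  have hST : ∀ y, S y ∨ T y := fun y => by
    rw [← hS.src, ← hT.src]
    rcases h.obj_surj y with ⟨x, hx⟩ | ⟨x, hx⟩
    · exact Or.inl (hx ▸ (Sa x).2 trivial)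
    · rw [← hx, Sb, Tb, ← cosP_union, Set.eq_univ_of_forall (s := _ ∪ _) hc]
      exact cosP_univ x
  have fw : ∀ x, cosP (Set.range w) ((opMap w.toOrderHom).toFun x) := fun x =>
    ((isFib_opMap w hw).range _).2 ⟨x, rfl⟩
  have fv : ∀ x, cosP (Set.range v) ((opMap v.toOrderHom).toFun x) := fun x =>
    ((isFib_opMap v hv).range _).2 ⟨x, rfl⟩
  have h2' : opMap uW.toOrderHom ≫ opMap w.toOrderHom = opMap uV.toOrderHom ≫ opMap v.toOrderHom := by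
    rw [← opMap_comp, h2, opMap_comp]
  have h₀ := (hS.inter hT).isFib
  obtain ⟨t₁, ht₁⟩ := hS.isFib.lift (hS.inter hT).fibι fun z => ((h₀.range _).2 ⟨z, rfl⟩).1
  obtain ⟨l, hl⟩ := hT.isFib.lift (hS.inter hT).fibι fun z => ((h₀.range _).2 ⟨z, rfl⟩).2
  obtain ⟨a₁, ha₁⟩ := hS.isFib.lift a fun z => (Sa z).2 trivial
  obtain ⟨b₁, hb₁⟩ := hS.isFib.lift (opMap w.toOrderHom ≫ b₀) fun z => (Sb _).2 (fw z)
  obtain ⟨b₂, hb₂⟩ := hT.isFib.lift (opMap v.toOrderHom ≫ b₀) fun z => (Tb _).2 (fv z)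
  obtain ⟨b₃, hb₃⟩ := h₀.lift (opMap uV.toOrderHom ≫ opMap v.toOrderHom ≫ b₀) fun z =>
    ⟨by
      rw [← Category.assoc, ← h2']
      exact (Sb _).2 (fw _), (Tb _).2 (fv _)⟩
  have p₁ : NPush n g₀ (opMap eW.toOrderHom) a₁ b₁ :=
    h.fib hn hS (isFib_id.kp_congr fun x => Sa _) (isFib_id.kp_congr Sa)
      ((isFib_opMap w hw).kp_congr Sb) hS.isFib (by rw [Category.comp_id, Category.id_comp])
      (by rw [Category.id_comp, opMap_comp]) (by rw [Category.id_comp, ha₁]) hb₁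
  have p₂ : NUniv n b₂ :=
    (h.fib hn hT (kp_isFib_empty fun x => (Ta _).1) (kp_isFib_empty fun x => (Ta _).1)
      ((isFib_opMap v hv).kp_congr Tb) hT.isFib (g' := 𝟙 _) (j' := kpEmpty _) (a' := kpEmpty _)
      (kp_empty_ext _ _) (kp_empty_ext _ _) (kp_empty_ext _ _) hb₂).nUniv
      (inferInstanceAs (IsEmpty Empty))
  have fl : IsFib l fun y => S (hT.fibι.toFun y) := by
    refine ⟨fun x y hxy => h₀.inj ?_, fun y => ⟨fun hy => ?_, ?_⟩⟩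
    · rw [← hl]
      exact congrArg hT.fibι.toFun hxy
    · obtain ⟨z, hz⟩ := (h₀.range _).1 ⟨hy, (hT.isFib.range _).2 ⟨y, rfl⟩⟩
      rw [← hl] at hz
      exact ⟨z, hT.isFib.inj hz⟩
    · rintro ⟨z, rfl⟩
      have := ((h₀.range _).2 ⟨z, rfl⟩).1
      rwa [← hl] at this
  have c₂ : b₃ ≫ l = opMap uV.toOrderHom ≫ b₂ :=
    hT.isFib.hom_ext (by rw [Category.assoc, hl, hb₃, Category.assoc, hb₂])
  have c₁ : b₃ ≫ t₁ = opMap uW.toOrderHom ≫ b₁ :=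
    hS.isFib.hom_ext (by rw [Category.assoc, ht₁, hb₃, Category.assoc, hb₁, reassoc_of% h2'])
  have p₃ : NUniv n b₃ := by
    refine p₂.fib hn (hS.comap hT.fibι) ((isFib_opMap uV ?_).kp_congr fun x => ?_) fl c₂
    · rw [hi]
      exact hw.preimage v.monotone
    · rw [hi, ← OmegaCat.comp_toFun, hb₂]
      exact (Sb _).trans (cosP_map v.toOrderHom _ x)
  have := fl.mono_nerve
  refine kp_glue w v eW uW uV (kp_nerve_pushout w v uW uV h2 hw hv hc hi) (kp_anodyne eW hd) hQ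
    (isPushout_nerve_cos hS hT hST hS.isFib hT.isFib t₁ l (ht₁.trans hl.symm) (ht₁ ▸ h₀)) θ
    (streetNerve.map a₁) (unitP U ≫ streetNerve.map b₃) (unitP W ≫ streetNerve.map b₁)
    (unitP V ≫ streetNerve.map b₂) ?_ ?_ ?_ ?_ ?_ ?_ (hU _ _ ((sUniv_iff_nUniv _).2 p₃))
    (p₁.whe_dwyer eW hd)
    (whe_of_terminal _ (whe_nerve_of_bot t ht) (whe_nerve_of_nUniv_bot t ht p₂))
  · exact ((sPush_iff_nPush _ _ _ _).2 p₁).w
  · rw [← Category.assoc, unitP_nat, Category.assoc, Category.assoc, ← Functor.map_comp,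
      ← Functor.map_comp, c₁]
  · rw [← Category.assoc, unitP_nat, Category.assoc, Category.assoc, ← Functor.map_comp,
      ← Functor.map_comp, c₂]
  · rw [ha, ← Functor.map_comp, ha₁]
  · rw [hb, ← Category.assoc, unitP_nat, Category.assoc, Category.assoc, ← Functor.map_comp,
      ← Functor.map_comp, hb₁]
  · rw [hb, ← Category.assoc, unitP_nat, Category.assoc, Category.assoc, ← Functor.map_comp,
      ← Functor.map_comp, hb₂]

end

theorem hsq_poset {n : ℕ∞} (hn : 1 ≤ n) {A B : Type} [PartialOrder A] [PartialOrder B]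
    [Finite B] (e : A ↪o B) (hl : IsLowerSet (Set.range e)) (W : Set B) (hW : IsUpperSet W)
    (hAW : ∀ a, e a ∈ W) (hd : ∀ w ∈ W, ∃ a₀, ∀ a, e a ≤ w ↔ a ≤ a₀) (t : B)
    (ht : t ∉ Set.range e) (ht' : ∀ x, x ∉ Set.range e → t ≤ x)
    (hU : UGood n (nerve {x // x ∈ W ∧ x ∉ Set.range e})) : Hsq n (nmap e.toOrderHom) := by
  have rw' : Set.range (OrderEmbedding.subtype fun x => x ∈ W) = W := Subtype.range_coe
  have rv : Set.range (OrderEmbedding.subtype fun x => x ∉ Set.range e) = (Set.range e)ᶜ :=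
    Subtype.range_coe
  refine kp_core hn (OrderEmbedding.subtype fun x => x ∈ W)
    (OrderEmbedding.subtype fun x => x ∉ Set.range e)
    (OrderEmbedding.ofMapLEIff (fun a => ⟨e a, hAW a⟩) fun _ _ => e.le_iff_le)
    (OrderEmbedding.ofMapLEIff (fun a => ⟨a.1, a.2.1⟩) fun _ _ => Iff.rfl)
    (OrderEmbedding.ofMapLEIff (fun a => ⟨a.1, a.2.2⟩) fun _ _ => Iff.rfl) rfl (rw'.symm ▸ hW)
    (rv.symm ▸ hl.compl) (fun x => ?_) ?_ (fun a h => ?_) (fun w => hd w.1 w.2) ⟨t, ht⟩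
    (fun x => ht' x.1 x.2) hU
  · rw [rw', rv]
    by_cases hx : x ∈ Set.range e
    · obtain ⟨a, rfl⟩ := hx
      exact Or.inl (hAW a)
    · exact Or.inr hx
  · rw [rw']
    ext x
    exact ⟨fun ⟨y, hy⟩ => hy ▸ y.2.1, fun hx => ⟨⟨x.1, hx, x.2⟩, rfl⟩⟩
  · rw [rv] at h
    exact h ⟨a, rfl⟩

end Vale.Agent.P213
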