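import Vale.Agent.P213.ChainsUP

/-!
P213: pushouts relative to the class of n-categories.

Plan. `NPush` and `SPush` are universal properties; all proofs are formal. Existence: with
`τ ⊣ ι` from `exists_trunc`, take `τ` of the pushout in `OmegaCat` (maps to `Z` with
`IsNCat n Z` are maps to `ι.obj ⟨Z, _⟩`); with `c ⊣ nerveN n` from `exists_leftAdjoint`, take the
pushout in `NCat n` and use `sPush_iff`. Morphisms of `NCat n` are `ObjectProperty.homMk f` and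
`f.hom`; `(nerveN n).map f = streetNerve.map f.hom` by `rfl`.
-/

open CategoryTheory Limits

namespace Vale.Agent.P213

/-- `Y` is the pushout of `X ⟵ A ⟶ B` among n-categories. -/
structure NPush (n : ℕ∞) {A X B Y : OmegaCat} (g : A ⟶ X) (j : A ⟶ B) (a : X ⟶ Y) (b : B ⟶ Y) :
    Prop where
  hX : IsNCat n X
  hY : IsNCat n Y
  w : g ≫ a = j ≫ b
  desc : ∀ Z : OmegaCat, IsNCat n Z → ∀ (u : X ⟶ Z) (v : B ⟶ Z), g ≫ u = j ≫ v →
    ∃ t : Y ⟶ Z, a ≫ t = u ∧ b ≫ t = v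
  ext : ∀ Z : OmegaCat, IsNCat n Z → ∀ t t' : Y ⟶ Z, a ≫ t = a ≫ t' → b ≫ t = b ≫ t' → t = t'

/-- `Y` is obtained from the n-category `X` by freely attaching `L` along `K`. -/
structure SPush (n : ℕ∞) {K L : SSet.{0}} {X Y : OmegaCat} (g : K ⟶ streetNerve.obj X)
    (i : K ⟶ L) (a : X ⟶ Y) (b : L ⟶ streetNerve.obj Y) : Prop where
  hX : IsNCat n X
  hY : IsNCat n Y
  w : g ≫ streetNerve.map a = i ≫ b
  desc : ∀ Z : OmegaCat, IsNCat n Z → ∀ (u : X ⟶ Z) (v : L ⟶ streetNerve.obj Z),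
    g ≫ streetNerve.map u = i ≫ v → ∃ t : Y ⟶ Z, a ≫ t = u ∧ b ≫ streetNerve.map t = v
  ext : ∀ Z : OmegaCat, IsNCat n Z → ∀ t t' : Y ⟶ Z, a ≫ t = a ≫ t' →
    b ≫ streetNerve.map t = b ≫ streetNerve.map t' → t = t'

/-- `Y` is the reflection of `B` in n-categories. -/
structure NUniv (n : ℕ∞) {B Y : OmegaCat} (b : B ⟶ Y) : Prop where
  hY : IsNCat n Y
  desc : ∀ Z : OmegaCat, IsNCat n Z → ∀ v : B ⟶ Z, ∃ t : Y ⟶ Z, b ≫ t = v
  ext : ∀ Z : OmegaCat, IsNCat n Z → ∀ t t' : Y ⟶ Z, b ≫ t = b ≫ t' → t = t'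

/-- `Y` is the free n-category on the simplicial set `L`. -/
structure SUniv (n : ℕ∞) {L : SSet.{0}} {Y : OmegaCat} (b : L ⟶ streetNerve.obj Y) : Prop where
  hY : IsNCat n Y
  desc : ∀ Z : OmegaCat, IsNCat n Z → ∀ v : L ⟶ streetNerve.obj Z,
    ∃ t : Y ⟶ Z, b ≫ streetNerve.map t = v
  ext : ∀ Z : OmegaCat, IsNCat n Z → ∀ t t' : Y ⟶ Z,
    b ≫ streetNerve.map t = b ≫ streetNerve.map t' → t = t'

variable {n : ℕ∞}

theorem exists_nPush {A X B : OmegaCat} (hX : IsNCat n X) (g : A ⟶ X) (j : A ⟶ B) :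
    ∃ (Y : OmegaCat) (a : X ⟶ Y) (b : B ⟶ Y), NPush n g j a b := by
  obtain ⟨Q, η, h⟩ := omc_trunc n (pushout g j)
  refine ⟨Q.obj, pushout.inl g j ≫ η, pushout.inr g j ≫ η, hX, Q.property,
    pushout.condition_assoc η, fun Z hZ u v w => ?_, fun Z hZ t t' h1 h2 => ?_⟩
  · obtain ⟨t, ht⟩ := (h ⟨Z, hZ⟩).2 (pushout.desc u v w)
    have ht' : η ≫ t.hom = pushout.desc u v w := ht
    exact ⟨t.hom, by rw [Category.assoc, ht', pushout.inl_desc],
      by rw [Category.assoc, ht', pushout.inr_desc]⟩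
  · exact congrArg (fun f => f.hom) ((h ⟨Z, hZ⟩).1 (a₁ := ObjectProperty.homMk t)
      (a₂ := ObjectProperty.homMk t') (pushout.hom_ext
        ((Category.assoc _ _ _).symm.trans (h1.trans (Category.assoc _ _ _)))
        ((Category.assoc _ _ _).symm.trans (h2.trans (Category.assoc _ _ _)))))

theorem sPush_iff {c : SSet.{0} ⥤ NCat n} (adj : c ⊣ nerveN n) {K L : SSet.{0}} {X Y : NCat n}
    (g : c.obj K ⟶ X) (i : K ⟶ L) (a : X ⟶ Y) (b : c.obj L ⟶ Y) :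
    SPush n (X := X.obj) (Y := Y.obj) (adj.homEquiv _ _ g) i a.hom (adj.homEquiv _ _ b) ↔
      IsPushout g (c.map i) a b := by
  have e1 : ∀ {M : SSet.{0}} {U V : NCat n} (f : c.obj M ⟶ U) (u : U ⟶ V),
      adj.homEquiv _ _ f ≫ streetNerve.map u.hom = adj.homEquiv _ _ (f ≫ u) :=
    fun f u => (adj.homEquiv_naturality_right f u).symm
  have e : ∀ {Z : NCat n} (u : X ⟶ Z) (v : c.obj L ⟶ Z),
      adj.homEquiv _ _ g ≫ streetNerve.map u.hom = i ≫ adj.homEquiv _ _ v ↔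
        g ≫ u = c.map i ≫ v := fun u v => by
    rw [e1, ← adj.homEquiv_naturality_left]
    exact (adj.homEquiv _ _).injective.eq_iff
  constructor
  · intro h
    have k : ∀ s : PushoutCocone g (c.map i), ∃ t : Y ⟶ s.pt, a ≫ t = s.inl ∧ b ≫ t = s.inr := by
      intro s
      obtain ⟨t, k1, k2⟩ := h.desc s.pt.obj s.pt.property s.inl.hom (adj.homEquiv _ _ s.inr)
        ((e _ _).2 s.condition)
      exact ⟨ObjectProperty.homMk t, ObjectProperty.hom_ext _ k1,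
        (adj.homEquiv _ _).injective ((e1 b (ObjectProperty.homMk t)).symm.trans k2)⟩
    choose t k1 k2 using k
    refine ⟨⟨(e a b).1 h.w⟩, ⟨PushoutCocone.IsColimit.mk _ t k1 k2 fun s m h1 h2 => ?_⟩⟩
    refine ObjectProperty.hom_ext _ (h.ext s.pt.obj s.pt.property _ _
      (congrArg (fun f => f.hom) (h1.trans (k1 s).symm)) ?_)
    exact (e1 b m).trans ((congrArg _ (h2.trans (k2 s).symm)).trans (e1 b (t s)).symm)
  · intro h
    refine ⟨X.property, Y.property, (e a b).2 h.w, fun Z hZ u v w => ?_,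
      fun Z hZ t t' k1 k2 => ?_⟩
    · obtain ⟨v, rfl⟩ := (adj.homEquiv L ⟨Z, hZ⟩).surjective v
      have w' := (e (Z := ⟨Z, hZ⟩) (ObjectProperty.homMk u) v).1 w
      exact ⟨(h.desc _ v w').hom, congrArg (fun f => f.hom) (h.inl_desc _ v w'),
        (e1 b _).trans (congrArg _ (h.inr_desc _ v w'))⟩
    · exact congrArg (fun f => f.hom) (h.hom_ext (W := ⟨Z, hZ⟩) (k := ObjectProperty.homMk t)
        (l := ObjectProperty.homMk t') (ObjectProperty.hom_ext _ k1) ((adj.homEquiv _ _).injective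
          ((e1 (V := ⟨Z, hZ⟩) b (ObjectProperty.homMk t)).symm.trans
            (k2.trans (e1 (V := ⟨Z, hZ⟩) b (ObjectProperty.homMk t'))))))

theorem exists_sPush {K L : SSet.{0}} {X : OmegaCat} (hX : IsNCat n X)
    (g : K ⟶ streetNerve.obj X) (i : K ⟶ L) :
    ∃ (Y : OmegaCat) (a : X ⟶ Y) (b : L ⟶ streetNerve.obj Y), SPush n g i a b := by
  obtain ⟨c, ⟨adj⟩⟩ := exists_leftAdjoint n
  obtain ⟨g, rfl⟩ := (adj.homEquiv K ⟨X, hX⟩).surjective g
  exact ⟨_, _, _, (sPush_iff adj (X := ⟨X, hX⟩) g i _ _).2 (IsPushout.of_hasPushout g (c.map i))⟩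

/-- Cancellation: the right square of a composite. -/
theorem NPush.of_comp {A X B B' Y Y' : OmegaCat} {g : A ⟶ X} {j : A ⟶ B} {j' : B ⟶ B'}
    {a : X ⟶ Y} {b : B ⟶ Y} {a'' : X ⟶ Y'} {b' : B' ⟶ Y'} (h : NPush n g j a b)
    (h' : NPush n g (j ≫ j') a'' b') :
    ∃ a' : Y ⟶ Y', a ≫ a' = a'' ∧ NPush n b j' a' b' := by
  obtain ⟨a', h1, h2⟩ := h.desc Y' h'.hY a'' (j' ≫ b') (by rw [h'.w, Category.assoc])
  refine ⟨a', h1, h.hY, h'.hY, h2, fun Z hZ u v w => ?_, fun Z hZ t t' k1 k2 => ?_⟩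
  · obtain ⟨t, k1, k2⟩ := h'.desc Z hZ (a ≫ u) v
      (by rw [← Category.assoc, h.w, Category.assoc, w, Category.assoc])
    exact ⟨t, h.ext Z hZ _ _ (by rw [← Category.assoc, h1, k1])
      (by rw [← Category.assoc, h2, Category.assoc, k2, w]), k2⟩
  · exact h'.ext Z hZ t t' (by rw [← h1, Category.assoc, k1, Category.assoc]) k2

theorem SPush.of_comp {K L M : SSet.{0}} {X Y Y' : OmegaCat} {g : K ⟶ streetNerve.obj X}
    {i : K ⟶ L} {i' : L ⟶ M} {a : X ⟶ Y} {b : L ⟶ streetNerve.obj Y} {a'' : X ⟶ Y'}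
    {b' : M ⟶ streetNerve.obj Y'} (h : SPush n g i a b) (h' : SPush n g (i ≫ i') a'' b') :
    ∃ a' : Y ⟶ Y', a ≫ a' = a'' ∧ SPush n b i' a' b' := by
  obtain ⟨a', h1, h2⟩ := h.desc Y' h'.hY a'' (i' ≫ b') (by rw [h'.w, Category.assoc])
  refine ⟨a', h1, h.hY, h'.hY, h2, fun Z hZ u v w => ?_, fun Z hZ t t' k1 k2 => ?_⟩
  · obtain ⟨t, k1, k2⟩ := h'.desc Z hZ (a ≫ u) v
      (by rw [Functor.map_comp, ← Category.assoc, h.w, Category.assoc, w, Category.assoc])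
    exact ⟨t, h.ext Z hZ _ _ (by rw [← Category.assoc, h1, k1])
      (by rw [Functor.map_comp, ← Category.assoc, h2, Category.assoc, k2, w]), k2⟩
  · exact h'.ext Z hZ t t' (by rw [← h1, Category.assoc, k1, Category.assoc]) k2

theorem SPush.paste {K L K' L' : SSet.{0}} {t : K ⟶ K'} {i : K ⟶ L} {i' : K' ⟶ L'}
    {t' : L ⟶ L'} (hp : IsPushout t i i' t') {X Y : OmegaCat} {g : K' ⟶ streetNerve.obj X}
    {a : X ⟶ Y} {b : L' ⟶ streetNerve.obj Y} (h : SPush n g i' a b) :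
    SPush n (t ≫ g) i a (t' ≫ b) := by
  refine ⟨h.hX, h.hY, by rw [Category.assoc, h.w, ← Category.assoc, hp.w, Category.assoc],
    fun Z hZ u v w => ?_, fun Z hZ s s' k1 k2 => ?_⟩
  · rw [Category.assoc] at w
    obtain ⟨s, k1, k2⟩ := h.desc Z hZ u (hp.desc _ v w) (hp.inl_desc _ _ _).symm
    exact ⟨s, k1, by rw [Category.assoc, k2, hp.inr_desc]⟩
  · refine h.ext Z hZ s s' k1 (hp.hom_ext ?_ (by simpa only [Category.assoc] using k2))
    rw [← Category.assoc, ← Category.assoc, ← h.w, Category.assoc, Category.assoc,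
      ← Functor.map_comp, ← Functor.map_comp, k1]

theorem NPush.isIso {A X B Y : OmegaCat} {g : A ⟶ X} {j : A ⟶ B} {a : X ⟶ Y} {b : B ⟶ Y}
    (h : NPush n g j a b) [IsIso j] : IsIso a := by
  obtain ⟨t, h1, h2⟩ := h.desc X h.hX (𝟙 X) (inv j ≫ g) (by simp)
  refine ⟨t, h1, h.ext Y h.hY _ _ (by rw [← Category.assoc, h1]; simp) ?_⟩
  rw [← Category.assoc, h2, Category.assoc, h.w]
  simp

theorem SPush.isIso {K L : SSet.{0}} {X Y : OmegaCat} {g : K ⟶ streetNerve.obj X} {i : K ⟶ L}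
    {a : X ⟶ Y} {b : L ⟶ streetNerve.obj Y} (h : SPush n g i a b) [IsIso i] : IsIso a := by
  obtain ⟨t, h1, h2⟩ := h.desc X h.hX (𝟙 X) (inv i ≫ g) (by simp)
  refine ⟨t, h1, h.ext Y h.hY _ _ (by rw [← Category.assoc, h1]; simp) ?_⟩
  rw [Functor.map_comp, ← Category.assoc, h2, Category.assoc, h.w]
  simp

/-- A pushout along empty omega-categories is a reflection. -/
theorem NPush.nUniv {A X B Y : OmegaCat} {g : A ⟶ X} {j : A ⟶ B} {a : X ⟶ Y} {b : B ⟶ Y}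
    (h : NPush n g j a b) (hX : IsEmpty X.C) : NUniv n b := by
  refine ⟨h.hY, fun Z hZ v => ?_, fun Z hZ t t' k =>
    h.ext Z hZ t t' (OmegaCat.hom_ext fun x => hX.elim x) k⟩
  obtain ⟨t, -, k⟩ := h.desc Z hZ
    ⟨fun x => hX.elim x, fun _ _ x => hX.elim x, fun _ x => hX.elim x⟩ v
    (OmegaCat.hom_ext fun x => hX.elim (g.toFun x))
  exact ⟨t, k⟩

theorem sPush_iff_nPush {A B : Type} [PartialOrder A] [PartialOrder B] (j : A →o B)
    {X Y : OmegaCat} (g : OP A ⟶ X) (a : X ⟶ Y) (b : OP B ⟶ Y) :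
    SPush n (unitP A ≫ streetNerve.map g) (nmap j) a (unitP B ≫ streetNerve.map b) ↔
      NPush n g (opMap j) a b := by
  have e : ∀ {Z : OmegaCat} (u : X ⟶ Z) (v : OP B ⟶ Z),
      (unitP A ≫ streetNerve.map g) ≫ streetNerve.map u = nmap j ≫ unitP B ≫ streetNerve.map v ↔
        g ≫ u = opMap j ≫ v := fun u v => by
    rw [← Category.assoc (nmap j), unitP_nat, Category.assoc, Category.assoc, ← Functor.map_comp,
      ← Functor.map_comp]
    exact ⟨unitP_ext, fun h => by rw [h]⟩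
  have e' : ∀ {Z : OmegaCat} (t : Y ⟶ Z), (unitP B ≫ streetNerve.map b) ≫ streetNerve.map t =
      unitP B ≫ streetNerve.map (b ≫ t) := fun t => by rw [Category.assoc, Functor.map_comp]
  refine ⟨fun h => ⟨h.hX, h.hY, (e a b).1 h.w, fun Z hZ u v w => ?_, fun Z hZ t t' k1 k2 =>
    h.ext Z hZ t t' k1 (by rw [e', e', k2])⟩, fun h => ⟨h.hX, h.hY, (e a b).2 h.w,
      fun Z hZ u v w => ?_, fun Z hZ t t' k1 k2 =>
        h.ext Z hZ t t' k1 (unitP_ext (by rwa [e', e'] at k2))⟩⟩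
  · obtain ⟨t, k1, k2⟩ := h.desc Z hZ u _ ((e u v).2 w)
    exact ⟨t, k1, unitP_ext (by rwa [e'] at k2)⟩
  · obtain ⟨v, rfl⟩ := unitP_desc v
    obtain ⟨t, k1, k2⟩ := h.desc Z hZ u v ((e u v).1 w)
    exact ⟨t, k1, by rw [e', k2]⟩

theorem sUniv_iff_nUniv {B : Type} [PartialOrder B] {Y : OmegaCat} (b : OP B ⟶ Y) :
    SUniv n (unitP B ≫ streetNerve.map b) ↔ NUniv n b := by
  have e' : ∀ {Z : OmegaCat} (t : Y ⟶ Z), (unitP B ≫ streetNerve.map b) ≫ streetNerve.map t =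
      unitP B ≫ streetNerve.map (b ≫ t) := fun t => by rw [Category.assoc, Functor.map_comp]
  refine ⟨fun h => ⟨h.hY, fun Z hZ v => ?_, fun Z hZ t t' k =>
    h.ext Z hZ t t' (by rw [e', e', k])⟩, fun h => ⟨h.hY, fun Z hZ v => ?_, fun Z hZ t t' k =>
      h.ext Z hZ t t' (unitP_ext (by rwa [e', e'] at k))⟩⟩
  · obtain ⟨t, k⟩ := h.desc Z hZ (unitP B ≫ streetNerve.map v)
    exact ⟨t, unitP_ext (by rwa [e'] at k)⟩
  · obtain ⟨v, rfl⟩ := unitP_desc v
    obtain ⟨t, k⟩ := h.desc Z hZ v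
    exact ⟨t, by rw [e', k]⟩

theorem sUniv_unit {c : SSet.{0} ⥤ NCat n} (adj : c ⊣ nerveN n) (K : SSet.{0}) :
    SUniv n (Y := (c.obj K).obj) (adj.unit.app K) := by
  refine ⟨(c.obj K).property, fun Z hZ v => ?_, fun Z hZ t t' k => ?_⟩
  · obtain ⟨v, rfl⟩ := (adj.homEquiv K ⟨Z, hZ⟩).surjective v
    exact ⟨v.hom, (adj.homEquiv_unit _ _ v).symm⟩
  · have e : ∀ t : (c.obj K).obj ⟶ Z, adj.homEquiv K ⟨Z, hZ⟩ (ObjectProperty.homMk t) =
        adj.unit.app K ≫ streetNerve.map t := fun t =>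
      adj.homEquiv_unit K ⟨Z, hZ⟩ (ObjectProperty.homMk t)
    exact congrArg (fun f => f.hom) ((adj.homEquiv K ⟨Z, hZ⟩).injective
      ((e t).trans (k.trans (e t').symm)))

/-- The empty omega-category. -/
def emptyO : OmegaCat where
  C := Empty
  bd _ _ x := x
  comp _ x _ := x
  bd_bd_le _ _ _ _ x := x.elim
  bd_bd_lt _ _ _ _ x := x.elim
  src_comp _ x := x.elim
  tgt_comp _ x := x.elim
  bd_comp_gt _ _ _ x := x.elim
  id_comp _ x := x.elim
  comp_id _ x := x.elim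
  assoc _ x := x.elim
  exchange _ _ x := x.elim
  fin x := x.elim

/-- The Street nerve of an empty omega-category is empty. -/
lemma isEmpty_nerve {X : OmegaCat} (hX : IsEmpty X.C) (m : SimplexCategoryᵒᵖ) :
    IsEmpty ((streetNerve.obj X).obj m) := by
  exact ⟨fun x => hX.elim ((nvVal x).toFun (vtx ⟨0⟩))⟩

/-- The Street nerve of an omega-category with exactly one cell is a point. -/
lemma isIso_terminal_nerve {X : OmegaCat} (h : Nonempty X.C) (h' : Subsingleton X.C) :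
    IsIso (terminal.from (streetNerve.obj X)) := by
  obtain ⟨x⟩ := h
  have k : ∀ m, Subsingleton ((streetNerve.obj X).obj m) := fun m =>
    ⟨fun a b => nv_ext (OmegaCat.hom_ext fun _ => h'.elim _ _)⟩
  refine isIso_of_isTerminal (IsTerminal.ofUniqueHom (Y := streetNerve.obj X) (fun K =>
    { app := fun m => TypeCat.ofHom fun _ =>
        nvMk ⟨fun _ => x, fun _ _ _ => h'.elim _ _, fun _ _ _ _ => h'.elim _ _⟩
      naturality := fun _ _ _ => by ext; exact (k _).elim _ _ }) fun K f => ?_) terminalIsTerminal _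
  ext
  exact (k _).elim _ _

end Vale.Agent.P213
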