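import Vale.Agent.P213.Classes

/-!
P213, omega-categories part 1: elementary lemmas, substructures.
-/

open CategoryTheory

namespace Vale.Agent.P213

namespace PreOmega

variable (X : PreOmega)

/-- The cell `x` has dimension at most `n`. -/
def Dim (n : ℕ) (x : X.C) : Prop := X.bd false n x = x

/-- `x` and `y` are composable along dimension `n`. -/
def Cp (n : ℕ) (x y : X.C) : Prop := X.bd true n x = X.bd false n y

variable {X}

lemma Dim.bd_eq {n : ℕ} {x : X.C} (h : X.Dim n x) (α : Bool) {m : ℕ} (hm : n ≤ m) :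
    X.bd α m x = x := by
  have := X.bd_bd_le false α n m x hm
  rwa [h] at this

lemma Dim.mono {n m : ℕ} {x : X.C} (h : X.Dim n x) (hm : n ≤ m) : X.Dim m x := h.bd_eq _ hm

lemma dim_bd (α : Bool) (n : ℕ) (x : X.C) : X.Dim n (X.bd α n x) :=
  X.bd_bd_le _ _ _ _ _ le_rfl

lemma dim_of_bd_eq {α : Bool} {n : ℕ} {x : X.C} (h : X.bd α n x = x) : X.Dim n x :=
  h ▸ dim_bd α n x

lemma Dim.bd {n : ℕ} {x : X.C} (h : X.Dim n x) (α : Bool) (m : ℕ) : X.Dim n (X.bd α m x) := by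
  rcases le_total n m with hm | hm
  · rw [h.bd_eq α hm]; exact h
  · exact (dim_bd α m x).mono hm

lemma bd_bd_self (α β : Bool) (n : ℕ) (x : X.C) : X.bd β n (X.bd α n x) = X.bd α n x :=
  X.bd_bd_le _ _ _ _ _ le_rfl

lemma Cp.bd_lt {n m : ℕ} {x y : X.C} (h : X.Cp n x y) (hm : m < n) (β : Bool) :
    X.bd β m x = X.bd β m y := by
  rw [← X.bd_bd_lt true β m n x hm, h, X.bd_bd_lt _ _ _ _ _ hm]

lemma Cp.bd_comp_lt {n m : ℕ} {x y : X.C} (h : X.Cp n x y) (hm : m < n) (β : Bool) :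
    X.bd β m (X.comp n x y) = X.bd β m x := by
  rw [← X.bd_bd_lt false β m n _ hm, X.src_comp n _ _ h, X.bd_bd_lt _ _ _ _ _ hm]

lemma Cp.bd_gt {n m : ℕ} {x y : X.C} (h : X.Cp n x y) (hm : n < m) (α β : Bool) :
    X.Cp n (X.bd α m x) (X.bd β m y) := by
  unfold Cp
  rw [X.bd_bd_lt _ _ _ _ _ hm, X.bd_bd_lt _ _ _ _ _ hm]; exact h

lemma Cp.bd_gt_left {n m : ℕ} {x y : X.C} (h : X.Cp n x y) (hm : n < m) (α : Bool) :
    X.Cp n (X.bd α m x) y := by
  unfold Cp
  rw [X.bd_bd_lt _ _ _ _ _ hm]; exact h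

lemma Cp.bd_gt_right {n m : ℕ} {x y : X.C} (h : X.Cp n x y) (hm : n < m) (α : Bool) :
    X.Cp n x (X.bd α m y) := by
  unfold Cp
  rw [X.bd_bd_lt _ _ _ _ _ hm]; exact h

lemma Dim.comp_left {n m : ℕ} {x y : X.C} (hx : X.Dim n x) (hm : n ≤ m) (h : X.Cp m x y) :
    X.comp m x y = y := by
  have : x = X.bd false m y := by rw [← h, hx.bd_eq _ hm]
  rw [this, X.id_comp]

lemma Dim.comp_right {n m : ℕ} {x y : X.C} (hy : X.Dim n y) (hm : n ≤ m) (h : X.Cp m x y) :
    X.comp m x y = x := by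
  have : y = X.bd true m x := by rw [h, hy.bd_eq _ hm]
  rw [this, X.comp_id]

lemma Dim.comp {n m : ℕ} {x y : X.C} (hx : X.Dim n x) (hy : X.Dim n y) (h : X.Cp m x y) :
    X.Dim n (X.comp m x y) := by
  rcases lt_or_ge m n with hm | hm
  · unfold Dim
    rw [X.bd_comp_gt _ _ _ _ _ hm h, hx, hy]
  · rw [hx.comp_left hm h]; exact hy

lemma Dim.comp_self {n m : ℕ} {x : X.C} (hx : X.Dim n x) (hm : n ≤ m) : X.comp m x x = x :=
  hx.comp_left hm (by unfold Cp; rw [hx.bd_eq _ hm, hx.bd_eq _ hm])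

/-- A composite along `j < m` as an `m`-composite of two whiskerings. -/
lemma Cp.whisker {j m : ℕ} {x y : X.C} (h : X.Cp j x y) (hm : j < m) :
    X.comp j x y = X.comp m (X.comp j x (X.bd false m y)) (X.comp j (X.bd true m x) y) := by
  rw [← X.exchange j m x (X.bd true m x) (X.bd false m y) y hm (bd_bd_self _ _ _ _).symm
    (bd_bd_self _ _ _ _) (h.bd_gt_right hm false), X.comp_id, X.id_comp]

lemma Cp.whisker_cp {j m : ℕ} {x y : X.C} (h : X.Cp j x y) (hm : j < m) :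
    X.Cp m (X.comp j x (X.bd false m y)) (X.comp j (X.bd true m x) y) := by
  unfold Cp
  rw [X.bd_comp_gt _ _ _ _ _ hm (h.bd_gt_right hm false),
    X.bd_comp_gt _ _ _ _ _ hm (h.bd_gt_left hm true), bd_bd_self, bd_bd_self]

lemma Hom.map_dim {Y : PreOmega} (f : X.Hom Y) {n : ℕ} {x : X.C} (h : X.Dim n x) :
    Y.Dim n (f.toFun x) := by
  unfold Dim
  rw [← f.map_bd, h]

lemma Hom.map_cp {Y : PreOmega} (f : X.Hom Y) {n : ℕ} {x y : X.C} (h : X.Cp n x y) :
    Y.Cp n (f.toFun x) (f.toFun y) := by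
  unfold Cp
  rw [← f.map_bd, ← f.map_bd, h]

open Classical in
/-- Composition on a subtype. -/
noncomputable def subComp (p : X.C → Prop)
    (hcomp : ∀ n x y, X.Cp n x y → p x → p y → p (X.comp n x y)) (n : ℕ) (x y : {x // p x}) :
    {x // p x} :=
  if h : X.Cp n x.1 y.1 then ⟨X.comp n x.1 y.1, hcomp n _ _ h x.2 y.2⟩ else x

lemma subComp_val (p : X.C → Prop)
    (hcomp : ∀ n x y, X.Cp n x y → p x → p y → p (X.comp n x y)) (n : ℕ) (x y : {x // p x})
    (h : X.Cp n x.1 y.1) : (subComp p hcomp n x y).1 = X.comp n x.1 y.1 := by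
  rw [subComp, dif_pos h]

variable (X) in
/-- The substructure on a set of cells closed under the operations. -/
@[reducible]
noncomputable def sub (p : X.C → Prop) (hbd : ∀ α n x, p x → p (X.bd α n x))
    (hcomp : ∀ n x y, X.Cp n x y → p x → p y → p (X.comp n x y)) : PreOmega :=
  X.induced {x // p x} Subtype.val Subtype.val_injective
    (fun α n x => ⟨X.bd α n x.1, hbd α n x.1 x.2⟩) (subComp p hcomp) (fun _ _ _ => rfl)
    (subComp_val p hcomp)

variable (X) in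
/-- The omega-category of finite dimensional cells. -/
@[reducible]
noncomputable def finPart : OmegaCat where
  toPreOmega := X.sub (fun x => ∃ k, X.Dim k x) (fun α n x _ => ⟨n, dim_bd α n x⟩)
    (fun n x y h hx hy => X.fin_comp n x y h hx hy)
  fin x := by
    obtain ⟨k, hk⟩ := x.2
    exact ⟨k, Subtype.ext hk⟩

end PreOmega

namespace OmegaCat

variable {X Y Z : OmegaCat}

@[simp] lemma id_toFun (x : X.C) : (𝟙 X : X ⟶ X).toFun x = x := rfl

@[simp] lemma comp_toFun (f : X ⟶ Y) (g : Y ⟶ Z) (x : X.C) :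
    (f ≫ g).toFun x = g.toFun (f.toFun x) := rfl

@[ext] lemma hom_ext {f g : X ⟶ Y} (h : ∀ x, f.toFun x = g.toFun x) : f = g :=
  PreOmega.Hom.ext (funext h)

lemma exists_dim (x : X.C) : ∃ n, X.Dim n x := X.fin x

lemma isIso_of_bijective (f : X ⟶ Y) (hf : Function.Bijective f.toFun) : IsIso f := by
  let e := Equiv.ofBijective _ hf
  have he : ∀ y, f.toFun (e.symm y) = y := e.apply_symm_apply
  refine ⟨⟨⟨e.symm, fun α n y => hf.1 ?_, fun n y y' h => hf.1 ?_⟩, ?_, ?_⟩⟩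
  · rw [f.map_bd, he, he]
  · rw [f.map_comp, he, he, he]
    apply hf.1
    rw [f.map_bd, f.map_bd, he, he, h]
  · ext x; exact e.symm_apply_apply x
  · ext y; exact he y

variable (X) in
/-- The sub-omega-category on a set of cells closed under the operations. -/
@[reducible]
noncomputable def sub (p : X.C → Prop) (hbd : ∀ α n x, p x → p (X.bd α n x))
    (hcomp : ∀ n x y, X.Cp n x y → p x → p y → p (X.comp n x y)) : OmegaCat where
  toPreOmega := X.toPreOmega.sub p hbd hcomp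
  fin x := by
    obtain ⟨k, hk⟩ := X.fin x.1
    exact ⟨k, Subtype.ext hk⟩

section
variable (p : X.C → Prop) (hbd : ∀ α n x, p x → p (X.bd α n x))
  (hcomp : ∀ n x y, X.Cp n x y → p x → p y → p (X.comp n x y))

noncomputable def subι : X.sub p hbd hcomp ⟶ X where
  toFun x := x.1
  map_bd _ _ _ := rfl
  map_comp n x y h := PreOmega.subComp_val p hcomp n x y (congrArg Subtype.val h)

@[simp] lemma subι_toFun (x : (X.sub p hbd hcomp).C) : (subι p hbd hcomp).toFun x = x.1 := rfl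

noncomputable def subLift (f : Y ⟶ X) (hf : ∀ y, p (f.toFun y)) : Y ⟶ X.sub p hbd hcomp where
  toFun y := ⟨f.toFun y, hf y⟩
  map_bd α n y := Subtype.ext (f.map_bd α n y)
  map_comp n y y' h := Subtype.ext ((f.map_comp n y y' h).trans
    (PreOmega.subComp_val p hcomp n ⟨_, hf y⟩ ⟨_, hf y'⟩ (f.map_cp h)).symm)

@[simp] lemma subLift_toFun (f : Y ⟶ X) (hf : ∀ y, p (f.toFun y)) (y : Y.C) :
    ((subLift p hbd hcomp f hf).toFun y).1 = f.toFun y := rfl

lemma isNCat_sub {n : ℕ∞} (h : IsNCat n X) : IsNCat n (X.sub p hbd hcomp) := fun x => by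
  obtain ⟨k, hk, hx⟩ := h x.1
  exact ⟨k, hk, Subtype.ext hx⟩

end

end OmegaCat

@[simp] lemma nuMap_toFun {K L : BADC} (f : K ⟶ L) (x : Cell K) :
    (nuMap f).toFun x = Cell.map f x := rfl

lemma nuMap_comp {K L M : BADC} (f : K ⟶ L) (g : L ⟶ M) : nuMap (f ≫ g) = nuMap f ≫ nuMap g :=
  rfl

lemma nuMap_id (K : BADC) : nuMap (𝟙 K) = 𝟙 (nuObj K) := rfl

@[simp] lemma Cell.map_val {K L : BADC} (f : K ⟶ L) (x : Cell K) :
    (Cell.map f x).val = rmap f x.val := rfl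

@[simp] lemma Cell.bd_val {K : BADC} (α : Bool) (n : ℕ) (x : Cell K) :
    ((nuObj K).bd α n x).val = rbd α n x.val := rfl

lemma Cell.map_map {K L M : BADC} (f : K ⟶ L) (g : L ⟶ M) (x : Cell K) :
    Cell.map g (Cell.map f x) = Cell.map (f ≫ g) x := rfl

@[simp] lemma BADC.comp_f {K L M : BADC} (f : K ⟶ L) (g : L ⟶ M) (x : K.B →₀ ℤ) :
    (f ≫ g).f x = g.f (f.f x) := rfl

@[simp] lemma BADC.id_f {K : BADC} (x : K.B →₀ ℤ) : (𝟙 K : K ⟶ K).f x = x := rfl

lemma BADC.hom_ext {K L : BADC} {f g : K ⟶ L}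
    (h : ∀ b, f.f (Finsupp.single b 1) = g.f (Finsupp.single b 1)) : f = g :=
  BADC.Hom.ext (addHom_ext h)

@[simp] lemma BADC.homMk_single {K L : BADC} (g : K.B → (L.B →₀ ℤ)) (h₁ h₂ h₃ h₄) (b : K.B) :
    (BADC.homMk g h₁ h₂ h₃ h₄).f (Finsupp.single b 1) = g b := by
  simp [BADC.homMk]

/-- The functor `O_m ⟶ X` given by a simplex of the Street nerve. -/
noncomputable def nvVal {X : OmegaCat} {n : SimplexCategoryᵒᵖ}
    (x : (streetNerve.obj X).obj n) :
    nuObj (chainsObj (ULift.{0} (Fin (n.unop.len + 1)))) ⟶ X := x.down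

noncomputable def nvMk {X : OmegaCat} {n : SimplexCategoryᵒᵖ}
    (f : nuObj (chainsObj (ULift.{0} (Fin (n.unop.len + 1)))) ⟶ X) :
    (streetNerve.obj X).obj n := ULift.up f

@[simp] lemma nvVal_nvMk {X : OmegaCat} {n : SimplexCategoryᵒᵖ}
    (f : nuObj (chainsObj (ULift.{0} (Fin (n.unop.len + 1)))) ⟶ X) : nvVal (nvMk f) = f := rfl

lemma nv_ext {X : OmegaCat} {n : SimplexCategoryᵒᵖ} {x y : (streetNerve.obj X).obj n}
    (h : nvVal x = nvVal y) : x = y := ULift.down_injective h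

lemma nvVal_map {X : OmegaCat} {n m : SimplexCategoryᵒᵖ} (a : n ⟶ m)
    (x : (streetNerve.obj X).obj n) :
    nvVal ((streetNerve.obj X).map a x) =
      nuMap (chainsMap (SimplexCategory.toPartOrd.{0}.map a.unop).hom) ≫ nvVal x := rfl

lemma nvVal_app {X Y : OmegaCat} (f : X ⟶ Y) {n : SimplexCategoryᵒᵖ}
    (x : (streetNerve.obj X).obj n) :
    nvVal ((streetNerve.map f).app n x) = nvVal x ≫ f := rfl

end Vale.Agent.P213
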