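import Vale.Agent.P213.OmBasic

/-!
P213, omega-categories part 2: limits.

Plan. For `F : J ⥤ OmegaCat`, the product `PreOmega` on `∀ j, (F.obj j).C` (componentwise
operations), its `sub` of compatible families and then `finPart` give the limit (a functor out of
an omega-category lands in finite dimensional families, since `Dim k` is preserved). If every
`F.obj j` is an n-category, so is the limit (for `n = ⊤` trivially, for finite `n` use
`Dim.mono`); then `ObjectProperty.IsClosedUnderLimitsOfShape` / `hasLimitsOfShape_of_closed`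
style lemmas of Mathlib for full subcategories.
-/

open CategoryTheory Limits

namespace Vale.Agent.P213

/-- The product of a family. -/
@[reducible]
def omlPi {J : Type} (X : J → OmegaCat) : PreOmega where
  C := ∀ j, (X j).C
  bd α n x j := (X j).bd α n (x j)
  comp n x y j := (X j).comp n (x j) (y j)
  bd_bd_le α β m n _ h := funext fun j => (X j).bd_bd_le α β m n _ h
  bd_bd_lt α β m n _ h := funext fun j => (X j).bd_bd_lt α β m n _ h
  src_comp n _ _ h := funext fun j => (X j).src_comp n _ _ (congrFun h j)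
  tgt_comp n _ _ h := funext fun j => (X j).tgt_comp n _ _ (congrFun h j)
  bd_comp_gt α m n _ _ hm h := funext fun j => (X j).bd_comp_gt α m n _ _ hm (congrFun h j)
  id_comp n _ := funext fun j => (X j).id_comp n _
  comp_id n _ := funext fun j => (X j).comp_id n _
  assoc n _ _ _ h h' := funext fun j => (X j).assoc n _ _ _ (congrFun h j) (congrFun h' j)
  exchange m n _ _ _ _ hm h1 h2 h3 := funext fun j =>
    (X j).exchange m n _ _ _ _ hm (congrFun h1 j) (congrFun h2 j) (congrFun h3 j)

section

variable {J : Type} [SmallCategory J] (F : J ⥤ OmegaCat)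

/-- Compatible families of finite dimension. -/
def omlP (x : (omlPi F.obj).C) : Prop :=
  (∀ (i j : J) (f : i ⟶ j), (F.map f).toFun (x i) = x j) ∧ ∃ k, (omlPi F.obj).Dim k x

lemma omlP_bd (α : Bool) (n : ℕ) (x : (omlPi F.obj).C) (h : omlP F x) :
    omlP F ((omlPi F.obj).bd α n x) :=
  ⟨fun i j f => ((F.map f).map_bd α n _).trans (congrArg _ (h.1 i j f)), n, PreOmega.dim_bd α n x⟩

lemma omlP_comp (n : ℕ) (x y : (omlPi F.obj).C) (h : (omlPi F.obj).Cp n x y) (hx : omlP F x)
    (hy : omlP F y) : omlP F ((omlPi F.obj).comp n x y) :=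
  ⟨fun i j f => ((F.map f).map_comp n _ _ (congrFun h i)).trans
    (congrArg₂ _ (hx.1 i j f) (hy.1 i j f)), (omlPi F.obj).fin_comp n x y h hx.2 hy.2⟩

/-- The limit. -/
@[reducible]
noncomputable def omlObj : OmegaCat where
  toPreOmega := (omlPi F.obj).sub (omlP F) (omlP_bd F) (omlP_comp F)
  fin x := by
    obtain ⟨k, hk⟩ := x.2.2
    exact ⟨k, Subtype.ext hk⟩

/-- The projections. -/
noncomputable def omlπ (j : J) : omlObj F ⟶ F.obj j where
  toFun x := x.1 j
  map_bd _ _ _ := rfl
  map_comp n x y h :=
    congrFun (PreOmega.subComp_val (omlP F) (omlP_comp F) n x y (congrArg Subtype.val h)) j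

/-- The limit cone. -/
noncomputable def omlCone : Cone F where
  pt := omlObj F
  π := { app := omlπ F
         naturality := fun i j f => OmegaCat.hom_ext fun x => (x.2.1 i j f).symm }

lemma omlP_cone (s : Cone F) (y : s.pt.C) : omlP F fun j => (s.π.app j).toFun y := by
  refine ⟨fun i j f => congrArg (fun g => g.toFun y) (s.w f), ?_⟩
  obtain ⟨k, hk⟩ := s.pt.fin y
  exact ⟨k, funext fun j => (s.π.app j).map_dim hk⟩

/-- The map to the limit. -/
noncomputable def omlLift (s : Cone F) : s.pt ⟶ omlObj F where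
  toFun y := ⟨fun j => (s.π.app j).toFun y, omlP_cone F s y⟩
  map_bd α n y := Subtype.ext (funext fun j => (s.π.app j).map_bd α n y)
  map_comp n y y' h := Subtype.ext ((funext fun j => (s.π.app j).map_comp n y y' h).trans
    (PreOmega.subComp_val (omlP F) (omlP_comp F) n ⟨_, omlP_cone F s y⟩ ⟨_, omlP_cone F s y'⟩
      (funext fun j => (s.π.app j).map_cp h)).symm)

/-- The universal property. -/
noncomputable def omlIsLimit : IsLimit (omlCone F) where
  lift := omlLift F
  fac _ _ := rfl
  uniq _ _ h := OmegaCat.hom_ext fun y => Subtype.ext (funext fun j =>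
    congrArg (fun g => g.toFun y) (h j))

lemma oml_isNCat {n : ℕ∞} (h : ∀ j, IsNCat n (F.obj j)) : IsNCat n (omlObj F) := by
  intro x
  induction n using ENat.recTopCoe with
  | top =>
    obtain ⟨k, hk⟩ := (omlObj F).fin x
    exact ⟨k, le_top, hk⟩
  | coe m =>
    refine ⟨m, le_rfl, Subtype.ext (funext fun j => ?_)⟩
    obtain ⟨k, hk, hx⟩ := h j (x.1 j)
    exact PreOmega.Dim.mono hx (by exact_mod_cast hk)

end

instance : HasLimits OmegaCat :=
  ⟨fun _ _ => ⟨fun F => ⟨⟨_, omlIsLimit F⟩⟩⟩⟩

instance (n : ℕ∞) : HasLimits (NCat n) := by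
  refine ⟨fun J _ => ⟨fun F => ?_⟩⟩
  have := createsLimitFullSubcategoryInclusion' F (omlIsLimit (F ⋙ (IsNCat n).ι))
    (oml_isNCat _ fun j => (F.obj j).property)
  exact hasLimit_of_created F (IsNCat n).ι

end Vale.Agent.P213
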