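import Mathlib

/-!
P213. Strict globular omega-categories, single sorted (Street 1987, Steiner 2004).
`bd false n x` is the n-source and `bd true n x` the n-target of the cell `x`;
`comp n x y` is the n-composite (first `x`, then `y`), meaningful only when
`bd true n x = bd false n y`.
-/

open CategoryTheory

namespace Vale.Agent.P213

/-- All axioms of a strict omega-category except finite dimensionality of cells. -/
structure PreOmega : Type 1 where
  C : Type
  bd : Bool → ℕ → C → C
  comp : ℕ → C → C → C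
  bd_bd_le : ∀ (α β : Bool) (m n : ℕ) (x : C), m ≤ n → bd β n (bd α m x) = bd α m x
  bd_bd_lt : ∀ (α β : Bool) (m n : ℕ) (x : C), m < n → bd β m (bd α n x) = bd β m x
  src_comp : ∀ (n : ℕ) (x y : C), bd true n x = bd false n y →
    bd false n (comp n x y) = bd false n x
  tgt_comp : ∀ (n : ℕ) (x y : C), bd true n x = bd false n y →
    bd true n (comp n x y) = bd true n y
  bd_comp_gt : ∀ (α : Bool) (m n : ℕ) (x y : C), n < m → bd true n x = bd false n y →
    bd α m (comp n x y) = comp n (bd α m x) (bd α m y)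
  id_comp : ∀ (n : ℕ) (x : C), comp n (bd false n x) x = x
  comp_id : ∀ (n : ℕ) (x : C), comp n x (bd true n x) = x
  assoc : ∀ (n : ℕ) (x y z : C), bd true n x = bd false n y → bd true n y = bd false n z →
    comp n (comp n x y) z = comp n x (comp n y z)
  exchange : ∀ (m n : ℕ) (x y x' y' : C), m < n →
    bd true n x = bd false n y → bd true n x' = bd false n y' →
    bd true m x = bd false m x' →
    comp m (comp n x y) (comp n x' y') = comp n (comp m x x') (comp m y y')

/-- A small strict globular omega-category: every cell has a finite dimension. -/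
structure OmegaCat : Type 1 extends PreOmega where
  fin : ∀ x : C, ∃ n : ℕ, bd false n x = x

/-- Strict functors: they preserve sources, targets and composites of composable cells. -/
@[ext]
structure PreOmega.Hom (X Y : PreOmega) : Type where
  toFun : X.C → Y.C
  map_bd : ∀ (α : Bool) (n : ℕ) (x : X.C), toFun (X.bd α n x) = Y.bd α n (toFun x)
  map_comp : ∀ (n : ℕ) (x y : X.C), X.bd true n x = X.bd false n y →
    toFun (X.comp n x y) = Y.comp n (toFun x) (toFun y)

def PreOmega.Hom.id (X : PreOmega) : X.Hom X where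
  toFun x := x
  map_bd _ _ _ := rfl
  map_comp _ _ _ _ := rfl

def PreOmega.Hom.comp {X Y Z : PreOmega} (f : X.Hom Y) (g : Y.Hom Z) : X.Hom Z where
  toFun x := g.toFun (f.toFun x)
  map_bd α n x := by rw [f.map_bd, g.map_bd]
  map_comp n x y h := by
    rw [f.map_comp n x y h, g.map_comp]
    rw [← f.map_bd, ← f.map_bd, h]

instance : Category OmegaCat where
  Hom X Y := X.toPreOmega.Hom Y.toPreOmega
  id X := PreOmega.Hom.id X.toPreOmega
  comp f g := PreOmega.Hom.comp f g

/-- Transport of the axioms along an injective map compatible with the operations. -/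
@[reducible]
def PreOmega.induced (X : PreOmega) (T : Type) (v : T → X.C) (hv : Function.Injective v)
    (bd : Bool → ℕ → T → T) (comp : ℕ → T → T → T)
    (hbd : ∀ α n x, v (bd α n x) = X.bd α n (v x))
    (hcomp : ∀ n x y, X.bd true n (v x) = X.bd false n (v y) →
      v (comp n x y) = X.comp n (v x) (v y)) : PreOmega where
  C := T
  bd := bd
  comp := comp
  bd_bd_le α β m n x h := hv (by rw [hbd, hbd]; exact X.bd_bd_le α β m n _ h)
  bd_bd_lt α β m n x h := hv (by rw [hbd, hbd, hbd]; exact X.bd_bd_lt α β m n _ h)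
  src_comp n x y h := by
    have h' : X.bd true n (v x) = X.bd false n (v y) := by rw [← hbd, ← hbd, h]
    exact hv (by rw [hbd, hbd, hcomp _ _ _ h']; exact X.src_comp n _ _ h')
  tgt_comp n x y h := by
    have h' : X.bd true n (v x) = X.bd false n (v y) := by rw [← hbd, ← hbd, h]
    exact hv (by rw [hbd, hbd, hcomp _ _ _ h']; exact X.tgt_comp n _ _ h')
  bd_comp_gt α m n x y hmn h := by
    have h' : X.bd true n (v x) = X.bd false n (v y) := by rw [← hbd, ← hbd, h]
    have h'' : X.bd true n (v (bd α m x)) = X.bd false n (v (bd α m y)) := by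
      rw [hbd, hbd, X.bd_bd_lt _ _ _ _ _ hmn, X.bd_bd_lt _ _ _ _ _ hmn]; exact h'
    exact hv (by
      rw [hbd, hcomp _ _ _ h', hcomp _ _ _ h'', hbd, hbd]; exact X.bd_comp_gt α m n _ _ hmn h')
  id_comp n x := by
    have h' : X.bd true n (v (bd false n x)) = X.bd false n (v x) := by
      rw [hbd]; exact X.bd_bd_le _ _ _ _ _ le_rfl
    exact hv (by rw [hcomp _ _ _ h', hbd]; exact X.id_comp n _)
  comp_id n x := by
    have h' : X.bd true n (v x) = X.bd false n (v (bd true n x)) := by
      rw [hbd]; exact (X.bd_bd_le _ _ _ _ _ le_rfl).symm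
    exact hv (by rw [hcomp _ _ _ h', hbd]; exact X.comp_id n _)
  assoc n x y z h₁ h₂ := by
    have h₁' : X.bd true n (v x) = X.bd false n (v y) := by rw [← hbd, ← hbd, h₁]
    have h₂' : X.bd true n (v y) = X.bd false n (v z) := by rw [← hbd, ← hbd, h₂]
    have h₃ : X.bd true n (v (comp n x y)) = X.bd false n (v z) := by
      rw [hcomp _ _ _ h₁', X.tgt_comp n _ _ h₁', h₂']
    have h₄ : X.bd true n (v x) = X.bd false n (v (comp n y z)) := by
      rw [hcomp _ _ _ h₂', X.src_comp n _ _ h₂', h₁']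
    exact hv (by
      rw [hcomp _ _ _ h₃, hcomp _ _ _ h₄, hcomp _ _ _ h₁', hcomp _ _ _ h₂']
      exact X.assoc n _ _ _ h₁' h₂')
  exchange m n x y x' y' hmn h₁ h₂ h₃ := by
    have h₁' : X.bd true n (v x) = X.bd false n (v y) := by rw [← hbd, ← hbd, h₁]
    have h₂' : X.bd true n (v x') = X.bd false n (v y') := by rw [← hbd, ← hbd, h₂]
    have h₃' : X.bd true m (v x) = X.bd false m (v x') := by rw [← hbd, ← hbd, h₃]
    have e₁ : ∀ β, X.bd β m (v x) = X.bd β m (v y) := fun β => by
      rw [← X.bd_bd_lt true β m n (v x) hmn, h₁', X.bd_bd_lt _ _ _ _ _ hmn]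
    have e₂ : ∀ β, X.bd β m (v x') = X.bd β m (v y') := fun β => by
      rw [← X.bd_bd_lt true β m n (v x') hmn, h₂', X.bd_bd_lt _ _ _ _ _ hmn]
    have h₄ : X.bd true m (v y) = X.bd false m (v y') := by rw [← e₁, ← e₂, h₃']
    have h₅ : X.bd true m (v (comp n x y)) = X.bd false m (v (comp n x' y')) := by
      rw [hcomp _ _ _ h₁', hcomp _ _ _ h₂',
        ← X.bd_bd_lt false true m n _ hmn, X.src_comp n _ _ h₁', X.bd_bd_lt _ _ _ _ _ hmn,
        ← X.bd_bd_lt false false m n (X.comp n (v x') (v y')) hmn, X.src_comp n _ _ h₂',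
        X.bd_bd_lt _ _ _ _ _ hmn, h₃']
    have h₆ : X.bd true n (v (comp m x x')) = X.bd false n (v (comp m y y')) := by
      rw [hcomp _ _ _ h₃', hcomp _ _ _ h₄, X.bd_comp_gt _ _ _ _ _ hmn h₃',
        X.bd_comp_gt _ _ _ _ _ hmn h₄, h₁', h₂']
    exact hv (by
      rw [hcomp _ _ _ h₅, hcomp _ _ _ h₆, hcomp _ _ _ h₁', hcomp _ _ _ h₂', hcomp _ _ _ h₃',
        hcomp _ _ _ h₄]
      exact X.exchange m n _ _ _ _ hmn h₁' h₂' h₃')

lemma PreOmega.fin_comp (X : PreOmega) (n : ℕ) (x y : X.C)
    (h : X.bd true n x = X.bd false n y) (hx : ∃ k, X.bd false k x = x)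
    (hy : ∃ k, X.bd false k y = y) : ∃ k, X.bd false k (X.comp n x y) = X.comp n x y := by
  obtain ⟨a, ha⟩ := hx
  obtain ⟨b, hb⟩ := hy
  refine ⟨n + a + b + 1, ?_⟩
  rw [X.bd_comp_gt _ _ _ _ _ (by omega) h]
  congr 1
  · rw [← ha]; exact X.bd_bd_le _ _ _ _ _ (by omega)
  · rw [← hb]; exact X.bd_bd_le _ _ _ _ _ (by omega)

/-- All cells have dimension at most `n` (no condition for `n = ⊤`). -/
def IsNCat (n : ℕ∞) : ObjectProperty OmegaCat :=
  fun X => ∀ x : X.C, ∃ k : ℕ, (k : ℕ∞) ≤ n ∧ X.bd false k x = x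

/-- Strict n-categories, as a full subcategory of omega-categories. -/
abbrev NCat (n : ℕ∞) : Type 1 := (IsNCat n).FullSubcategory

end Vale.Agent.P213
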