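import Vale.Agent.P213.Classes

/-!
P213, simplicial part 1: homotopies, formal properties of `whe`, lifting helpers.

Plan. `SSet.anodyneExtensions` is `(fibrations _).llp` and `kanFib = fibrations _` by `rfl`
(`open SSet.modelCategoryQuillen`; `SSet.modelCategoryQuillen.fibration_iff`).
* `lift_zero`, `lift_one`: the inclusion of `(range i).unionProd {vertex}` in `B ⊗ Δ[1]` is
  anodyne (`SSet.anodyneExtensions_unionProd_ι`, or `anodyneExtensions_pushoutObjObjι` with the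
  pushout of `i ▷ _` and `ι₀`; the vertex inclusions `Δ[0] ⟶ Δ[1]` are horn inclusions
  `Λ[1, k]` up to isomorphism, or use `anodyne_of_deformation`-free direct argument).
  A convenient route: transpose to the path object `(ihom Δ[1]).obj` and use
  `SSet.fibration_pullbackObjObjπ`; any route is fine.
* `lift_both`: same with `∂Δ[1]`, the mono `i` being anodyne.
* `Htpy.symm`, `Htpy.trans` for a Kan target: fill `K ⊗ Λ[2,k] ⟶ K ⊗ Δ[2]` (anodyne by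
  `anodyneExtensions.whiskerLeft`), or use edges and horns in the Kan complex `(ihom K).obj Z`.
* `whe_of_lift`: apply the hypothesis to `Z ⟶ ⊤` and to `(ev₀, ev₁) : Z^{Δ[1]} ⟶ Z ⊗ Z`.
* `anodyne_of_deformation`: `i` is a retract of the pushout-product of `i` with a vertex of
  `Δ[1]`; directly: given a square `(u, v)` from `i` to a fibration `q`, apply `lift_zero` to
  `k ≫ u`, `r ≫ u`, `h ≫ v` and restrict the lift along `ι₁`.
-/

open CategoryTheory MonoidalCategory Simplicial Limits Opposite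

namespace Vale.Agent.P213

/-- Trivial fibrations: right lifting property against all monomorphisms. -/
def trivFib : MorphismProperty SSet.{0} := (MorphismProperty.monomorphisms SSet.{0}).rlp

lemma kanFib_iff {E D : SSet.{0}} (q : E ⟶ D) :
    kanFib q ↔ @HomotopicalAlgebra.Fibration _ _ _ _ q
      SSet.modelCategoryQuillen.instCategoryWithFibrations :=
  (SSet.modelCategoryQuillen.fibration_iff q).symm

lemma anodyne_lift {A B E D : SSet.{0}} {i : A ⟶ B} (hi : SSet.anodyneExtensions i)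
    {q : E ⟶ D} (hq : kanFib q) : HasLiftingProperty i q :=
  hi q hq

open SSet.modelCategoryQuillen in
lemma kan_iff (Z : SSet.{0}) : SSet.KanComplex Z ↔ kanFib (terminal.from Z) :=
  (HomotopicalAlgebra.isFibrant_iff Z).trans (kanFib_iff _).symm

lemma kan_of_kanFib {E D : SSet.{0}} {q : E ⟶ D} (hq : kanFib q) (hD : SSet.KanComplex D) :
    SSet.KanComplex E := by
  rw [kan_iff] at hD ⊢
  rw [← terminal.comp_from q]
  exact MorphismProperty.comp_mem SSet.modelCategoryQuillen.J.rlp _ _ hq hD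

lemma mono_of_anodyne {A B : SSet.{0}} {i : A ⟶ B} (hi : SSet.anodyneExtensions i) :
    Mono i := by
  have h : SSet.anodyneExtensions.{0} ≤ MorphismProperty.monomorphisms _ := by
    rw [SSet.anodyneExtensions_eq_retracts_transfiniteCompositionsOfShape,
      MorphismProperty.retracts_le_iff]
    refine le_trans (MorphismProperty.transfiniteCompositionsOfShape_monotone _ ?_)
      (MorphismProperty.transfiniteCompositionsOfShape_le _ _)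
    rw [MorphismProperty.pushouts_le_iff, MorphismProperty.coproducts_le_iff]
    exact SSet.modelCategoryQuillen.J_le_monomorphisms
  exact h _ hi

lemma sb_kanFib_of {E D : SSet.{0}} {q : E ⟶ D}
    (h : ∀ {A B : SSet.{0}} (i : A ⟶ B), SSet.anodyneExtensions i → HasLiftingProperty i q) :
    kanFib q := fun _ _ i hi =>
  h i (MorphismProperty.le_llp_rlp SSet.modelCategoryQuillen.J _ hi)

lemma sb_exists_lift {A B E D : SSet.{0}} {i : A ⟶ B} {q : E ⟶ D} (h : HasLiftingProperty i q)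
    (u : A ⟶ E) (v : B ⟶ D) (w : u ≫ q = i ≫ v) : ∃ l : B ⟶ E, i ≫ l = u ∧ l ≫ q = v :=
  ⟨(CommSq.mk w).lift, (CommSq.mk w).fac_left, (CommSq.mk w).fac_right⟩

lemma sb_hlp {A B E D : SSet.{0}} {i : A ⟶ B} {q : E ⟶ D}
    (h : ∀ (u : A ⟶ E) (v : B ⟶ D), u ≫ q = i ≫ v → ∃ l : B ⟶ E, i ≫ l = u ∧ l ≫ q = v) :
    HasLiftingProperty i q :=
  ⟨fun {u v} sq => by
    obtain ⟨l, h₁, h₂⟩ := h u v sq.w
    exact ⟨⟨⟨l, h₁, h₂⟩⟩⟩⟩

/-- Lifting against the pushout-product of a mono with a subcomplex inclusion. -/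
lemma sb_lift {A B X E D : SSet.{0}} (i : A ⟶ B) [Mono i] (T : X.Subcomplex) {q : E ⟶ D}
    (hq : HasLiftingProperty ((SSet.Subcomplex.range i).unionProd T).ι q)
    (u : A ⊗ X ⟶ E) (v : B ⊗ (T : SSet.{0}) ⟶ E) (H : B ⊗ X ⟶ D)
    (h₁ : A ◁ T.ι ≫ u = i ▷ _ ≫ v) (h₂ : u ≫ q = i ▷ _ ≫ H) (h₃ : v ≫ q = B ◁ T.ι ≫ H) :
    ∃ w : B ⊗ X ⟶ E, i ▷ _ ≫ w = u ∧ B ◁ T.ι ≫ w = v ∧ w ≫ q = H := by
  have P := SSet.Subcomplex.unionProd.isPushout (SSet.Subcomplex.range i) T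
  have e : (SSet.Subcomplex.range i).ι = inv (SSet.Subcomplex.toRange i) ≫ i := by
    rw [IsIso.eq_inv_comp, SSet.Subcomplex.toRange_ι]
  have c : (SSet.Subcomplex.range i).ι ▷ (T : SSet.{0}) ≫ v =
      _ ◁ T.ι ≫ inv (SSet.Subcomplex.toRange i) ▷ X ≫ u := by
    rw [whisker_exchange_assoc, h₁, e, comp_whiskerRight_assoc]
  obtain ⟨w, w₁, w₂⟩ := sb_exists_lift hq (P.desc _ _ c) H (P.hom_ext
    (by rw [P.inl_desc_assoc, h₃, SSet.Subcomplex.unionProd.ι₁_ι_assoc])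
    (by rw [P.inr_desc_assoc, SSet.Subcomplex.unionProd.ι₂_ι_assoc, Category.assoc, h₂,
      ← comp_whiskerRight_assoc, ← e]))
  refine ⟨w, ?_, ?_, w₂⟩
  · rw [← cancel_epi (inv (SSet.Subcomplex.toRange i) ▷ X), ← comp_whiskerRight_assoc, ← e,
      ← SSet.Subcomplex.unionProd.ι₂_ι_assoc, w₁, P.inr_desc]
  · rw [← SSet.Subcomplex.unionProd.ι₁_ι_assoc, w₁, P.inl_desc]

/-- The inclusion at the vertex `k`. -/
noncomputable def sbι (k : Fin 2) (X : SSet.{0}) : X ⟶ X ⊗ Δ[1] :=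
  CartesianMonoidalCategory.lift (𝟙 X) (SSet.const (SSet.stdSimplex.obj₀Equiv.symm k))

lemma sbι_comp (k : Fin 2) {X Y : SSet.{0}} (f : X ⟶ Y) : sbι k X ≫ f ▷ _ = f ≫ sbι k Y := rfl

lemma sb_eq_const {n : SimplexCategoryᵒᵖ} (s : (Δ[1] : SSet.{0}).obj n) {j k : Fin 2}
    (hjk : j ≠ k) (h : j ∉ Set.range (SSet.stdSimplex.asOrderHom s)) :
    s = SSet.stdSimplex.const 1 k n := by
  obtain ⟨⟨d⟩⟩ := n
  refine SSet.stdSimplex.ext _ _ fun a => ?_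
  have h1 : SSet.stdSimplex.asOrderHom s a ≠ j := fun e => h ⟨a, e⟩
  change SSet.stdSimplex.asOrderHom s a = k
  omega

lemma sb_whisker_horn (k : Fin 2) (X : SSet.{0}) :
    X ◁ Λ[1, k].ι = CartesianMonoidalCategory.fst _ _ ≫ sbι k X := by
  apply SSet.hom_ext
  intro n
  ext ⟨x, s, hs⟩
  obtain ⟨j, hj⟩ := (Set.ne_univ_iff_exists_notMem _).1 hs
  rw [Set.mem_union, not_or] at hj
  obtain rfl := sb_eq_const s hj.2 hj.1
  rfl

lemma sb_section (k : Fin 2) (T : (Δ[1] : SSet.{0}).Subcomplex)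
    (h : SSet.stdSimplex.obj₀Equiv.symm k ∈ T.obj _) (X : SSet.{0}) :
    CartesianMonoidalCategory.lift (𝟙 X) (SSet.const (Y := T) ⟨_, h⟩) ≫ X ◁ T.ι = sbι k X := rfl

lemma sb_rev_ne (k : Fin 2) : k.rev ≠ k := by
  revert k
  decide

lemma sb_mem_horn (k : Fin 2) :
    SSet.stdSimplex.obj₀Equiv.symm k ∈ (SSet.horn.{0} 1 k).obj (op ⦋0⦌) := by
  rw [SSet.mem_horn_iff_notMem_range]
  exact ⟨k.rev, sb_rev_ne k, fun ⟨_, ha⟩ => sb_rev_ne k ha.symm⟩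

lemma sb_lift_vertex (k : Fin 2) {A B E D : SSet.{0}} (i : A ⟶ B) [Mono i] {q : E ⟶ D}
    (hq : kanFib q) (u : A ⊗ Δ[1] ⟶ E) (v : B ⟶ E) (H : B ⊗ Δ[1] ⟶ D)
    (h₁ : sbι k A ≫ u = i ≫ v) (h₂ : u ≫ q = i ▷ _ ≫ H) (h₃ : v ≫ q = sbι k B ≫ H) :
    ∃ w : B ⊗ Δ[1] ⟶ E, i ▷ _ ≫ w = u ∧ sbι k B ≫ w = v ∧ w ≫ q = H := by
  obtain ⟨w, w₁, w₂, w₃⟩ := sb_lift i Λ[1, k] (anodyne_lift
    (SSet.anodyneExtensions_unionProd_ι _ _ (SSet.anodyneExtensions.horn_ι k)) hq) u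
    (CartesianMonoidalCategory.fst _ _ ≫ v) H
    (by rw [sb_whisker_horn, Category.assoc, h₁, CartesianMonoidalCategory.whiskerRight_fst_assoc])
    h₂ (by rw [sb_whisker_horn, Category.assoc, Category.assoc, h₃])
  refine ⟨w, w₁, ?_, w₃⟩
  rw [← sb_section k _ (sb_mem_horn k), Category.assoc, w₂,
    CartesianMonoidalCategory.lift_fst_assoc, Category.id_comp]

lemma sb_anodyne_ι (k : Fin 2) (X : SSet.{0}) : SSet.anodyneExtensions (sbι k X) := by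
  intro E D q hq
  refine sb_hlp fun u v w => ?_
  obtain ⟨l, l₁, l₂⟩ := sb_exists_lift
    (anodyne_lift ((SSet.anodyneExtensions.horn_ι k).whiskerLeft X) hq)
    (CartesianMonoidalCategory.fst _ _ ≫ u) v
    (by rw [sb_whisker_horn, Category.assoc, Category.assoc, w])
  refine ⟨l, ?_, l₂⟩
  rw [← sb_section k _ (sb_mem_horn k), Category.assoc, l₁,
    CartesianMonoidalCategory.lift_fst_assoc, Category.id_comp]

lemma sb_boundary_cases {n : SimplexCategoryᵒᵖ} {s : (Δ[1] : SSet.{0}).obj n}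
    (hs : s ∈ (SSet.boundary.{0} 1).obj n) :
    s = SSet.stdSimplex.const 1 0 n ∨ s = SSet.stdSimplex.const 1 1 n := by
  obtain ⟨j, hj⟩ := not_forall.1 hs
  by_cases h : j = 0
  · exact Or.inr (sb_eq_const s (j := j) (h ▸ zero_ne_one) hj)
  · exact Or.inl (sb_eq_const s h hj)

lemma sb_mem_boundary (k : Fin 2) :
    SSet.stdSimplex.obj₀Equiv.symm k ∈ (SSet.boundary.{0} 1).obj (op ⦋0⦌) := by
  rw [SSet.mem_boundary_iff_notMem_range]
  exact ⟨k.rev, fun ⟨_, ha⟩ => sb_rev_ne k ha.symm⟩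

/-- The two ends of `X ⊗ ∂Δ[1]`. -/
noncomputable def sbEnd (k : Fin 2) (X : SSet.{0}) : X ⟶ X ⊗ (SSet.boundary.{0} 1 : SSet.{0}) :=
  CartesianMonoidalCategory.lift (𝟙 X) (SSet.const ⟨_, sb_mem_boundary k⟩)

lemma sbEnd_ι (k : Fin 2) (X : SSet.{0}) : sbEnd k X ≫ X ◁ (SSet.boundary 1).ι = sbι k X := rfl

lemma sbEnd_comp (k : Fin 2) {X Y : SSet.{0}} (f : X ⟶ Y) :
    sbEnd k X ≫ f ▷ _ = f ≫ sbEnd k Y := rfl

lemma sbEnd_ext {X E : SSet.{0}} {f g : X ⊗ (SSet.boundary.{0} 1 : SSet.{0}) ⟶ E}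
    (h₀ : sbEnd 0 X ≫ f = sbEnd 0 X ≫ g) (h₁ : sbEnd 1 X ≫ f = sbEnd 1 X ≫ g) : f = g := by
  ext n ⟨x, s, hs⟩
  obtain rfl | rfl := sb_boundary_cases hs
  · exact ConcreteCategory.congr_hom (NatTrans.congr_app h₀ n) x
  · exact ConcreteCategory.congr_hom (NatTrans.congr_app h₁ n) x

/-- The map out of `X ⊗ ∂Δ[1]` with prescribed ends. -/
noncomputable def sbGlue {X E : SSet.{0}} (v₀ v₁ : X ⟶ E) :
    X ⊗ (SSet.boundary.{0} 1 : SSet.{0}) ⟶ E where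
  app n := ↾fun x => if SSet.stdSimplex.asOrderHom x.2.1 0 = 0 then v₀.app n x.1 else v₁.app n x.1
  naturality n m f := by
    ext ⟨x, s, hs⟩
    obtain rfl | rfl := sb_boundary_cases hs
    · exact NatTrans.naturality_apply v₀ f x
    · exact NatTrans.naturality_apply v₁ f x

lemma sbEnd_glue₀ {X E : SSet.{0}} (v₀ v₁ : X ⟶ E) : sbEnd 0 X ≫ sbGlue v₀ v₁ = v₀ := rfl

lemma sbEnd_glue₁ {X E : SSet.{0}} (v₀ v₁ : X ⟶ E) : sbEnd 1 X ≫ sbGlue v₀ v₁ = v₁ := rfl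

/-- Homotopy lifting and extension, starting at time zero. -/
lemma lift_zero {A B E D : SSet.{0}} (i : A ⟶ B) [Mono i] {q : E ⟶ D} (hq : kanFib q)
    (u : A ⊗ Δ[1] ⟶ E) (v : B ⟶ E) (H : B ⊗ Δ[1] ⟶ D) (h₁ : SSet.ι₀ ≫ u = i ≫ v)
    (h₂ : u ≫ q = i ▷ _ ≫ H) (h₃ : v ≫ q = SSet.ι₀ ≫ H) :
    ∃ w : B ⊗ Δ[1] ⟶ E, i ▷ _ ≫ w = u ∧ SSet.ι₀ ≫ w = v ∧ w ≫ q = H :=
  sb_lift_vertex 0 i hq u v H h₁ h₂ h₃

/-- Homotopy lifting and extension, starting at time one. -/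
lemma lift_one {A B E D : SSet.{0}} (i : A ⟶ B) [Mono i] {q : E ⟶ D} (hq : kanFib q)
    (u : A ⊗ Δ[1] ⟶ E) (v : B ⟶ E) (H : B ⊗ Δ[1] ⟶ D) (h₁ : SSet.ι₁ ≫ u = i ≫ v)
    (h₂ : u ≫ q = i ▷ _ ≫ H) (h₃ : v ≫ q = SSet.ι₁ ≫ H) :
    ∃ w : B ⊗ Δ[1] ⟶ E, i ▷ _ ≫ w = u ∧ SSet.ι₁ ≫ w = v ∧ w ≫ q = H :=
  sb_lift_vertex 1 i hq u v H h₁ h₂ h₃

/-- Both ends prescribed: either `i` is anodyne and `q` a fibration, or `q` is a trivial
fibration. -/
lemma lift_both {A B E D : SSet.{0}} (i : A ⟶ B) [Mono i] {q : E ⟶ D}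
    (hq : (SSet.anodyneExtensions i ∧ kanFib q) ∨ trivFib q)
    (u : A ⊗ Δ[1] ⟶ E) (v₀ v₁ : B ⟶ E) (H : B ⊗ Δ[1] ⟶ D) (h₀ : SSet.ι₀ ≫ u = i ≫ v₀)
    (h₁ : SSet.ι₁ ≫ u = i ≫ v₁) (h₂ : u ≫ q = i ▷ _ ≫ H) (h₃ : v₀ ≫ q = SSet.ι₀ ≫ H)
    (h₄ : v₁ ≫ q = SSet.ι₁ ≫ H) :
    ∃ w : B ⊗ Δ[1] ⟶ E, i ▷ _ ≫ w = u ∧ SSet.ι₀ ≫ w = v₀ ∧ SSet.ι₁ ≫ w = v₁ ∧ w ≫ q = H := by
  have hl : HasLiftingProperty ((SSet.Subcomplex.range i).unionProd (SSet.boundary 1)).ι q := by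
    obtain ⟨hi, hq⟩ | hq := hq
    · refine anodyne_lift (SSet.anodyneExtensions_unionProd_ι' _ _ ?_) hq
      rw [← SSet.anodyneExtensions.cancel_left_of_respectsIso (SSet.Subcomplex.toRange i)]
      exact hi
    · exact hq _ (MorphismProperty.monomorphisms.infer_property _)
  obtain ⟨w, w₁, w₂, w₃⟩ := sb_lift i (SSet.boundary 1) hl u (sbGlue v₀ v₁) H
    (sbEnd_ext h₀ h₁) h₂ (sbEnd_ext h₃ h₄)
  exact ⟨w, w₁, congrArg (sbEnd 0 B ≫ ·) w₂, congrArg (sbEnd 1 B ≫ ·) w₂, w₃⟩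

/-- The path object and its two evaluations. -/
noncomputable abbrev pathObj (Z : SSet.{0}) : SSet.{0} := (ihom (Δ[1] : SSet.{0})).obj Z

/-- Transpose of a homotopy. -/
noncomputable def toPath {K Z : SSet.{0}} (h : K ⊗ Δ[1] ⟶ Z) : K ⟶ pathObj Z :=
  MonoidalClosed.curry ((β_ _ _).hom ≫ h)

/-- Homotopy given by a map to the path object. -/
noncomputable def ofPath {K Z : SSet.{0}} (k : K ⟶ pathObj Z) : K ⊗ Δ[1] ⟶ Z :=
  (β_ _ _).hom ≫ MonoidalClosed.uncurry k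

noncomputable def ev₀ (Z : SSet.{0}) : pathObj Z ⟶ Z := SSet.ι₀ ≫ ofPath (𝟙 _)

noncomputable def ev₁ (Z : SSet.{0}) : pathObj Z ⟶ Z := SSet.ι₁ ≫ ofPath (𝟙 _)

@[simp] lemma ofPath_toPath {K Z : SSet.{0}} (h : K ⊗ Δ[1] ⟶ Z) : ofPath (toPath h) = h := by
  rw [ofPath, toPath, MonoidalClosed.uncurry_curry, SymmetricCategory.symmetry_assoc]

@[simp] lemma toPath_ofPath {K Z : SSet.{0}} (k : K ⟶ pathObj Z) : toPath (ofPath k) = k := by
  rw [ofPath, toPath, SymmetricCategory.symmetry_assoc, MonoidalClosed.curry_uncurry]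

lemma ofPath_comp {K' K Z : SSet.{0}} (a : K' ⟶ K) (k : K ⟶ pathObj Z) :
    ofPath (a ≫ k) = a ▷ _ ≫ ofPath k := by
  rw [ofPath, ofPath, MonoidalClosed.uncurry_natural_left,
    BraidedCategory.braiding_naturality_left_assoc]

lemma comp_ev₀ {K Z : SSet.{0}} (k : K ⟶ pathObj Z) : k ≫ ev₀ Z = SSet.ι₀ ≫ ofPath k := by
  rw [ev₀, ← SSet.ι₀_comp_assoc, ← ofPath_comp, Category.comp_id]

lemma comp_ev₁ {K Z : SSet.{0}} (k : K ⟶ pathObj Z) : k ≫ ev₁ Z = SSet.ι₁ ≫ ofPath k := by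
  rw [ev₁, ← SSet.ι₁_comp_assoc, ← ofPath_comp, Category.comp_id]

lemma sb_ofPath_inj {K Z : SSet.{0}} {k k' : K ⟶ pathObj Z} (h : ofPath k = ofPath k') :
    k = k' := by
  rw [← toPath_ofPath k, h, toPath_ofPath]

lemma kanFib_ev (Z : SSet.{0}) (hZ : SSet.KanComplex Z) :
    kanFib (CartesianMonoidalCategory.lift (ev₀ Z) (ev₁ Z)) := by
  refine sb_kanFib_of fun i hi => sb_hlp fun a b w => ?_
  have := mono_of_anodyne hi
  have w₀ := w =≫ CartesianMonoidalCategory.fst _ _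
  have w₁ := w =≫ CartesianMonoidalCategory.snd _ _
  rw [Category.assoc, CartesianMonoidalCategory.lift_fst, comp_ev₀, Category.assoc] at w₀
  rw [Category.assoc, CartesianMonoidalCategory.lift_snd, comp_ev₁, Category.assoc] at w₁
  obtain ⟨l, l₁, l₂, l₃, -⟩ := lift_both i (Or.inl ⟨hi, (kan_iff Z).1 hZ⟩) (ofPath a) _ _
    (terminal.from _) w₀ w₁ (Subsingleton.elim _ _) (Subsingleton.elim _ _)
    (Subsingleton.elim _ _)
  refine ⟨toPath l, sb_ofPath_inj (by rw [ofPath_comp, ofPath_toPath, l₁]), ?_⟩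
  apply CartesianMonoidalCategory.hom_ext
  · rw [Category.assoc, CartesianMonoidalCategory.lift_fst, comp_ev₀, ofPath_toPath, l₂]
  · rw [Category.assoc, CartesianMonoidalCategory.lift_snd, comp_ev₁, ofPath_toPath, l₃]

lemma trivFib_ev₀ (Z : SSet.{0}) (hZ : SSet.KanComplex Z) : trivFib (ev₀ Z) := by
  intro A B i hi
  have : Mono i := hi
  refine sb_hlp fun a b w => ?_
  rw [comp_ev₀] at w
  obtain ⟨l, l₁, l₂, -⟩ := lift_zero i ((kan_iff Z).1 hZ) (ofPath a) b (terminal.from _) w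
    (Subsingleton.elim _ _) (Subsingleton.elim _ _)
  exact ⟨toPath l, sb_ofPath_inj (by rw [ofPath_comp, ofPath_toPath, l₁]),
    by rw [comp_ev₀, ofPath_toPath, l₂]⟩

lemma trivFib_ev₁ (Z : SSet.{0}) (hZ : SSet.KanComplex Z) : trivFib (ev₁ Z) := by
  intro A B i hi
  have : Mono i := hi
  refine sb_hlp fun a b w => ?_
  rw [comp_ev₁] at w
  obtain ⟨l, l₁, l₂, -⟩ := lift_one i ((kan_iff Z).1 hZ) (ofPath a) b (terminal.from _) w
    (Subsingleton.elim _ _) (Subsingleton.elim _ _)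
  exact ⟨toPath l, sb_ofPath_inj (by rw [ofPath_comp, ofPath_toPath, l₁]),
    by rw [comp_ev₁, ofPath_toPath, l₂]⟩

lemma kan_tensor {Z Z' : SSet.{0}} (hZ : SSet.KanComplex Z) (hZ' : SSet.KanComplex Z') :
    SSet.KanComplex (Z ⊗ Z') := by
  rw [kan_iff] at hZ hZ' ⊢
  refine sb_kanFib_of fun i hi => sb_hlp fun a b _ => ?_
  obtain ⟨l, h, -⟩ := sb_exists_lift (anodyne_lift hi hZ) (a ≫ CartesianMonoidalCategory.fst _ _)
    b (Subsingleton.elim _ _)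
  obtain ⟨l', h', -⟩ := sb_exists_lift (anodyne_lift hi hZ')
    (a ≫ CartesianMonoidalCategory.snd _ _) b (Subsingleton.elim _ _)
  refine ⟨CartesianMonoidalCategory.lift l l', ?_, Subsingleton.elim _ _⟩
  rw [CartesianMonoidalCategory.comp_lift, h, h', CartesianMonoidalCategory.lift_comp_fst_snd]

lemma Htpy.refl {K Z : SSet.{0}} (f : K ⟶ Z) : Htpy f f :=
  ⟨CartesianMonoidalCategory.fst _ _ ≫ f, by simp, by simp⟩

lemma Htpy.precomp {K' K Z : SSet.{0}} {f g : K ⟶ Z} (h : Htpy f g) (a : K' ⟶ K) :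
    Htpy (a ≫ f) (a ≫ g) := by
  obtain ⟨H, rfl, rfl⟩ := h
  exact ⟨a ▷ _ ≫ H, by simp, by simp⟩

lemma Htpy.postcomp {K Z Z' : SSet.{0}} {f g : K ⟶ Z} (h : Htpy f g) (b : Z ⟶ Z') :
    Htpy (f ≫ b) (g ≫ b) := by
  obtain ⟨H, rfl, rfl⟩ := h
  exact ⟨H ≫ b, by simp, by simp⟩

lemma sb_htpy_of_path {K Z : SSet.{0}} (k : K ⟶ pathObj Z) : Htpy (k ≫ ev₀ Z) (k ≫ ev₁ Z) :=
  ⟨ofPath k, (comp_ev₀ k).symm, (comp_ev₁ k).symm⟩

lemma sb_euclid {K Z : SSet.{0}} (hZ : SSet.KanComplex Z) {f g k : K ⟶ Z} (h : Htpy f g)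
    (h' : Htpy f k) : Htpy g k := by
  obtain ⟨H, h₀, rfl⟩ := h
  obtain ⟨H', h₀', rfl⟩ := h'
  obtain ⟨w, -, w₂⟩ := sb_exists_lift (anodyne_lift (sb_anodyne_ι 0 K) (kanFib_ev Z hZ))
    (toPath (CartesianMonoidalCategory.fst _ _ ≫ f)) (CartesianMonoidalCategory.lift H H') (by
      rw [CartesianMonoidalCategory.comp_lift, CartesianMonoidalCategory.comp_lift, comp_ev₀,
        comp_ev₁, ofPath_toPath, SSet.ι₀_fst_assoc, SSet.ι₁_fst_assoc]
      exact congrArg₂ _ h₀.symm h₀'.symm)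
  have h₁ := sb_htpy_of_path (SSet.ι₁ ≫ w)
  have w₀ := w₂ =≫ CartesianMonoidalCategory.fst _ _
  have w₁ := w₂ =≫ CartesianMonoidalCategory.snd _ _
  rw [Category.assoc, CartesianMonoidalCategory.lift_fst, CartesianMonoidalCategory.lift_fst] at w₀
  rw [Category.assoc, CartesianMonoidalCategory.lift_snd, CartesianMonoidalCategory.lift_snd] at w₁
  rwa [Category.assoc, Category.assoc, w₀, w₁] at h₁

lemma Htpy.symm {K Z : SSet.{0}} (hZ : SSet.KanComplex Z) {f g : K ⟶ Z} (h : Htpy f g) :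
    Htpy g f :=
  sb_euclid hZ h (Htpy.refl f)

lemma Htpy.trans {K Z : SSet.{0}} (hZ : SSet.KanComplex Z) {f g k : K ⟶ Z} (h : Htpy f g)
    (h' : Htpy g k) : Htpy f k :=
  sb_euclid hZ (h.symm hZ) h'

/-- Zigzags of homotopies. -/
def ZHtpy {K Z : SSet.{0}} (f g : K ⟶ Z) : Prop := Relation.EqvGen Htpy f g

lemma ZHtpy.precomp {K' K Z : SSet.{0}} {f g : K ⟶ Z} (h : ZHtpy f g) (a : K' ⟶ K) :
    ZHtpy (a ≫ f) (a ≫ g) := by
  induction h with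
  | rel _ _ h => exact .rel _ _ (h.precomp a)
  | refl => exact .refl _
  | symm _ _ _ h => exact .symm _ _ h
  | trans _ _ _ _ _ h h' => exact .trans _ _ _ h h'

lemma ZHtpy.postcomp {K Z Z' : SSet.{0}} {f g : K ⟶ Z} (h : ZHtpy f g) (b : Z ⟶ Z') :
    ZHtpy (f ≫ b) (g ≫ b) := by
  induction h with
  | rel _ _ h => exact .rel _ _ (h.postcomp b)
  | refl => exact .refl _
  | symm _ _ _ h => exact .symm _ _ h
  | trans _ _ _ _ _ h h' => exact .trans _ _ _ h h'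

lemma ZHtpy.htpy {K Z : SSet.{0}} (hZ : SSet.KanComplex Z) {f g : K ⟶ Z} (h : ZHtpy f g) :
    Htpy f g := by
  induction h with
  | rel _ _ h => exact h
  | refl => exact Htpy.refl _
  | symm _ _ _ h => exact h.symm hZ
  | trans _ _ _ _ _ h h' => exact h.trans hZ h'

lemma whe_of_zhtpy_equiv {K L : SSet.{0}} (f : K ⟶ L) (g : L ⟶ K) (h₁ : ZHtpy (f ≫ g) (𝟙 K))
    (h₂ : ZHtpy (g ≫ f) (𝟙 L)) : whe f := by
  intro Z hZ
  refine ⟨fun a => ⟨g ≫ a, by simpa using (h₁.postcomp a).htpy hZ⟩, fun h h' H => ?_⟩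
  have e : ∀ b : L ⟶ Z, Htpy (g ≫ f ≫ b) b := fun b => by simpa using (h₂.postcomp b).htpy hZ
  exact (((e h).symm hZ).trans hZ (H.precomp g)).trans hZ (e h')

lemma whe_of_zhtpy {K L : SSet.{0}} {f g : K ⟶ L} (h : ZHtpy f g) (hf : whe f) : whe g := by
  intro Z hZ
  have e : ∀ b : L ⟶ Z, Htpy (f ≫ b) (g ≫ b) := fun b => (h.postcomp b).htpy hZ
  refine ⟨fun a => ?_, fun b b' H => (hf Z hZ).2 b b'
    (((e b).trans hZ H).trans hZ ((e b').symm hZ))⟩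
  obtain ⟨b, hb⟩ := (hf Z hZ).1 a
  exact ⟨b, ((e b).symm hZ).trans hZ hb⟩

instance : whe.IsMultiplicative where
  id_mem K Z _ := ⟨fun a => ⟨a, by simpa using Htpy.refl a⟩, fun b b' H => by simpa using H⟩
  comp_mem f g hf hg Z hZ := by
    refine ⟨fun a => ?_, fun b b' H => (hg Z hZ).2 b b' ((hf Z hZ).2 _ _ (by simpa using H))⟩
    obtain ⟨b, hb⟩ := (hf Z hZ).1 a
    obtain ⟨c, hc⟩ := (hg Z hZ).1 b
    exact ⟨c, by simpa using (hc.precomp f).trans hZ hb⟩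

instance : whe.HasTwoOutOfThreeProperty where
  of_postcomp f g hg hfg Z hZ := by
    refine ⟨fun a => ?_, fun b b' H => ?_⟩
    · obtain ⟨c, hc⟩ := (hfg Z hZ).1 a
      exact ⟨g ≫ c, by simpa using hc⟩
    · obtain ⟨c, hc⟩ := (hg Z hZ).1 b
      obtain ⟨c', hc'⟩ := (hg Z hZ).1 b'
      have h := (hfg Z hZ).2 c c' (by
        simpa using ((hc.precomp f).trans hZ H).trans hZ ((hc'.precomp f).symm hZ))
      exact ((hc.symm hZ).trans hZ (h.precomp g)).trans hZ hc'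
  of_precomp f g hf hfg Z hZ := by
    refine ⟨fun a => ?_, fun b b' H => (hfg Z hZ).2 b b' (by simpa using H.precomp f)⟩
    obtain ⟨c, hc⟩ := (hfg Z hZ).1 (f ≫ a)
    exact ⟨c, (hf Z hZ).2 _ _ (by simpa using hc)⟩

lemma sb_whe_retract {X Y X' Y' : SSet.{0}} {f : X ⟶ Y} {g : X' ⟶ Y'} (i : X ⟶ X') (r : X' ⟶ X)
    (i' : Y ⟶ Y') (r' : Y' ⟶ Y) (e : i ≫ r = 𝟙 X) (e' : i' ≫ r' = 𝟙 Y) (hi : i ≫ g = f ≫ i')
    (hr : r ≫ f = g ≫ r') (hg : whe g) : whe f := by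
  intro Z hZ
  refine ⟨fun a => ?_, fun b b' H => ?_⟩
  · obtain ⟨c, hc⟩ := (hg Z hZ).1 (r ≫ a)
    have h := hc.precomp i
    rw [reassoc_of% hi, reassoc_of% e] at h
    exact ⟨_, h⟩
  · have h := H.precomp r
    rw [reassoc_of% hr, reassoc_of% hr] at h
    have h' := ((hg Z hZ).2 _ _ h).precomp i'
    rwa [reassoc_of% e', reassoc_of% e'] at h'

instance : whe.IsStableUnderRetracts where
  of_retract h hg :=
    sb_whe_retract h.left.i h.left.r h.right.i h.right.r h.left.retract h.right.retract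
      h.i_w h.r_w hg

instance : whe.RespectsIso :=
  MorphismProperty.RespectsIso.of_respects_arrow_iso _
    fun _ _ e => MorphismProperty.of_retract (Retract.ofIso e.symm)

lemma whe_of_isIso {K L : SSet.{0}} (f : K ⟶ L) [IsIso f] : whe f :=
  MorphismProperty.of_isIso whe f

lemma whe_of_lift {B B' : SSet.{0}} (b : B ⟶ B')
    (h : ∀ (E D : SSet.{0}) (q : E ⟶ D), SSet.KanComplex E → SSet.KanComplex D → kanFib q →
      ∀ (f : B ⟶ E) (d : B' ⟶ D), f ≫ q = b ≫ d →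
        ∃ f' : B' ⟶ E, f' ≫ q = d ∧ Htpy (b ≫ f') f) : whe b := by
  intro Z hZ
  refine ⟨fun a => ?_, fun c c' ⟨H, h₀, h₁⟩ => ?_⟩
  · obtain ⟨f', -, hf⟩ := h Z _ (terminal.from Z) hZ ((kan_iff _).2 (by
      rw [Subsingleton.elim (terminal.from (⊤_ SSet.{0})) (𝟙 _)]
      exact MorphismProperty.rlp_of_isIso _ _)) ((kan_iff Z).1 hZ) a (terminal.from _)
      (Subsingleton.elim _ _)
    exact ⟨f', hf⟩
  · obtain ⟨f', hf, -⟩ := h _ _ _ inferInstance (kan_tensor hZ hZ) (kanFib_ev Z hZ) (toPath H)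
      (CartesianMonoidalCategory.lift c c') (by
        rw [CartesianMonoidalCategory.comp_lift, CartesianMonoidalCategory.comp_lift, comp_ev₀,
          comp_ev₁, ofPath_toPath, h₀, h₁])
    have w₀ := hf =≫ CartesianMonoidalCategory.fst _ _
    have w₁ := hf =≫ CartesianMonoidalCategory.snd _ _
    rw [Category.assoc, CartesianMonoidalCategory.lift_fst,
      CartesianMonoidalCategory.lift_fst] at w₀
    rw [Category.assoc, CartesianMonoidalCategory.lift_snd,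
      CartesianMonoidalCategory.lift_snd] at w₁
    exact w₀ ▸ w₁ ▸ sb_htpy_of_path f'

lemma whe_of_anodyne {A B : SSet.{0}} {i : A ⟶ B} (hi : SSet.anodyneExtensions i) : whe i :=
  whe_of_lift i fun _ _ _ _ _ hq f d w => by
    obtain ⟨l, h₁, h₂⟩ := sb_exists_lift (anodyne_lift hi hq) f d w
    exact ⟨l, h₂, h₁ ▸ Htpy.refl _⟩

lemma sb_deformation (a b : Fin 2) {K L : SSet.{0}} (i : K ⟶ L) [Mono i] (h : L ⊗ Δ[1] ⟶ L)
    (r : L ⟶ K) (k : K ⊗ Δ[1] ⟶ K) (h₀ : sbι a L ≫ h = r ≫ i) (h₁ : sbι b L ≫ h = 𝟙 L)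
    (hk : i ▷ _ ≫ h = k ≫ i) : SSet.anodyneExtensions i := by
  intro E D q hq
  refine sb_hlp fun u v w => ?_
  have k₀ : sbι a K ≫ k = i ≫ r := by
    rw [← cancel_mono i, Category.assoc, ← hk, ← Category.assoc, sbι_comp, Category.assoc, h₀,
      Category.assoc]
  have k₁ : sbι b K ≫ k = 𝟙 K := by
    rw [← cancel_mono i, Category.assoc, ← hk, ← Category.assoc, sbι_comp, Category.assoc, h₁,
      Category.id_comp, Category.comp_id]
  obtain ⟨l, l₁, -, l₃⟩ := sb_lift_vertex a i hq (k ≫ u) (r ≫ u) (h ≫ v)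
    (by rw [reassoc_of% k₀]) (by rw [Category.assoc, w, reassoc_of% hk])
    (by rw [Category.assoc, w, reassoc_of% h₀])
  refine ⟨sbι b L ≫ l, ?_, by rw [Category.assoc, l₃, reassoc_of% h₁]⟩
  rw [← Category.assoc, ← sbι_comp, Category.assoc, l₁, reassoc_of% k₁]

lemma anodyne_of_deformation {K L : SSet.{0}} (i : K ⟶ L) [Mono i] (h : L ⊗ Δ[1] ⟶ L)
    (r : L ⟶ K) (k : K ⊗ Δ[1] ⟶ K) (h₀ : SSet.ι₀ ≫ h = r ≫ i) (h₁ : SSet.ι₁ ≫ h = 𝟙 L)
    (hk : i ▷ _ ≫ h = k ≫ i) : SSet.anodyneExtensions i :=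
  sb_deformation 0 1 i h r k h₀ h₁ hk

lemma anodyne_of_deformation' {K L : SSet.{0}} (i : K ⟶ L) [Mono i] (h : L ⊗ Δ[1] ⟶ L)
    (r : L ⟶ K) (k : K ⊗ Δ[1] ⟶ K) (h₀ : SSet.ι₀ ≫ h = 𝟙 L) (h₁ : SSet.ι₁ ≫ h = r ≫ i)
    (hk : i ▷ _ ≫ h = k ≫ i) : SSet.anodyneExtensions i :=
  sb_deformation 1 0 i h r k h₁ h₀ hk

end Vale.Agent.P213
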