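import Vale.Agent.P213.SFilt
import Vale.Agent.P213.SCell

/-!
P213, simplicial part 12: the last vertex map for all `K`; `ex` preserves filtered colimits.

Plan.
* `whe_lam`: let `Z` be Kan and `r` a homotopy inverse of `rho.app Z`. Onto: for `g : sd K ⟶ Z`
  with adjoint `g'`, put `h = g' ≫ r`; a homotopy from `h ≫ rho` to `g'` has an adjoint
  `H : sd (K ⊗ Δ[1]) ⟶ Z` with `sd ι₀ ≫ H = lam ≫ h`, `sd ι₁ ≫ H = g` (`homEquiv_lam`). Lift the
  anodyne map `sd ι₀` (`anodyne_sd_map`; `ι₀` is anodyne) against `kanFib_ev`, with the constant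
  path on top and `lift (sd fst ≫ lam ≫ h) H` below; restrict along `sd ι₁`. Injective: a homotopy
  `sd K ⟶ pathObj Z` has an adjoint `k : K ⟶ ex (pathObj Z)`; `trivFib_htpy` for
  `ex.map (ev₀ Z)` with the section given by constant paths, composed with `ex.map (ev₁ Z)`,
  gives `Htpy (h ≫ rho) (h' ≫ rho)`. (Alternatively: cellular induction and gluing.)
* `whe_homEquiv_sd`: the adjoint is `unit ≫ ex.map φ`, and `unit ≫ ex.map (lam K) = rho.app K`.
* `presFilt_ex`: levelwise `coyoneda` of the finite simplicial set `nerve (Chain (Ord n))`.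
-/

open CategoryTheory MonoidalCategory Simplicial Limits Opposite

namespace Vale.Agent.P213

/-- The last vertex map as a natural transformation. -/
private noncomputable def lamNat : SSet.sd.{0} ⟶ 𝟭 SSet.{0} where
  app K := lam K
  naturality _ _ f := lam_nat f

private lemma whe_lam_of_iso {K L : SSet.{0}} (f : K ⟶ L) [IsIso f] (h : whe (lam K)) :
    whe (lam L) :=
  whe.of_precomp (SSet.sd.map f) _ (whe_of_isIso _)
    (by rw [lam_nat]; exact whe.comp_mem _ _ h (whe_of_isIso f))

theorem whe_lam (K : SSet.{0}) : whe (lam K) := by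
  have key := cell_induction (L := K) ⊥ (fun A => whe (lam (A : SSet.{0}))) ?_ ?_ ?_
  · exact whe_lam_of_iso (SSet.Subcomplex.topIso K).hom key
  · have hI : IsInitial ((⊥ : K.Subcomplex) : SSet.{0}) := SSet.Subcomplex.isInitialBot
    have : IsIso (lam ((⊥ : K.Subcomplex) : SSet.{0})) := hI.isIso_to _
    exact whe_of_isIso _
  · intro S hS hne h
    have := isFiltered_chain S hS hne
    obtain ⟨hc⟩ := isColimit_chain S hS hne
    exact whe_colim (Functor.whiskerLeft (chainDiag S) lamNat) (fun j => (h j.1 j.2).2)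
      (SSet.sd.mapCocone (chainCocone S)) (chainCocone S) (isColimitOfPreserves _ hc) hc _
      fun j => lam_nat _
  · intro A A' h d t b _ hp hA
    have := mono_sd_map (SSet.boundary.{0} d).ι
    exact whe_glue (hp.map SSet.sd) hp (lam _) (lam _) (lam _) (lam _) (lam_nat _) (lam_nat _)
      (lam_nat _) (lam_nat _) (whe_lam_sub _) (whe_lam_std d) hA

theorem whe_homEquiv_sd {K Z : SSet.{0}} (φ : SSet.sd.obj K ⟶ Z) :
    whe (SSet.sdExAdjunction.homEquiv K Z φ) ↔ whe φ := by
  have h : whe (SSet.sdExAdjunction.unit.app K) := by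
    refine whe.of_postcomp _ (SSet.ex.map (lam K)) ((whe_ex_iff _).2 (whe_lam K)) ?_
    have e := homEquiv_lam (𝟙 K)
    rw [Category.comp_id, Category.id_comp, Adjunction.homEquiv_unit] at e
    exact e ▸ whe_rho K
  rw [Adjunction.homEquiv_unit, ← whe_ex_iff φ]
  exact whe.precomp_iff _ _ h

lemma whe_sd_map {K L : SSet.{0}} {i : K ⟶ L} (hi : whe i) : whe (SSet.sd.map i) := by
  refine whe.of_postcomp _ (lam L) (whe_lam L) ?_
  rw [lam_nat]
  exact whe.comp_mem _ _ (whe_lam K) hi

lemma finite_nerve (E : Type) [PartialOrder E] [Finite E] : SSet.Finite (nerve E) := by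
  have : (nerve E).HasDimensionLT (Nat.card E) := ⟨fun n hn => by
    refine Set.eq_univ_of_forall fun x => ?_
    rw [SSet.mem_degenerate_iff_notMem_nonDegenerate,
      PartialOrder.mem_nerve_nonDegenerate_iff_injective]
    intro hx
    have := Nat.card_le_card_of_injective _ hx
    simp at this
    omega⟩
  refine SSet.finite_of_hasDimensionLT _ (Nat.card E) fun i _ => ?_
  exact Finite.of_injective (fun x => x.1.obj) fun x y h =>
    Subtype.ext (nerve_ext fun i => congrFun h i)

instance presFilt_ex : PreservesFilteredColimits SSet.ex.{0} := by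
  refine ⟨fun J _ _ => preservesColimitsOfShape_of_evaluation _ _ fun n => ?_⟩
  have : Finite (Chain (Ord n.unop.len)) :=
    Finite.of_injective (fun c => c.finset) fun c c' h => sdd_chain_ext fun x => by
      rw [show c.finset = c'.finset from h]
  have := finite_nerve (Chain (Ord n.unop.len))
  have := (isFinitelyPresentable_iff_preservesFilteredColimits.1
    (inferInstance : IsFinitelyPresentable.{0} (nerve (Chain (Ord n.unop.len)))))
  exact inferInstanceAs (PreservesColimitsOfShape J
    (coyoneda.obj (op (nerve (Chain (Ord n.unop.len)))) ⋙ uliftFunctor.{0}))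

end Vale.Agent.P213
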