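import Vale.Agent.P213.SK1

/-!
P213, simplicial part 4: left properness, gluing lemma, relative lifting.

Plan.
* `whe_pushout_trivFib` (pushout `b : B ⟶ B'` of a trivial fibration `t : A ⟶ A'` along a mono
  `i : A ⟶ B`, other leg `a : A' ⟶ B'`): use `whe_of_lift`. With `s`, `h` from
  `trivFib_section`, `trivFib_htpy`, and `f : B ⟶ E`, `d : B' ⟶ D`: apply `lift_one` to
  `u = h ≫ i ≫ f`, `v = f`, `H = fst ≫ b ≫ d`; the time zero map `f₀` satisfies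
  `i ≫ f₀ = t ≫ s ≫ i ≫ f`, so descends to `f'` on the pushout.
* `whe_pushout`: factor `w` with `exists_factor`, `whe_pushout_of_mono`, pasting.
* `whe_under`: Ken Brown: factor the map `B₁ ⊔_A B₂ ⟶ B₂` by `exists_factor` through `C₀`;
  `B₁ ⟶ C₀` and `B₂ ⟶ C₀` are monos and `whe`; push out along `A ⟶ C`; two out of three.
* `whe_glue`: compare through `B ⊔_A C'` (see the notes file).
* `rel_lift`: factor `P ⊔_A B ⟶ B` through `C` by `exists_factor`, extend `g` to `C` by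
  `whe_iff_llp`, use `trivFib_htpy` for the section `B ⟶ C` (and reverse the homotopy, or use
  the version below, which goes from `κ ≫ w` to `g`).
-/

open CategoryTheory MonoidalCategory Simplicial Limits Opposite

namespace Vale.Agent.P213

private lemma mono_po {A A' B B' : SSet.{0}} {t : A ⟶ A'} {i : A ⟶ B} {a : A' ⟶ B'}
    {b : B ⟶ B'} (h : IsPushout t i a b) [Mono i] : Mono a :=
  (MorphismProperty.monomorphisms SSet.{0}).of_isPushout h (show Mono i from inferInstance)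

lemma whe_pushout_trivFib {A A' B B' : SSet.{0}} {t : A ⟶ A'} {i : A ⟶ B} {a : A' ⟶ B'}
    {b : B ⟶ B'} (h : IsPushout t i a b) [Mono i] (ht : trivFib t) : whe b := by
  obtain ⟨s, hs⟩ := trivFib_section ht
  obtain ⟨k, k0, k1, k2, -⟩ := trivFib_htpy ht s hs
  refine whe_of_lift b fun E D q _ _ hq f d hf => ?_
  obtain ⟨w, w1, w2, w3⟩ := lift_one i hq (k ≫ i ≫ f) f
    (CartesianMonoidalCategory.fst _ _ ≫ b ≫ d) (by rw [reassoc_of% k1])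
    (by rw [Category.assoc, Category.assoc, hf, CartesianMonoidalCategory.whiskerRight_fst_assoc,
      ← h.w_assoc, reassoc_of% k2]) (by rw [hf, SSet.ι₁_fst_assoc])
  have e : t ≫ s ≫ i ≫ f = i ≫ SSet.ι₀ ≫ w := by
    rw [← SSet.ι₀_comp_assoc, w1, reassoc_of% k0]
  refine ⟨h.desc _ _ e, h.hom_ext ?_ ?_, w, (h.inr_desc _ _ e).symm, w2⟩
  · rw [h.inl_desc_assoc, Category.assoc, Category.assoc, hf, ← h.w_assoc, reassoc_of% hs]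
  · rw [h.inr_desc_assoc, Category.assoc, w3, SSet.ι₀_fst_assoc]

/-- Left properness. -/
theorem whe_pushout {A A' B B' : SSet.{0}} {w : A ⟶ A'} {i : A ⟶ B} {a : A' ⟶ B'}
    {b : B ⟶ B'} (h : IsPushout w i a b) [Mono i] (hw : whe w) : whe b := by
  obtain ⟨C, m, t, _, ht, rfl⟩ := exists_factor w
  have h1 := IsPushout.of_hasPushout m i
  have := mono_po h1
  have e : m ≫ t ≫ a = i ≫ b := by rw [← h.w, Category.assoc]
  rw [← h1.inr_desc _ _ e] at h ⊢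
  exact whe.comp_mem _ _
    (whe_pushout_of_mono h1.flip (whe.of_postcomp m t (whe_of_trivFib ht) hw))
    (whe_pushout_trivFib (h.of_left (h1.inl_desc _ _ e).symm h1) ht)

/-- The factorisation used in the lemma of Ken Brown. -/
private lemma brown {A B₁ B₂ : SSet.{0}} (i₁ : A ⟶ B₁) (i₂ : A ⟶ B₂) [Mono i₁] [Mono i₂]
    (w : B₁ ⟶ B₂) (hi : i₁ ≫ w = i₂) : ∃ (C : SSet.{0}) (k₁ : B₁ ⟶ C) (k₂ : B₂ ⟶ C) (t : C ⟶ B₂),
      Mono k₁ ∧ Mono k₂ ∧ trivFib t ∧ k₁ ≫ t = w ∧ k₂ ≫ t = 𝟙 _ ∧ i₁ ≫ k₁ = i₂ ≫ k₂ := by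
  have h := IsPushout.of_hasPushout i₁ i₂
  have := mono_po h
  have := mono_po h.flip
  have e : i₁ ≫ w = i₂ ≫ 𝟙 _ := by rw [hi, Category.comp_id]
  obtain ⟨C, m, t, _, ht, hm⟩ := exists_factor (h.desc _ _ e)
  exact ⟨C, pushout.inl _ _ ≫ m, pushout.inr _ _ ≫ m, t, inferInstance, inferInstance, ht,
    by rw [Category.assoc, hm, h.inl_desc], by rw [Category.assoc, hm, h.inr_desc],
    h.w_assoc _⟩

private lemma whe_po_leg {A B C P B₀ P₀ : SSet.{0}} {g : A ⟶ C} {i : A ⟶ B} {a : C ⟶ P}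
    {b : B ⟶ P} (h : IsPushout g i a b) (k : B ⟶ B₀) [Mono k] (hk : whe k) {a₀ : C ⟶ P₀}
    {b₀ : B₀ ⟶ P₀} (h₀ : IsPushout g (i ≫ k) a₀ b₀) :
    ∃ θ : P ⟶ P₀, whe θ ∧ a ≫ θ = a₀ ∧ b ≫ θ = k ≫ b₀ := by
  have e : g ≫ a₀ = i ≫ k ≫ b₀ := by rw [h₀.w, Category.assoc]
  refine ⟨h.desc _ _ e, ?_, h.inl_desc _ _ e, h.inr_desc _ _ e⟩
  rw [← h.inl_desc _ _ e] at h₀
  exact whe_pushout_of_mono (h₀.of_top (h.inr_desc _ _ e) h) hk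

lemma whe_under {A B₁ B₂ C P₁ P₂ : SSet.{0}} (i₁ : A ⟶ B₁) (i₂ : A ⟶ B₂) [Mono i₁] [Mono i₂]
    (w : B₁ ⟶ B₂) (hw : whe w) (hi : i₁ ≫ w = i₂) (g : A ⟶ C) {a₁ : C ⟶ P₁} {b₁ : B₁ ⟶ P₁}
    {a₂ : C ⟶ P₂} {b₂ : B₂ ⟶ P₂} (h₁ : IsPushout g i₁ a₁ b₁) (h₂ : IsPushout g i₂ a₂ b₂)
    (θ : P₁ ⟶ P₂) (ha : a₁ ≫ θ = a₂) (hb : b₁ ≫ θ = w ≫ b₂) : whe θ := by
  obtain ⟨C₀, k₁, k₂, t, _, _, ht, e₁, e₂, e⟩ := brown i₁ i₂ w hi
  have ht' := whe_of_trivFib ht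
  have h₀ := IsPushout.of_hasPushout g (i₂ ≫ k₂)
  obtain ⟨θ₁, p₁, q₁, r₁⟩ := whe_po_leg h₁ k₁ (whe.of_postcomp _ t ht' (e₁ ▸ hw))
    (a₀ := pushout.inl g (i₂ ≫ k₂)) (b₀ := pushout.inr g (i₂ ≫ k₂)) (by rw [e]; exact h₀)
  obtain ⟨θ₂, p₂, q₂, r₂⟩ := whe_po_leg h₂ k₂ (whe.of_postcomp _ t ht' (e₂ ▸ whe.id_mem _)) h₀
  have e₀ : g ≫ a₂ = (i₂ ≫ k₂) ≫ t ≫ b₂ := by rw [Category.assoc, reassoc_of% e₂, h₂.w]
  have e₃ : θ₂ ≫ h₀.desc _ _ e₀ = 𝟙 _ := h₂.hom_ext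
    (by rw [reassoc_of% q₂, h₀.inl_desc, Category.comp_id])
    (by rw [reassoc_of% r₂, h₀.inr_desc, reassoc_of% e₂, Category.comp_id])
  have e₄ : θ₁ ≫ h₀.desc _ _ e₀ = θ := h₁.hom_ext
    (by rw [reassoc_of% q₁, h₀.inl_desc, ha])
    (by rw [reassoc_of% r₁, h₀.inr_desc, reassoc_of% e₁, hb])
  exact e₄ ▸ whe.comp_mem _ _ p₁ (whe.of_precomp θ₂ _ p₂ (e₃ ▸ whe.id_mem _))

/-- The gluing lemma. -/
theorem whe_glue {A B C P A' B' C' P' : SSet.{0}} {g : A ⟶ C} {i : A ⟶ B} {a : C ⟶ P}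
    {b : B ⟶ P} {g' : A' ⟶ C'} {i' : A' ⟶ B'} {a' : C' ⟶ P'} {b' : B' ⟶ P'}
    (h : IsPushout g i a b) (h' : IsPushout g' i' a' b') [Mono i] [Mono i']
    (wA : A ⟶ A') (wB : B ⟶ B') (wC : C ⟶ C') (θ : P ⟶ P')
    (hg : g ≫ wC = wA ≫ g') (hi : i ≫ wB = wA ≫ i') (ha : a ≫ θ = wC ≫ a')
    (hb : b ≫ θ = wB ≫ b') (hA : whe wA) (hB : whe wB) (hC : whe wC) : whe θ := by
  have := mono_po h
  have h₁ := IsPushout.of_hasPushout (g ≫ wC) i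
  have h₂ := IsPushout.of_hasPushout wA i
  have := mono_po h₂
  generalize pushout.inl (g ≫ wC) i = a₁, pushout.inr (g ≫ wC) i = b₁ at h₁
  have e₁ : g ≫ wC ≫ a₁ = i ≫ b₁ := by rw [← h₁.w, Category.assoc]
  have e₂ : wA ≫ g' ≫ a₁ = i ≫ b₁ := by rw [← e₁, reassoc_of% hg]
  have e₃ : (g ≫ wC) ≫ a' = i ≫ wB ≫ b' := by rw [hg, reassoc_of% hi, Category.assoc, h'.w]
  have p₁ : whe (h.desc _ _ e₁) :=
    whe_pushout (IsPushout.of_left (by rwa [h.inr_desc]) (h.inl_desc _ _ e₁).symm h) hC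
  have p₂ : whe (h₁.desc _ _ e₃) := whe_under (pushout.inl wA i) i' (h₂.desc _ _ hi.symm)
    (whe.of_precomp _ _ (whe_pushout h₂ hA) (by rwa [h₂.inr_desc])) (h₂.inl_desc _ _ _) g'
    (IsPushout.of_left (by rwa [h₂.inr_desc, ← hg]) (h₂.inl_desc _ _ e₂).symm h₂) h' _
    (h₁.inl_desc _ _ e₃) (h₂.hom_ext
      (by rw [h₂.inl_desc_assoc, h₂.inl_desc_assoc, Category.assoc, h₁.inl_desc, h'.w])
      (by rw [h₂.inr_desc_assoc, h₂.inr_desc_assoc, h₁.inr_desc]))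
  have e : h.desc _ _ e₁ ≫ h₁.desc _ _ e₃ = θ := h.hom_ext
    (by rw [h.inl_desc_assoc, Category.assoc, h₁.inl_desc, ha])
    (by rw [h.inr_desc_assoc, h₁.inr_desc, hb])
  exact e ▸ whe.comp_mem _ _ p₁ p₂

theorem rel_lift {A P B Z : SSet.{0}} (j : A ⟶ P) (i : A ⟶ B) [Mono j] [Mono i] (κ : P ⟶ B)
    (hκ : j ≫ κ = i) (hw : whe κ) (hZ : SSet.KanComplex Z) (g : P ⟶ Z) :
    ∃ (w : B ⟶ Z) (H : P ⊗ Δ[1] ⟶ Z), i ≫ w = j ≫ g ∧ SSet.ι₀ ≫ H = κ ≫ w ∧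
      SSet.ι₁ ≫ H = g ∧ j ▷ _ ≫ H = CartesianMonoidalCategory.fst _ _ ≫ j ≫ g := by
  obtain ⟨C, k₁, k₂, t, _, _, ht, e₁, e₂, e⟩ := brown j i κ hκ
  obtain ⟨k, k0, k1, -, k3⟩ := trivFib_htpy ht k₂ e₂
  have := (whe_iff_llp k₁).1 (whe.of_postcomp _ t (whe_of_trivFib ht) (e₁ ▸ hw)) Z _ _ hZ
    ((kan_iff _).2 (by
      rw [terminal.hom_ext (terminal.from _) (𝟙 _)]; exact MorphismProperty.rlp_of_isIso _ _)) ((kan_iff Z).1 hZ)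
  have sq : CommSq g k₁ (terminal.from Z) (terminal.from C) := ⟨terminal.hom_ext _ _⟩
  refine ⟨k₂ ≫ sq.lift, k₁ ▷ _ ≫ k ≫ sq.lift, ?_, ?_, ?_, ?_⟩
  · rw [← reassoc_of% e, sq.fac_left]
  · rw [SSet.ι₀_comp_assoc, reassoc_of% k0, reassoc_of% e₁]
  · rw [SSet.ι₁_comp_assoc, reassoc_of% k1, sq.fac_left]
  · rw [← comp_whiskerRight_assoc, e, comp_whiskerRight_assoc, reassoc_of% k3,
      CartesianMonoidalCategory.whiskerRight_fst_assoc, ← reassoc_of% e, sq.fac_left]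

end Vale.Agent.P213
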