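import Vale.Agent.P213.SBasic

/-!
P213, simplicial part 3: trivial fibrations; fibrations between Kan complexes.

Plan.
* `exists_factor`: small object argument for `SSet.modelCategoryQuillen.I`, copying the
  instances given for `J` in `Mathlib/AlgebraicTopology/SimplicialSet/AnodyneExtensions/Basic`;
  `SSet.rlp_monomorphisms`; the left map is a retract of a transfinite composition of pushouts of
  coproducts of monos (`SmallObject.llp_rlp_of_isCardinalForSmallObjectArgument_aleph0`,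
  stability instances in `SimplicialSet/Monomorphisms`), hence a mono.
  `mono_of_llp_trivFib` follows by the retract argument.
* `trivFib_htpy`: `lift_both` (second case) with `i := s` when a section `s` is given.
* `trivFib_of_whe_of_kan`: `p : X ⟶ Y` fibration of Kan complexes with homotopy inverse `g`.
  Lift the homotopy `g p ≃ 1` (`lift_zero` with `i` from the initial object) to get a section
  `s`, with `p s ≃ 1` by a homotopy `H`. In the fibration `(ihom X).map p` between Kan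
  complexes, take the horn `Λ[2,0]` with edges `01 = (p s ▷ Δ[1]) ≫ H` and `02 = H` over the
  degenerate 2-simplex on the edge `H ≫ p` whose `12` edge is degenerate; the `12` edge of the
  lift is a homotopy `H'` from `p s` to `1` with `H' ≫ p = fst ≫ p`. Equivalently lift against
  the anodyne map `X ◁ Λ[2,0].ι`. Then for a square `(u, v)` from a mono `i` apply `lift_zero`
  to `u ▷ _ ≫ H'`, `v ≫ s`, `fst ≫ v` and restrict along `ι₁`.
* `whe_iff_llp`, forward: for `i : K ⟶ L` mono and `whe`, `(pre i).app Z` is a fibration of Kan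
  complexes and `whe` (for every `A`, homotopy classes of maps `A ⟶ Z^L` are homotopy classes
  of maps `L ⟶ Z^A`; deduce a homotopy inverse by the Yoneda argument), so a trivial fibration.
  For `q : E ⟶ D`, the map `E^L ⟶ E^K ×_{D^K} D^L` (`SSet.fibration_pullbackObjObjπ`) is then
  a fibration of Kan complexes, `whe` by two out of three, so trivial, so onto on vertices.
  Any other correct route is fine. Backward: `whe_of_lift`.
-/

open CategoryTheory MonoidalCategory Simplicial Limits Opposite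
open CartesianMonoidalCategory MonoidalClosed

namespace Vale.Agent.P213

lemma trivFib_iff {E D : SSet.{0}} (q : E ⟶ D) :
    trivFib q ↔ ∀ n : ℕ, HasLiftingProperty (SSet.boundary.{0} n).ι q := by
  rw [trivFib, SSet.rlp_monomorphisms]
  refine ⟨fun h n => h _ (SSet.modelCategoryQuillen.boundary_ι_mem_I n), fun h => ?_⟩
  rintro _ _ _ ⟨n⟩
  exact h n

lemma kanFib_of_trivFib {E D : SSet.{0}} {q : E ⟶ D} (hq : trivFib q) : kanFib q := by
  exact MorphismProperty.antitone_rlp SSet.modelCategoryQuillen.J_le_monomorphisms _ hq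

section

open SSet.modelCategoryQuillen MorphismProperty

attribute [local instance] Cardinal.fact_isRegular_aleph0 Cardinal.orderBotAleph0OrdToType

private lemma small_I : MorphismProperty.IsSmall.{0} I.{0} := isSmall_ofHoms ..

attribute [local instance] small_I

private lemma card_I : IsCardinalForSmallObjectArgument I.{0} Cardinal.aleph0.{0} where
  preservesColimit {A B X Y} i hi f hf := by
    have : IsFinitelyPresentable.{0} A := by
      obtain ⟨n⟩ := hi
      infer_instance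
    infer_instance

attribute [local instance] card_I

private lemma soa_I : HasSmallObjectArgument.{0} I.{0} :=
  ⟨.aleph0, inferInstance, inferInstance, inferInstance⟩

private lemma llp_rlp_I : I.{0}.rlp.llp ≤ monomorphisms _ := by
  rw [SmallObject.llp_rlp_of_isCardinalForSmallObjectArgument_aleph0, retracts_le_iff]
  refine (transfiniteCompositionsOfShape_monotone ℕ ?_).trans
    (transfiniteCompositionsOfShape_le _ ℕ)
  rw [pushouts_le_iff, coproducts_le_iff]
  exact I_le_monomorphisms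

end

lemma exists_factor {K L : SSet.{0}} (f : K ⟶ L) :
    ∃ (C : SSet.{0}) (m : K ⟶ C) (t : C ⟶ L), Mono m ∧ trivFib t ∧ m ≫ t = f := by
  have := soa_I
  let d := MorphismProperty.factorizationData SSet.modelCategoryQuillen.I.rlp.llp
    SSet.modelCategoryQuillen.I.rlp f
  exact ⟨d.Z, d.i, d.p, llp_rlp_I _ d.hi, by rw [trivFib, SSet.rlp_monomorphisms]; exact d.hp,
    d.fac⟩

lemma exists_factor_anodyne {K L : SSet.{0}} (f : K ⟶ L) :
    ∃ (C : SSet.{0}) (m : K ⟶ C) (t : C ⟶ L),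
      SSet.anodyneExtensions m ∧ kanFib t ∧ m ≫ t = f := by
  let d := MorphismProperty.factorizationData SSet.modelCategoryQuillen.J.rlp.llp
    SSet.modelCategoryQuillen.J.rlp f
  exact ⟨d.Z, d.i, d.p, d.hi, d.hp, d.fac⟩

lemma mono_of_llp_trivFib {K L : SSet.{0}} (i : K ⟶ L)
    (h : ∀ (E D : SSet.{0}) (q : E ⟶ D), trivFib q → HasLiftingProperty i q) : Mono i := by
  refine llp_rlp_I i fun E D q hq => h E D q ?_
  rwa [trivFib, SSet.rlp_monomorphisms]

private lemma init_ext {T Z : SSet.{0}} (f g : (⊥_ SSet.{0}) ⊗ T ⟶ Z) : f = g :=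
  (initialIsInitial.ofIso (mulZero initialIsInitial).symm).hom_ext f g

private lemma mono_init (X : SSet.{0}) : Mono (initial.to X) := initial_mono X initialIsInitial

attribute [local instance] mono_init

/-- the homotopy lifting property -/
private lemma hlp {B E D : SSet.{0}} {q : E ⟶ D} (hq : kanFib q) (v : B ⟶ E) (H : B ⊗ Δ[1] ⟶ D)
    (h : v ≫ q = SSet.ι₀ ≫ H) : ∃ w : B ⊗ Δ[1] ⟶ E, SSet.ι₀ ≫ w = v ∧ w ≫ q = H := by
  obtain ⟨w, -, h1, h2⟩ := lift_zero (initial.to B) hq (fst _ _ ≫ initial.to E) v H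
    (initial.hom_ext _ _) (init_ext _ _) h
  exact ⟨w, h1, h2⟩

private lemma anodyne_zero (B : SSet.{0}) : SSet.anodyneExtensions (SSet.ι₀ : B ⟶ B ⊗ Δ[1]) := by
  intro E D q hq
  refine ⟨fun {v H} sq => ?_⟩
  obtain ⟨w, h1, h2⟩ := hlp hq v H sq.w
  exact ⟨⟨⟨w, h1, h2⟩⟩⟩

lemma trivFib_section {E D : SSet.{0}} {q : E ⟶ D} (hq : trivFib q) :
    ∃ s : D ⟶ E, s ≫ q = 𝟙 D := by
  have := hq (initial.to D) (mono_init D)
  have sq : CommSq (initial.to E) (initial.to D) q (𝟙 D) := ⟨initial.hom_ext _ _⟩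
  exact ⟨sq.lift, sq.fac_right⟩

/-- A fibrewise homotopy from `q s` to the identity, constant on the section. -/
lemma trivFib_htpy {E D : SSet.{0}} {q : E ⟶ D} (hq : trivFib q) (s : D ⟶ E)
    (hs : s ≫ q = 𝟙 D) :
    ∃ h : E ⊗ Δ[1] ⟶ E, SSet.ι₀ ≫ h = q ≫ s ∧ SSet.ι₁ ≫ h = 𝟙 E ∧
      h ≫ q = CartesianMonoidalCategory.fst _ _ ≫ q ∧
      s ▷ _ ≫ h = CartesianMonoidalCategory.fst _ _ ≫ s := by
  have : Mono s := mono_of_mono_fac hs
  obtain ⟨w, h1, h2, h3, h4⟩ := lift_both s (Or.inr hq) (fst _ _ ≫ s) (q ≫ s) (𝟙 E)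
    (fst _ _ ≫ q) (by rw [SSet.ι₀_fst_assoc, reassoc_of% hs]) (by simp)
    (by rw [whiskerRight_fst_assoc, Category.assoc]) (by simp [hs]) (by simp)
  exact ⟨w, h2, h3, h4, h1⟩

lemma whe_of_trivFib {E D : SSet.{0}} {q : E ⟶ D} (hq : trivFib q) : whe q := by
  obtain ⟨s, hs⟩ := trivFib_section hq
  obtain ⟨h, h0, h1, -⟩ := trivFib_htpy hq s hs
  exact whe_of_zhtpy_equiv q s (Relation.EqvGen.rel _ _ ⟨h, h0, h1⟩) (hs ▸ Relation.EqvGen.refl _)

lemma exists_htpy_inverse {X Y : SSet.{0}} (hX : SSet.KanComplex X) (hY : SSet.KanComplex Y)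
    {f : X ⟶ Y} (hf : whe f) : ∃ g : Y ⟶ X, Htpy (f ≫ g) (𝟙 X) ∧ Htpy (g ≫ f) (𝟙 Y) := by
  obtain ⟨g, hg⟩ := (hf X hX).1 (𝟙 X)
  refine ⟨g, hg, (hf Y hY).2 _ _ ?_⟩
  simpa using hg.postcomp f

theorem trivFib_of_whe_of_kan {X Y : SSet.{0}} (hY : SSet.KanComplex Y) {p : X ⟶ Y}
    (hp : kanFib p) (hw : whe p) : trivFib p := by
  have hX := kan_of_kanFib hp hY
  obtain ⟨g, h1, G, G0, G1⟩ := exists_htpy_inverse hX hY hw
  obtain ⟨w, w0, w1⟩ := hlp hp g G G0.symm
  obtain ⟨s, hs⟩ : ∃ s, s = SSet.ι₁ ≫ w := ⟨_, rfl⟩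
  have e : s ≫ p = 𝟙 Y := by rw [hs, Category.assoc, w1, G1]
  obtain ⟨H, H0, H1⟩ := ((Htpy.precomp ⟨w, w0, hs.symm⟩ p).symm hX).trans hX h1
  have := mono_of_anodyne (anodyne_zero X)
  obtain ⟨k, k1, k2, k3, k4⟩ := lift_both SSet.ι₀ (Or.inl ⟨anodyne_zero X, hp⟩) (fst _ _ ≫ p ≫ s)
    (H ≫ p ≫ s) H (fst _ _ ≫ H ≫ p)
    (by rw [SSet.ι₀_fst_assoc, reassoc_of% H0, reassoc_of% e]) (by rw [SSet.ι₁_fst_assoc, H0])
    (by rw [whiskerRight_fst_assoc, reassoc_of% H0, Category.assoc, Category.assoc])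
    (by simp [e]) (by simp)
  intro A B i hi
  have : Mono i := hi
  refine ⟨fun {u v} sq => ?_⟩
  obtain ⟨m, m1, -, m3⟩ := lift_zero i hp (u ▷ _ ≫ SSet.ι₁ ▷ _ ≫ k) (v ≫ s) (fst _ _ ≫ v)
    (by rw [SSet.ι₀_comp_assoc, SSet.ι₀_comp_assoc, k2, reassoc_of% H1, sq.w_assoc])
    (by rw [Category.assoc, Category.assoc, k4, whiskerRight_fst_assoc, reassoc_of% H1,
      whiskerRight_fst_assoc, whiskerRight_fst_assoc, sq.w]) (by simp [e])
  refine ⟨⟨⟨SSet.ι₁ ≫ m, ?_, ?_⟩⟩⟩
  · rw [← SSet.ι₁_comp_assoc, m1, SSet.ι₁_comp_assoc, SSet.ι₁_comp_assoc, k3, H1, Category.comp_id]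
  · rw [Category.assoc, m3, SSet.ι₁_fst_assoc]

private lemma htpy_uncurry {L A Z : SSet.{0}} {f g : A ⟶ (ihom L).obj Z} :
    Htpy f g ↔ Htpy (uncurry f) (uncurry g) := by
  constructor
  · rintro ⟨h, rfl, rfl⟩
    refine ⟨(α_ _ _ _).hom ≫ uncurry h, ?_, ?_⟩ <;> rw [uncurry_natural_left] <;> rfl
  · rintro ⟨h, h0, h1⟩
    refine ⟨curry ((α_ _ _ _).inv ≫ h), ?_, ?_⟩
    · rw [← curry_natural_left, ← curry_uncurry f, ← h0]; rfl
    · rw [← curry_natural_left, ← curry_uncurry g, ← h1]; rfl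

private lemma kan_ihom (A : SSet.{0}) {Z : SSet.{0}} (hZ : SSet.KanComplex Z) :
    SSet.KanComplex ((ihom A).obj Z) := inferInstance

private lemma whe_whiskerLeft (A : SSet.{0}) {K L : SSet.{0}} {i : K ⟶ L} (hi : whe i) :
    whe (A ◁ i) := by
  intro Z hZ
  obtain ⟨h1, h2⟩ := hi _ (kan_ihom A hZ)
  refine ⟨fun g => ?_, fun h h' e => ?_⟩
  · obtain ⟨h, e⟩ := h1 (curry g)
    rw [htpy_uncurry, uncurry_natural_left, uncurry_curry] at e
    exact ⟨_, e⟩
  · have := h2 (curry h) (curry h') (by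
      rwa [htpy_uncurry, uncurry_natural_left, uncurry_natural_left, uncurry_curry, uncurry_curry])
    rwa [htpy_uncurry, uncurry_curry, uncurry_curry] at this

private lemma whe_whiskerRight (A : SSet.{0}) {K L : SSet.{0}} {i : K ⟶ L} (hi : whe i) :
    whe (i ▷ A) :=
  whe.of_postcomp _ (β_ _ _).hom (whe_of_isIso _) (by
    rw [BraidedCategory.braiding_naturality_left]
    exact whe.comp_mem _ _ (whe_of_isIso _) (whe_whiskerLeft A hi))

private lemma trivFib_pre {K L Z : SSet.{0}} (i : K ⟶ L) [Mono i] (hi : whe i)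
    (hZ : SSet.KanComplex Z) : trivFib ((pre i).app Z) := by
  refine trivFib_of_whe_of_kan (kan_ihom K hZ) ((kanFib_iff _).2 inferInstance) ?_
  obtain ⟨h, e⟩ := (whe_whiskerRight _ hi Z hZ).1 (uncurry (𝟙 ((ihom K).obj Z)))
  have e1 : Htpy (curry h ≫ (pre i).app Z) (𝟙 _) := by
    rwa [htpy_uncurry, uncurry_pre_app, uncurry_curry]
  refine whe_of_zhtpy_equiv _ (curry h) (Relation.EqvGen.rel _ _ ?_) (Relation.EqvGen.rel _ _ e1)
  refine htpy_uncurry.2 ((whe_whiskerRight _ hi Z hZ).2 _ _ ?_)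
  rw [← uncurry_pre_app, ← uncurry_pre_app, ← htpy_uncurry]
  simpa using e1.precomp ((pre i).app Z)

/-- two maps that agree on `K` are homotopic relative to `K` -/
private lemma rel_htpy {K L Z : SSet.{0}} (i : K ⟶ L) [Mono i] (hi : whe i)
    (hZ : SSet.KanComplex Z) (a b : L ⟶ Z) (h : i ≫ a = i ≫ b) :
    ∃ G : L ⊗ Δ[1] ⟶ Z, SSet.ι₀ ≫ G = a ∧ SSet.ι₁ ≫ G = b ∧ i ▷ _ ≫ G = fst _ _ ≫ i ≫ a := by
  obtain ⟨w, -, w0, w1, w2⟩ := lift_both (initial.to (𝟙_ SSet.{0}))
    (Or.inr (trivFib_pre i hi hZ)) (fst _ _ ≫ initial.to _) (curry (fst _ _ ≫ a))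
    (curry (fst _ _ ≫ b)) (curry (fst _ _ ≫ i ≫ a)) (initial.hom_ext _ _) (initial.hom_ext _ _)
    (init_ext _ _) (by rw [curry_pre_app, ← curry_natural_left, whiskerLeft_fst_assoc, whiskerRight_fst_assoc])
    (by rw [curry_pre_app, ← curry_natural_left, whiskerLeft_fst_assoc, whiskerRight_fst_assoc, h])
  refine ⟨L ◁ (λ_ _).inv ≫ uncurry w, ?_, ?_, ?_⟩
  · have := congrArg (fun z => (ρ_ L).inv ≫ uncurry z) w0
    simp only [uncurry_natural_left, uncurry_curry, rightUnitor_inv_fst_assoc] at this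
    rw [← this]; rfl
  · have := congrArg (fun z => (ρ_ L).inv ≫ uncurry z) w1
    simp only [uncurry_natural_left, uncurry_curry, rightUnitor_inv_fst_assoc] at this
    rw [← this]; rfl
  · rw [← whisker_exchange_assoc, ← uncurry_pre_app, w2, uncurry_curry, whiskerLeft_fst_assoc]

theorem whe_iff_llp {K L : SSet.{0}} (i : K ⟶ L) [Mono i] :
    whe i ↔ ∀ (E D : SSet.{0}) (q : E ⟶ D), SSet.KanComplex E → SSet.KanComplex D → kanFib q →
      HasLiftingProperty i q := by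
  refine ⟨fun hi E D q hE hD hq => ⟨fun {u v} sq => ?_⟩,
    fun h => whe_of_lift i fun E D q hE hD hq f d e => ?_⟩
  · obtain ⟨h, k, k0, k1⟩ := (hi E hE).1 u
    obtain ⟨w, w1, -⟩ := lift_zero i ((kan_iff E).1 hE) k h (terminal.from _) k0
      (terminal.hom_ext _ _) (terminal.hom_ext _ _)
    have e : i ≫ SSet.ι₁ ≫ w = u := by rw [← SSet.ι₁_comp_assoc, w1, k1]
    obtain ⟨G, G0, G1, G2⟩ := rel_htpy i hi hD (SSet.ι₁ ≫ w ≫ q) v (by rw [reassoc_of% e, sq.w])
    obtain ⟨m, m1, -, m3⟩ := lift_zero i hq (fst _ _ ≫ u) (SSet.ι₁ ≫ w) G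
      (by rw [e, SSet.ι₀_fst_assoc]) (by rw [G2, reassoc_of% e, Category.assoc])
      (by rw [G0, Category.assoc])
    refine ⟨⟨⟨SSet.ι₁ ≫ m, ?_, ?_⟩⟩⟩
    · rw [← SSet.ι₁_comp_assoc, m1, SSet.ι₁_fst_assoc]
    · rw [Category.assoc, m3, G1]
  · have := h E D q hE hD hq
    have sq : CommSq f i q d := ⟨e⟩
    exact ⟨sq.lift, sq.fac_right, by rw [sq.fac_left]; exact Htpy.refl f⟩

private def kk : MorphismProperty SSet.{0} := fun E D q =>
  SSet.KanComplex E ∧ SSet.KanComplex D ∧ kanFib q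

private lemma llp_kk {K L : SSet.{0}} (i : K ⟶ L) [Mono i] (hi : whe i) : kk.llp i :=
  fun _ _ q h => (whe_iff_llp i).1 hi _ _ q h.1 h.2.1 h.2.2

private lemma whe_of_llp_kk {K L : SSet.{0}} {i : K ⟶ L} (h : kk.llp i) : whe i :=
  whe_of_lift i fun _ _ q hE hD hq f d e => by
    have := h q ⟨hE, hD, hq⟩
    have sq : CommSq f i q d := ⟨e⟩
    exact ⟨sq.lift, sq.fac_right, by rw [sq.fac_left]; exact Htpy.refl f⟩

/-- Monos that are `whe` are stable under pushouts. -/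
lemma whe_pushout_of_mono {A B X Y : SSet.{0}} {g : A ⟶ X} {i : A ⟶ B} {a : X ⟶ Y}
    {b : B ⟶ Y} (h : IsPushout g i a b) [Mono i] (hi : whe i) : whe a := by
  exact whe_of_llp_kk (kk.llp.of_isPushout h (llp_kk i hi))

/-- Monos that are `whe` are stable under sequential compositions. -/
lemma whe_seq (F : ℕ ⥤ SSet.{0}) (c : Cocone F) (hc : IsColimit c)
    (hm : ∀ n, Mono (F.map (homOfLE (Nat.le_succ n))))
    (hw : ∀ n, whe (F.map (homOfLE (Nat.le_succ n)))) : whe (c.ι.app 0) := by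
  refine whe_of_llp_kk (MorphismProperty.transfiniteCompositionsOfShape_le kk.llp ℕ _
    ⟨{ F := F, isoBot := Iso.refl _, incl := c.ι, isColimit := hc, fac := Category.id_comp _,
       map_mem := fun j _ => ?_ }⟩)
  exact @llp_kk _ _ _ (hm j) (hw j)

end Vale.Agent.P213
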