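import Vale.Agent.P213.SRho

/-!
P213, simplicial part 9: a Kan fibration that is a `whe` is a trivial fibration; the
Kan-Quillen model structure.

Plan.
* `trivFib_of_fibres`: for a square `(u, v)` from `∂Δ[n].ι`, let `H : Δ[n] ⊗ Δ[1] ⟶ Δ[n]` go from
  the identity to the constant map at the last vertex (`nhtpy`, `stdSimplex.isoNerve`). Lift
  `ι ▷ _ ≫ H ≫ v` starting from `u` (`lift_zero` with the initial object), extend the time one map
  inside the fibre, then `lift_one`, and restrict to time zero.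
* Build the tower `X ⟶ ex X ⟶ ex (ex X) ⟶ ⋯` (`Functor.ofSequence`, transition maps `rho`),
  natural in `X` (`NatTrans.ofSequence`), with colimit `R X`. `R X` is Kan (`ex_horn_fill`, horns
  are finitely presentable), `X ⟶ R X` is a `whe` (`whe_seq`, `mono_rho`, `whe_rho`), `R p` is a
  fibration (`kanFib_ex`, finite presentability), so a trivial fibration
  (`trivFib_of_whe_of_kan`). For a fibre `F`, `R F ⟶ ⊤` has the lifting property against
  `∂Δ[n].ι` (factor through a finite stage; `ex` preserves pullbacks and the terminal object), so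
  `F ⟶ ⊤` is a `whe` and a fibration, so trivial.
* `exists_kanQuillen`: `ModelCategory.mk'` or the direct constructor; `exists_factor`,
  `exists_factor_anodyne`, `whe_of_anodyne`, retract argument for `anodyne_of_whe`.
-/

open CategoryTheory MonoidalCategory Simplicial Limits Opposite HomotopicalAlgebra

namespace Vale.Agent.P213

lemma kq_contraction (n : ℕ) : ∃ (H : (Δ[n] : SSet.{0}) ⊗ Δ[1] ⟶ Δ[n])
    (c : ⊤_ SSet.{0} ⟶ Δ[n]), SSet.ι₀ ≫ H = 𝟙 _ ∧ SSet.ι₁ ≫ H = terminal.from _ ≫ c := by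
  let e : (Δ[n] : SSet.{0}) ≅ nerve (Ord n) := SSet.stdSimplex.isoNerve n
  let t : Ord n := ULift.up (Fin.last n)
  let g : Ord n →o Ord n := OrderHom.const _ t
  have hg : ∀ x, (OrderHom.id : Ord n →o Ord n) x ≤ g x := fun x => Fin.le_last x.down
  let c : ⊤_ SSet.{0} ⟶ nerve (Ord n) :=
    { app := fun m => TypeCat.ofHom fun _ => nmk (fun _ => t) monotone_const
      naturality := fun a b f => by
        ext x : 3
        exact nerve_ext (E := Ord n) fun i => rfl }
  refine ⟨e.hom ▷ _ ≫ nhtpy OrderHom.id g hg ≫ e.inv, c ≫ e.inv, ?_, ?_⟩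
  · rw [SSet.ι₀_comp_assoc, ← Category.assoc SSet.ι₀, ι₀_nhtpy, nmap_id, Category.id_comp,
      e.hom_inv_id]
  · rw [SSet.ι₁_comp_assoc, ← Category.assoc SSet.ι₁, ι₁_nhtpy, ← Category.assoc,
      ← Category.assoc]
    rfl

lemma trivFib_of_fibres {X Y : SSet.{0}} {p : X ⟶ Y} (hp : kanFib p)
    (h : ∀ (y : ⊤_ SSet.{0} ⟶ Y), trivFib (pullback.snd p y)) : trivFib p := by
  rw [trivFib_iff]
  intro n
  refine sb_hlp fun u v huv => ?_
  obtain ⟨H, c, h₀, h₁⟩ := kq_contraction n
  obtain ⟨w, hw₀, hw⟩ := sb_exists_lift (anodyne_lift (sb_anodyne_ι 0 _) hp) u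
    ((SSet.boundary n).ι ▷ _ ≫ H ≫ v) (by
      rw [← Category.assoc, sbι_comp, Category.assoc, huv]
      congr 1
      change v = SSet.ι₀ ≫ H ≫ v
      rw [reassoc_of% h₀])
  replace hw₀ : SSet.ι₀ ≫ w = u := hw₀
  have hsq : (SSet.ι₁ ≫ w) ≫ p = terminal.from _ ≫ c ≫ v := by
    rw [Category.assoc, hw, SSet.ι₁_comp_assoc, reassoc_of% h₁, terminal.comp_from_assoc]
  have hl : HasLiftingProperty (SSet.boundary n).ι (pullback.snd p (c ≫ v)) :=
    h (c ≫ v) _ (MorphismProperty.monomorphisms.infer_property _)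
  obtain ⟨l, hl₁, -⟩ := sb_exists_lift hl (pullback.lift _ _ hsq) (terminal.from _)
    (terminal.hom_ext _ _)
  obtain ⟨w', e₁, -, e₃⟩ := lift_one (SSet.boundary n).ι hp w (l ≫ pullback.fst _ _) (H ≫ v)
    (by rw [reassoc_of% hl₁, pullback.lift_fst]) hw (by
      rw [Category.assoc, pullback.condition, reassoc_of% h₁, ← Category.assoc l]
      congr 1
      exact terminal.hom_ext _ _)
  refine ⟨SSet.ι₀ ≫ w', ?_, ?_⟩
  · rw [← SSet.ι₀_comp_assoc, e₁, hw₀]
  · rw [Category.assoc, e₃, reassoc_of% h₀]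

/-- The iterates of `ex`. -/
noncomputable def kqIter (n : ℕ) : SSet.{0} ⥤ SSet.{0} :=
  Nat.rec (𝟭 SSet.{0}) (fun _ F => F ⋙ SSet.ex) n

/-- The transition maps of the tower. -/
noncomputable def kqStep (n : ℕ) : kqIter n ⟶ kqIter (n + 1) where
  app X := rho.app ((kqIter n).obj X)
  naturality _ _ f := rho_nat ((kqIter n).map f)

/-- The tower of the iterates of `ex`, as a functor of the simplicial set. -/
noncomputable def kqTower : SSet.{0} ⥤ ℕ ⥤ SSet.{0} := (Functor.ofSequence kqStep).flip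

lemma kqTower_succ (X : SSet.{0}) (n : ℕ) :
    (kqTower.obj X).map (homOfLE (Nat.le_succ n)) = rho.app ((kqIter n).obj X) :=
  congrArg (fun φ => NatTrans.app φ X) (Functor.ofSequence_map_homOfLE_succ kqStep n)

lemma kqIter_lim (n : ℕ) : PreservesFiniteLimits (kqIter n) := by
  induction n with
  | zero => exact inferInstanceAs (PreservesFiniteLimits (𝟭 _))
  | succ n ih =>
    have : PreservesLimits SSet.ex.{0} := SSet.sdExAdjunction.rightAdjoint_preservesLimits
    exact inferInstanceAs (PreservesFiniteLimits (kqIter n ⋙ SSet.ex))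

lemma kqTower_lim : PreservesFiniteLimits kqTower :=
  preservesFiniteLimits_of_evaluation _ fun n => kqIter_lim n

lemma kqIter_kanFib {X Y : SSet.{0}} {p : X ⟶ Y} (hp : kanFib p) (n : ℕ) :
    kanFib ((kqIter n).map p) := by
  induction n with
  | zero => exact hp
  | succ n ih => exact kanFib_ex ih

/-- The functor `ex` iterated infinitely often. -/
noncomputable def kqInf : SSet.{0} ⥤ SSet.{0} := kqTower ⋙ colim

lemma kqInf_lim : PreservesFiniteLimits kqInf := by
  have := kqTower_lim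
  have : PreservesFiniteLimits (colim : (ℕ ⥤ SSet.{0}) ⥤ SSet.{0}) :=
    HasExactColimitsOfShape.preservesFiniteLimits
  exact inferInstanceAs (PreservesFiniteLimits (kqTower ⋙ colim))

/-- The canonical map to the colimit of the tower. -/
noncomputable def kqEta (X : SSet.{0}) : X ⟶ kqInf.obj X := colimit.ι (kqTower.obj X) 0

lemma kqEta_nat {X Y : SSet.{0}} (f : X ⟶ Y) : kqEta X ≫ kqInf.map f = f ≫ kqEta Y :=
  ι_colimMap (kqTower.map f) 0

lemma whe_kqEta (X : SSet.{0}) : whe (kqEta X) :=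
  whe_seq (kqTower.obj X) _ (colimit.isColimit _)
    (fun n => by rw [kqTower_succ]; exact mono_rho _)
    (fun n => by rw [kqTower_succ]; exact whe_rho _)

lemma whe_kqInf_iff {X Y : SSet.{0}} (f : X ⟶ Y) : whe (kqInf.map f) ↔ whe f := by
  constructor
  · intro h
    refine whe.of_postcomp f (kqEta Y) (whe_kqEta Y) ?_
    rw [← kqEta_nat]
    exact whe.comp_mem _ _ (whe_kqEta X) h
  · intro h
    refine whe.of_precomp (kqEta X) _ (whe_kqEta X) ?_
    rw [kqEta_nat]
    exact whe.comp_mem _ _ h (whe_kqEta Y)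

lemma kq_kanFib_of {E D : SSet.{0}} {q : E ⟶ D}
    (h : ∀ (m : ℕ) (k : Fin (m + 2)), HasLiftingProperty (SSet.horn.{0} (m + 1) k).ι q) :
    kanFib q := by
  intro A B i hi
  simp only [SSet.modelCategoryQuillen.J, MorphismProperty.iSup_iff] at hi
  obtain ⟨m, ⟨k⟩⟩ := hi
  exact h m k

lemma kq_horn_lift {E D : SSet.{0}} {q : E ⟶ D} (hq : kanFib q) (m : ℕ) (k : Fin (m + 2)) :
    HasLiftingProperty (SSet.horn.{0} (m + 1) k).ι q := by
  apply hq
  simp only [SSet.modelCategoryQuillen.J, MorphismProperty.iSup_iff]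
  exact ⟨m, ⟨k⟩⟩

lemma kq_fill_step {K L : SSet.{0}} (i : K ⟶ L) (D : ℕ ⥤ SSet.{0}) (j : ℕ) (u : K ⟶ D.obj j)
    (l : L ⟶ D.obj (j + 1 + 1))
    (h : i ≫ l = (u ≫ D.map (homOfLE (Nat.le_succ j))) ≫ D.map (homOfLE (Nat.le_succ (j + 1)))) :
    i ≫ l ≫ colimit.ι D (j + 1 + 1) = u ≫ colimit.ι D j := by
  rw [reassoc_of% h, colimit.w, colimit.w]

lemma kan_kqInf (X : SSet.{0}) : SSet.KanComplex (kqInf.obj X) := by
  rw [kan_iff]
  refine kq_kanFib_of fun m k => sb_hlp fun u v _ => ?_
  obtain ⟨j, u', rfl⟩ := IsFinitelyPresentable.exists_hom_of_isColimit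
    (colimit.isColimit (kqTower.obj X)) u
  obtain ⟨l, hl⟩ := ex_horn_fill ((kqIter j).obj X) m k (u' ≫ rho.app _)
  refine ⟨l ≫ colimit.ι (kqTower.obj X) (j + 1 + 1), ?_, terminal.hom_ext _ _⟩
  refine kq_fill_step _ (kqTower.obj X) j u' l ?_
  rw [kqTower_succ, kqTower_succ]
  exact hl

/-- Lifting properties against maps of finitely presentable objects pass to sequential
colimits. -/
lemma kq_lift_colim {K L : SSet.{0}} [IsFinitelyPresentable.{0} K] [IsFinitelyPresentable.{0} L]
    (i : K ⟶ L) {D D' : ℕ ⥤ SSet.{0}} (φ : D ⟶ D') (h : ∀ n, HasLiftingProperty i (φ.app n)) :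
    HasLiftingProperty i (colimMap φ) := by
  refine sb_hlp fun u v huv => ?_
  obtain ⟨a, u', rfl⟩ := IsFinitelyPresentable.exists_hom_of_isColimit (colimit.isColimit D) u
  obtain ⟨b, v', rfl⟩ := IsFinitelyPresentable.exists_hom_of_isColimit (colimit.isColimit D') v
  obtain ⟨c, s, t, hst⟩ := IsFinitelyPresentable.exists_eq_of_isColimit (colimit.isColimit D')
    (u' ≫ φ.app a) (i ≫ v') (by simpa using huv)
  obtain ⟨l, h₁, h₂⟩ := sb_exists_lift (h c) (u' ≫ D.map s) (v' ≫ D'.map t)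
    (by simpa using hst)
  refine ⟨l ≫ colimit.ι D c, ?_, ?_⟩
  · simp [reassoc_of% h₁]
  · simp [reassoc_of% h₂]

lemma kanFib_kqInf {X Y : SSet.{0}} {p : X ⟶ Y} (hp : kanFib p) : kanFib (kqInf.map p) :=
  kq_kanFib_of fun m k =>
    kq_lift_colim _ (kqTower.map p) fun n => kq_horn_lift (kqIter_kanFib hp n) m k

theorem trivFib_of_whe {X Y : SSet.{0}} {p : X ⟶ Y} (hp : kanFib p) (hw : whe p) :
    trivFib p := by
  have h₁ : trivFib (kqInf.map p) :=
    trivFib_of_whe_of_kan (kan_kqInf Y) (kanFib_kqInf hp) ((whe_kqInf_iff p).2 hw)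
  refine trivFib_of_fibres hp fun y => ?_
  have := kqInf_lim
  have hsq := (IsPullback.of_hasPullback p y).map kqInf
  have h₂ : trivFib (kqInf.map (pullback.snd p y)) :=
    MorphismProperty.of_isPullback (P := (MorphismProperty.monomorphisms SSet.{0}).rlp) hsq h₁
  have hT : SSet.KanComplex (⊤_ SSet.{0}) := by
    rw [kan_iff, Subsingleton.elim (terminal.from (⊤_ SSet.{0})) (𝟙 _)]
    exact MorphismProperty.id_mem SSet.modelCategoryQuillen.J.rlp _
  exact trivFib_of_whe_of_kan hT
    (MorphismProperty.of_isPullback (P := SSet.modelCategoryQuillen.J.rlp)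
      (IsPullback.of_hasPullback p y) hp)
    ((whe_kqInf_iff _).1 (whe_of_trivFib h₂))

theorem anodyne_of_whe {K L : SSet.{0}} (i : K ⟶ L) [Mono i] (hw : whe i) :
    SSet.anodyneExtensions i := by
  obtain ⟨C, m, t, hm, ht, e⟩ := exists_factor_anodyne i
  have ht' : trivFib t :=
    trivFib_of_whe ht (whe.of_precomp m t (whe_of_anodyne hm) (by rwa [e]))
  obtain ⟨l, h₁, h₂⟩ := sb_exists_lift
    (ht' i (MorphismProperty.monomorphisms.infer_property _)) m (𝟙 L) (by simp [e])
  intro E D q hq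
  refine sb_hlp fun u v huv => ?_
  obtain ⟨w, e₁, e₂⟩ := sb_exists_lift (anodyne_lift hm hq) u (t ≫ v)
    (by rw [reassoc_of% e, huv])
  exact ⟨l ≫ w, by rw [reassoc_of% h₁, e₁], by rw [Category.assoc, e₂, reassoc_of% h₂]⟩

theorem exists_kanQuillen : ∃ M : ModelCategory SSet.{0},
    M.categoryWithCofibrations.cofibrations = MorphismProperty.monomorphisms _ ∧
    M.categoryWithFibrations.fibrations = kanFib ∧
    M.categoryWithWeakEquivalences.weakEquivalences = whe := by
  let a : CategoryWithFibrations SSet.{0} := ⟨kanFib⟩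
  let b : CategoryWithCofibrations SSet.{0} := ⟨MorphismProperty.monomorphisms _⟩
  let c : CategoryWithWeakEquivalences SSet.{0} := ⟨whe⟩
  refine ⟨{
    categoryWithFibrations := a
    categoryWithCofibrations := b
    categoryWithWeakEquivalences := c
    cm2 := (inferInstance : whe.HasTwoOutOfThreeProperty)
    cm3a := (inferInstance : whe.IsStableUnderRetracts)
    cm3b := (inferInstance : SSet.modelCategoryQuillen.J.rlp.IsStableUnderRetracts)
    cm3c := (inferInstance : (MorphismProperty.monomorphisms SSet.{0}).IsStableUnderRetracts)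
    cm4a := fun i p hi hw hp => ?_
    cm4b := fun i p hi hp hw => ?_
    cm5a := ⟨fun f => ?_⟩
    cm5b := ⟨fun f => ?_⟩ }, rfl, rfl, rfl⟩
  · have : Mono i := (cofibration_iff i).1 hi
    exact anodyne_lift (anodyne_of_whe i ((weakEquivalence_iff i).1 hw)) ((fibration_iff p).1 hp)
  · exact trivFib_of_whe ((fibration_iff p).1 hp) ((weakEquivalence_iff p).1 hw) i
      ((cofibration_iff i).1 hi)
  · obtain ⟨C, m, t, hm, ht, e⟩ := exists_factor_anodyne f
    exact ⟨{ Z := C, i := m, p := t, fac := e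
             hi := ⟨mono_of_anodyne hm, whe_of_anodyne hm⟩, hp := ht }⟩
  · obtain ⟨C, m, t, hm, ht, e⟩ := exists_factor f
    exact ⟨{ Z := C, i := m, p := t, fac := e
             hi := hm, hp := ⟨kanFib_of_trivFib ht, whe_of_trivFib ht⟩ }⟩

end Vale.Agent.P213
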