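import Vale.Agent.P213.SSdFib
import Vale.Agent.P213.SGlue

/-!
P213, simplicial part 7: the last vertex map of a subcomplex of a simplex is a `whe`, and
`Z ⟶ ex Z` is a `whe` for a Kan complex `Z`.

Plan.
* `whe_lam_sub`: strong induction on the number of faces `(subFaces S).ncard` (or on `S` in the
  finite lattice of subcomplexes). If `S = ⊥` both sides are initial (`lam` is an iso). If
  `subFaces S` has a largest element `t`, both sides are contractible: `sd S ≅ nerve (subFaces S)`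
  (`whe_nerve_of_top`) and `S` is isomorphic to the nerve of the subposet `t.finset` of
  `Ord m`. Otherwise take a maximal face `t`, `S₁` the face of `t`, `S₂` the simplices of `S`
  whose set of vertices is not `t`: `S = S₁ ⊔ S₂`, and `S₁`, `S₂`, `S₁ ⊓ S₂` are smaller. Use
  `SSet.Subcomplex.BicartSq.isPushout`, its image under the left adjoint `sd`, `mono_sd_map`,
  `lam_nat` and `whe_glue`.
* `whe_rho_kan`: let `M` be the pullback of `ex.map (ev₁ Z)` along `rho.app Z`, with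
  `π : M ⟶ ex (pathObj Z) ⟶ ex Z` given by `ex.map (ev₀ Z)`. The projection `M ⟶ Z` is a
  trivial fibration (pullback of `trivFib_ex (trivFib_ev₁ _)`) with the section given by constant
  paths `σ`, and `σ ≫ π = rho`. So it suffices that `π` is a trivial fibration (`trivFib_iff`).
  A square from `∂Δ[m].ι` gives `u : ∂Δ[m] ⟶ Z`, `v : sd Δ[m] ⟶ Z` and a homotopy `G` on
  `sd ∂Δ[m]` from `v` to `lam ≫ u`. Extend `G` to `G'` from `v` to `v'` (`lift_zero`);
  `v'` and `u` define `g` on the pushout `P` of `lam ∂Δ[m]` and `sd.map ι`; `κ : P ⟶ Δ[m]` is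
  a `whe` (`whe_pushout`, `whe_lam_sub`, `whe_lam_std`); `rel_lift` gives `w` and `H`.
  Finally compose the homotopy `G'` with the reverse of `H` relative to `sd ∂Δ[m]`: this is one
  lifting problem (`lift_one`) for the fibration `kanFib_ev Z : pathObj Z ⟶ Z ⊗ Z`, with
  `A = sd ∂Δ[m]`, `B = sd Δ[m]`, `u = fst ≫ toPath G`, `v = toPath G'` and base homotopy
  `lift (fst ≫ v) (H restricted to sd Δ[m])`; restrict the lift to time zero.
-/

open CategoryTheory MonoidalCategory Simplicial Limits Opposite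

namespace Vale.Agent.P213

open CartesianMonoidalCategory

lemma slam_mem {E : Type} [PartialOrder E] {n : SimplexCategoryᵒᵖ} (x : (nerve E).obj n) (e : E) :
    e ∈ (simpCh x).finset ↔ ∃ i, x.obj i = e := by
  refine (PartialOrder.NonemptyFiniteChains.mem_map_iff _ _ _).trans ?_
  exact ⟨fun ⟨i, _, h⟩ => ⟨i.down, h⟩, fun ⟨i, h⟩ => ⟨⟨i⟩, Finset.mem_univ _, h⟩⟩

lemma slam_top {K : SSet.{0}} {A : Type} [PartialOrder A] (D : SdData K A) (t : A)
    (ht : ∀ a, a ≤ t) (hK : whe (terminal.from K)) : whe (lam K) := by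
  refine whe_of_terminal _ ?_ hK
  have := D.isIso_comp
  rw [terminal.hom_ext (terminal.from _) (D.comp ≫ terminal.from _)]
  exact whe.comp_mem _ _ (whe_of_isIso _) (whe_nerve_of_top t ht)

lemma whe_lam_std (m : ℕ) : whe (lam (Δ[m] : SSet.{0})) :=
  slam_top (sdStd m) (ordTop m) (fun _ _ _ => Finset.mem_univ _) (whe_terminal_stdSimplex m)

/-- The set of vertices of a simplex of the standard simplex. -/
noncomputable def slamV {m : ℕ} {n : SimplexCategoryᵒᵖ} (x : (Δ[m] : SSet.{0}).obj n) :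
    Chain (Ord m) := simpCh ((SSet.stdSimplex.isoNerve m).hom.app n x)

lemma slamV_map {m : ℕ} {n n' : SimplexCategoryᵒᵖ} (a : n ⟶ n') (x : (Δ[m] : SSet.{0}).obj n) :
    slamV ((Δ[m] : SSet.{0}).map a x) ≤ slamV x := by
  intro e he
  obtain ⟨i, rfl⟩ := (slam_mem _ _).1 he
  exact (slam_mem _ _).2 ⟨a.unop.toOrderHom i, rfl⟩

lemma slam_face {m : ℕ} (t : Chain (Ord m)) : ∃ T : (Δ[m] : SSet.{0}).Subcomplex,
    whe (lam (T : SSet.{0})) ∧ ∀ n x, x ∈ T.obj n ↔ slamV x ≤ t := by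
  let e : t.finset ↪o Ord m := OrderEmbedding.subtype _
  have := mono_nmap e.toOrderHom e.injective
  let f : nerve t.finset ⟶ Δ[m] := nmap e.toOrderHom ≫ (SSet.stdSimplex.isoNerve m).inv
  have key : ∀ n x, x ∈ (SSet.Subcomplex.range f).obj n ↔ slamV x ≤ t := fun n x => by
    constructor
    · rintro ⟨y, rfl⟩ c hc
      obtain ⟨i, rfl⟩ := (slam_mem _ _).1 hc
      exact (y.obj i).2
    · intro h
      obtain ⟨y, hy⟩ := mem_range_nmap e ((SSet.stdSimplex.isoNerve m).hom.app n x)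
        fun i => ⟨⟨_, h ((slam_mem _ _).2 ⟨i, rfl⟩)⟩, rfl⟩
      refine ⟨y, ?_⟩
      change (SSet.stdSimplex.isoNerve m).inv.app n ((nmap e.toOrderHom).app n y) = x
      rw [hy, Iso.hom_inv_id_app_apply]
  refine ⟨_, slam_top (sdSub _) ⟨t, ?_⟩ ?_ ?_, key⟩
  · obtain ⟨n, x, hx⟩ := ((sdStd m).range t).1 ⟨t, rfl⟩
    exact ⟨n, x, (key n x).2 hx.le, hx⟩
  · rintro ⟨_, n, x, hx, rfl⟩
    exact (key n x).1 hx
  · refine whe.of_precomp (SSet.Subcomplex.toRange f) _ (whe_of_isIso _) ?_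
    rw [terminal.comp_from]
    exact whe_nerve_of_top ⟨chTop t, chTop_mem t⟩ fun x => le_chTop x.2

theorem whe_lam_sub {m : ℕ} (S : (Δ[m] : SSet.{0}).Subcomplex) : whe (lam (S : SSet.{0})) := by
  have : Finite (Chain (Ord m)) :=
    Finite.of_injective _ fun _ _ h => PartialOrder.NonemptyFiniteChains.ext h
  induction hk : (subFaces S).ncard using Nat.strong_induction_on generalizing S with
  | _ k ih =>
  rcases (subFaces S).eq_empty_or_nonempty with h | h
  · obtain rfl : S = ⊥ := le_bot_iff.1 fun n x hx =>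
      absurd ((mem_subFaces S x).2 hx) (h ▸ Set.notMem_empty _)
    have := isIso_of_isInitial (SSet.Subcomplex.isInitialBot.isInitialObj SSet.sd _)
      SSet.Subcomplex.isInitialBot (lam ((⊥ : (Δ[m] : SSet.{0}).Subcomplex) : SSet.{0}))
    exact whe_of_isIso _
  obtain ⟨t, ht, hmax⟩ := (Set.toFinite _).exists_maximal h
  obtain ⟨T, hT, hT'⟩ := slam_face t
  let U : (Δ[m] : SSet.{0}).Subcomplex :=
    { obj n := {x | x ∈ S.obj n ∧ slamV x ≠ t}
      map a x hx := ⟨S.map a hx.1, fun e => hx.2 (le_antisymm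
        (hmax ((mem_subFaces S x).2 hx.1) (e ▸ slamV_map a x)) (e ▸ slamV_map a x))⟩ }
  have sq : SSet.Subcomplex.BicartSq (T ⊓ U) T U S := by
    refine ⟨le_antisymm (sup_le (fun n x hx => ?_) fun n x hx => hx.1) fun n x hx => ?_, rfl⟩
    · exact (mem_subFaces S x).1 (subFaces_lower S ((hT' n x).1 hx) ht)
    · by_cases e : slamV x = t
      · exact Or.inl ((hT' n x).2 e.le)
      · exact Or.inr ⟨hx, e⟩
  have hlt : ∀ V ≤ U, whe (lam (V : SSet.{0})) := fun V hV => by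
    refine ih _ (hk ▸ Set.ncard_lt_ncard ⟨?_, fun h => ?_⟩) V rfl
    · rintro _ ⟨n, x, hx, rfl⟩
      exact ⟨n, x, (hV n hx).1, rfl⟩
    · obtain ⟨n, x, hx, e⟩ := h ht
      exact (hV n hx).2 e
  have := mono_sd_map (SSet.Subcomplex.homOfLE sq.le₁₃)
  exact whe_glue (sq.isPushout.map SSet.sd) sq.isPushout _ _ _ _ (lam_nat _) (lam_nat _)
    (lam_nat _) (lam_nat _) (hlt _ inf_le_right) (hlt _ le_rfl) hT

lemma slam_lift {Z : SSet.{0}} (hZ : SSet.KanComplex Z) {A B : SSet.{0}} (i : A ⟶ B) [Mono i]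
    (hA : whe (lam A)) (hB : whe (lam B)) (u : A ⟶ Z) (g : SSet.sd.obj A ⟶ pathObj Z)
    (v : SSet.sd.obj B ⟶ Z) (h₀ : g ≫ ev₀ Z = SSet.sd.map i ≫ v) (h₁ : g ≫ ev₁ Z = lam A ≫ u) :
    ∃ (w : B ⟶ Z) (k : SSet.sd.obj B ⟶ pathObj Z), i ≫ w = u ∧ SSet.sd.map i ≫ k = g ∧
      k ≫ ev₀ Z = v ∧ k ≫ ev₁ Z = lam B ≫ w := by
  have := mono_sd_map i
  have := trivFib_ev₀ Z hZ (SSet.sd.map i) (.infer_property _)
  obtain ⟨⟨g', e₁, e₂⟩⟩ := CommSq.HasLift.exists_lift (sq := CommSq.mk h₀)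
  have sq := IsPushout.of_hasPushout (lam A) (SSet.sd.map i)
  have : Mono (pushout.inl (lam A) (SSet.sd.map i)) :=
    (MorphismProperty.monomorphisms _).pushout_inl _ _ (.infer_property _)
  obtain ⟨w, H, e₃, e₄, e₅, e₆⟩ := rel_lift (pushout.inl _ _) i
    (pushout.desc i (lam B) (lam_nat i).symm) (pushout.inl_desc _ _ _)
    (whe.of_precomp _ _ (whe_pushout sq hA) (by rwa [pushout.inr_desc])) hZ
    (pushout.desc u (g' ≫ ev₁ Z) (by rw [← h₁, reassoc_of% e₁]))
  rw [pushout.inl_desc] at e₃ e₆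
  obtain ⟨W, e₇, e₈, e₉⟩ := lift_one (SSet.sd.map i) (kanFib_ev Z hZ) (fst _ _ ≫ g) g'
    (lift (fst _ _ ≫ v) (pushout.inr _ _ ▷ _ ≫ H)) (by simp [e₁])
    (by
      ext1
      · simp [h₀]
      · simp only [Category.assoc, lift_snd, h₁]
        rw [← comp_whiskerRight_assoc, ← pushout.condition, comp_whiskerRight_assoc, e₆,
          whiskerRight_fst_assoc])
    (by ext1 <;> simp [e₂, e₅, pushout.inr_desc])
  refine ⟨w, SSet.ι₀ ≫ W, e₃, ?_, ?_, ?_⟩
  · rw [← SSet.ι₀_comp_assoc, e₇, SSet.ι₀_fst_assoc]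
  · simpa using SSet.ι₀ ≫= e₉ =≫ fst _ _
  · simpa [e₄, pushout.inr_desc_assoc] using SSet.ι₀ ≫= e₉ =≫ snd _ _

theorem whe_rho_kan {Z : SSet.{0}} (hZ : SSet.KanComplex Z) : whe (rho.app Z) := by
  let c : Z ⟶ pathObj Z := toPath (fst _ _)
  have c₀ : c ≫ ev₀ Z = 𝟙 Z := by rw [comp_ev₀, ofPath_toPath, SSet.ι₀_fst]
  have c₁ : c ≫ ev₁ Z = 𝟙 Z := by rw [comp_ev₁, ofPath_toPath, SSet.ι₁_fst]
  have hp : trivFib (pullback.snd (SSet.ex.map (ev₁ Z)) (rho.app Z)) :=
    MorphismProperty.pullback_snd (P := (MorphismProperty.monomorphisms SSet.{0}).rlp) _ _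
      (trivFib_ex (trivFib_ev₁ Z hZ))
  let σ : Z ⟶ pullback (SSet.ex.map (ev₁ Z)) (rho.app Z) :=
    pullback.lift (rho.app Z ≫ SSet.ex.map c) (𝟙 Z) (by simp [← Functor.map_comp, c₁])
  have hσ : whe σ := whe.of_postcomp _ _ (whe_of_trivFib hp)
    (by rw [pullback.lift_snd]; exact whe.id_mem _)
  have e : rho.app Z = σ ≫ pullback.fst _ _ ≫ SSet.ex.map (ev₀ Z) := by
    rw [pullback.lift_fst_assoc, Category.assoc, ← Functor.map_comp, c₀]
    simp
  rw [e]
  refine whe.comp_mem _ _ hσ (whe_of_trivFib ((trivFib_iff _).2 fun n => ⟨fun {a b} sq => ?_⟩))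
  obtain ⟨g, hg⟩ := (SSet.sdExAdjunction.homEquiv _ _).surjective (a ≫ pullback.fst _ _)
  obtain ⟨v, rfl⟩ := (SSet.sdExAdjunction.homEquiv _ _).surjective b
  obtain ⟨w, k, e₁, e₂, e₃, e₄⟩ := slam_lift hZ (SSet.boundary.{0} n).ι (whe_lam_sub _)
    (whe_lam_std n) (a ≫ pullback.snd _ _) g v
    ((SSet.sdExAdjunction.homEquiv _ _).injective (by
      rw [Adjunction.homEquiv_naturality_right, Adjunction.homEquiv_naturality_left, hg,
        Category.assoc, sq.w]))
    ((SSet.sdExAdjunction.homEquiv _ _).injective (by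
      rw [Adjunction.homEquiv_naturality_right, homEquiv_lam, hg, Category.assoc,
        pullback.condition, Category.assoc]))
  refine ⟨⟨⟨pullback.lift (SSet.sdExAdjunction.homEquiv _ _ k) w ?_, ?_, ?_⟩⟩⟩
  · rw [← Adjunction.homEquiv_naturality_right, e₄, homEquiv_lam]
  · ext1
    · rw [Category.assoc, pullback.lift_fst, ← Adjunction.homEquiv_naturality_left, e₂, hg]
    · rw [Category.assoc, pullback.lift_snd, e₁]
  · rw [pullback.lift_fst_assoc, ← Adjunction.homEquiv_naturality_right, e₃]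

end Vale.Agent.P213
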