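import Vale.Agent.P213.SBasic

/-!
P213, simplicial part 2: nerves of posets, unions of two subcomplexes, pushouts and connected
colimits.

Plan.
* A simplex of `nerve E` is a functor `Fin (n+1) ⥤ E`; two of them are equal when their `obj`
  agree (`CategoryTheory.Functor.ext`, homs are subsingletons). A simplex of `Δ[1]` is applied
  as a monotone function `Fin (n+1) → Fin 2`.
* `sset_isPushout`: levelwise, `Types.isPushout_of_isPullback_of_mono'` or a direct proof via
  `evaluationJointlyReflectsColimits` (compare `SSet.Subcomplex.BicartSq.isPushout`), or build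
  `desc` by hand with choice.
* `anodyne_nmap_of_retraction`: `anodyne_of_deformation` with `nhtpy (e ∘ r) id`.
* `whe_nerve_of_top`, `whe_nerve_of_bot`: the terminal map has the homotopy inverse given by the
  vertex (`whe_of_zhtpy_equiv`, `SSet.const`).
* `isColimit_pushouts`: direct check of the universal property.
-/

open CategoryTheory MonoidalCategory Simplicial Limits Opposite

namespace Vale.Agent.P213

section
variable {E F G : Type} [PartialOrder E] [PartialOrder F] [PartialOrder G]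

/-- The map of nerves induced by a monotone map. -/
def nmap (f : E →o F) : nerve E ⟶ nerve F := nerveMap f.monotone.functor

lemma nerve_ext {n : SimplexCategoryᵒᵖ} {x y : (nerve E).obj n}
    (h : ∀ i, x.obj i = y.obj i) : x = y := by
  exact CategoryTheory.Functor.ext h

@[simp] lemma nmap_app_obj (f : E →o F) {n : SimplexCategoryᵒᵖ} (x : (nerve E).obj n)
    (i : Fin (n.unop.len + 1)) : ((nmap f).app n x).obj i = f (x.obj i) := rfl

@[simp] lemma nerve_map_obj {n m : SimplexCategoryᵒᵖ} (a : n ⟶ m) (x : (nerve E).obj n)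
    (i : Fin (m.unop.len + 1)) : ((nerve E).map a x).obj i = x.obj (a.unop.toOrderHom i) := rfl

lemma nerve_monotone {n : SimplexCategoryᵒᵖ} (x : (nerve E).obj n) : Monotone x.obj := by
  exact fun _ _ h => leOfHom (x.map (homOfLE h))

/-- The simplex of the nerve given by a monotone sequence. -/
def nmk {n : SimplexCategoryᵒᵖ} (x : Fin (n.unop.len + 1) → E) (hx : Monotone x) :
    (nerve E).obj n := hx.functor

@[simp] lemma nmk_obj {n : SimplexCategoryᵒᵖ} (x : Fin (n.unop.len + 1) → E) (hx : Monotone x)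
    (i : Fin (n.unop.len + 1)) : (nmk x hx).obj i = x i := rfl

lemma nmap_id : nmap (OrderHom.id : E →o E) = 𝟙 _ := rfl

lemma nmap_comp (f : E →o F) (g : F →o G) : nmap (g.comp f) = nmap f ≫ nmap g := rfl

lemma mono_nmap (f : E →o F) (hf : Function.Injective f) : Mono (nmap f) := by
  rw [NatTrans.mono_iff_mono_app]
  intro n
  rw [mono_iff_injective]
  intro x y h
  exact nerve_ext fun i => hf (congrArg (fun z : (nerve F).obj n => z.obj i) h)

lemma isIso_nmap (e : E ≃o F) : IsIso (nmap (e : E →o F)) := by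
  refine ⟨nmap (e.symm : F →o E), ?_, ?_⟩
  · rw [← nmap_comp, ← nmap_id]
    congr 1
    ext x
    exact e.symm_apply_apply x
  · rw [← nmap_comp, ← nmap_id]
    congr 1
    ext x
    exact e.apply_symm_apply x

lemma mem_range_nmap (f : E ↪o F) {n : SimplexCategoryᵒᵖ} (y : (nerve F).obj n)
    (h : ∀ i, y.obj i ∈ Set.range f) : ∃ x, (nmap f.toOrderHom).app n x = y := by
  choose x hx using h
  refine ⟨nmk x fun i j hij => f.le_iff_le.1 ?_, nerve_ext hx⟩
  rw [hx, hx]
  exact nerve_monotone y hij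

/-- The homotopy attached to an inequality between monotone maps. -/
def nhtpy (f g : E →o F) (h : ∀ x, f x ≤ g x) : nerve E ⊗ Δ[1] ⟶ nerve F where
  app n := TypeCat.ofHom fun p => nmk
    (fun i => if (p.2 : (Δ[1] : SSet.{0}).obj n).down.toOrderHom i = (0 : Fin 2)
      then f (p.1.obj i) else g (p.1.obj i)) (by
        intro i j hij
        have h1 := nerve_monotone p.1 hij
        have h2 := (p.2 : (Δ[1] : SSet.{0}).obj n).down.toOrderHom.monotone hij
        dsimp only
        split_ifs with a b b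
        · exact f.monotone h1
        · exact (h _).trans (g.monotone h1)
        · exact absurd (le_antisymm (h2.trans b.le) (Fin.zero_le _)) a
        · exact g.monotone h1)
  naturality := fun _ _ _ => rfl

lemma nhtpy_app_obj (f g : E →o F) (h : ∀ x, f x ≤ g x) {n : SimplexCategoryᵒᵖ}
    (p : (nerve E ⊗ Δ[1]).obj n) (i : Fin (n.unop.len + 1)) :
    ((nhtpy f g h).app n p).obj i = f (p.1.obj i) ∨
      ((nhtpy f g h).app n p).obj i = g (p.1.obj i) := by
  exact (ite_eq_or_eq _ _ _ : (if (p.2 : (Δ[1] : SSet.{0}).obj n).down.toOrderHom i = (0 : Fin 2)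
    then f (p.1.obj i) else g (p.1.obj i)) = _ ∨ _)

lemma ι₀_nhtpy (f g : E →o F) (h : ∀ x, f x ≤ g x) : SSet.ι₀ ≫ nhtpy f g h = nmap f := by
  ext n x i
  rfl

lemma ι₁_nhtpy (f g : E →o F) (h : ∀ x, f x ≤ g x) : SSet.ι₁ ≫ nhtpy f g h = nmap g := by
  ext n x i
  rfl

lemma htpy_nmap (f g : E →o F) (h : ∀ x, f x ≤ g x) : Htpy (nmap f) (nmap g) :=
  ⟨nhtpy f g h, ι₀_nhtpy f g h, ι₁_nhtpy f g h⟩

/-- A subposet with a right adjoint retraction gives an anodyne extension. -/
lemma anodyne_nmap_of_retraction (e : E ↪o F) (r : F →o E) (h₁ : ∀ x, r (e x) = x)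
    (h₂ : ∀ y, e (r y) ≤ y) : SSet.anodyneExtensions (nmap e.toOrderHom) := by
  have := mono_nmap e.toOrderHom e.injective
  refine anodyne_of_deformation _ (nhtpy (e.toOrderHom.comp r) OrderHom.id h₂) (nmap r)
    (CartesianMonoidalCategory.fst _ _) (ι₀_nhtpy _ _ _) (ι₁_nhtpy _ _ _) ?_
  ext n p i
  rcases nhtpy_app_obj (e.toOrderHom.comp r) OrderHom.id h₂
    ((nmap e.toOrderHom ▷ Δ[1]).app n p) i with h | h
  · exact h.trans (congrArg e (h₁ _))
  · exact h

private lemma whe_of_const (t : E) (h : ZHtpy (nmap (OrderHom.const E t)) (𝟙 _)) :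
    whe (terminal.from (nerve E)) := by
  refine whe_of_zhtpy_equiv _ (SSet.const (nmk (n := op ⦋0⦌) (fun _ => t) monotone_const)) ?_ ?_
  · exact h
  · rw [terminalIsTerminal.hom_ext (_ ≫ _) (𝟙 _)]
    exact Relation.EqvGen.refl _

lemma whe_nerve_of_top (t : E) (h : ∀ x, x ≤ t) : whe (terminal.from (nerve E)) := by
  exact whe_of_const t (Relation.EqvGen.symm _ _ (Relation.EqvGen.rel _ _
    (htpy_nmap OrderHom.id (OrderHom.const E t) h)))

lemma whe_nerve_of_bot (t : E) (h : ∀ x, t ≤ x) : whe (terminal.from (nerve E)) := by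
  exact whe_of_const t (Relation.EqvGen.rel _ _ (htpy_nmap (OrderHom.const E t) OrderHom.id h))

end

lemma whe_of_terminal {K L : SSet.{0}} (f : K ⟶ L) (hK : whe (terminal.from K))
    (hL : whe (terminal.from L)) : whe f := by
  exact whe.of_postcomp f _ hL (by rwa [terminal.comp_from])

lemma whe_terminal_stdSimplex (n : ℕ) : whe (terminal.from (Δ[n] : SSet.{0})) := by
  rw [← terminal.comp_from (SSet.stdSimplex.isoNerve n).hom]
  exact whe.comp_mem _ _ (whe_of_isIso _)
    (whe_nerve_of_bot (ULift.up 0) fun x => Fin.zero_le x.down)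

/-- A simplicial set covered by two subobjects is the pushout over their intersection. -/
lemma sset_isPushout {A₀ A₁ A₂ X : SSet.{0}} (t : A₀ ⟶ A₁) (l : A₀ ⟶ A₂) (r : A₁ ⟶ X)
    (b : A₂ ⟶ X) [Mono r] [Mono b] (w : t ≫ r = l ≫ b)
    (hsurj : ∀ n (x : X.obj n), (∃ a, r.app n a = x) ∨ ∃ a, b.app n a = x)
    (hinter : ∀ n a₁ a₂, r.app n a₁ = b.app n a₂ → ∃ a₀, t.app n a₀ = a₁ ∧ l.app n a₀ = a₂) :
    IsPushout t l r b := by
  refine IsPushout.of_forall_isPushout_app fun n => ?_
  have hr := (mono_iff_injective (r.app n)).1 inferInstance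
  have hb := (mono_iff_injective (b.app n)).1 inferInstance
  have w' : t.app n ≫ r.app n = l.app n ≫ b.app n := NatTrans.congr_app w n
  have key : ∀ s : PushoutCocone (t.app n) (l.app n), ∃ d : X.obj n → s.pt,
      (∀ a, d (r.app n a) = s.inl a) ∧ ∀ a, d (b.app n a) = s.inr a := fun s => by
    have h : ∀ x : X.obj n, ∃ z : s.pt, (∀ a, r.app n a = x → z = s.inl a) ∧
        ∀ a, b.app n a = x → z = s.inr a := fun x => by
      have h1 : ∀ a₁ a₂, r.app n a₁ = b.app n a₂ → s.inl a₁ = s.inr a₂ := fun a₁ a₂ e => by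
        obtain ⟨a₀, rfl, rfl⟩ := hinter n a₁ a₂ e
        exact ConcreteCategory.congr_hom s.condition a₀
      rcases hsurj n x with ⟨a, rfl⟩ | ⟨a, rfl⟩
      · exact ⟨s.inl a, fun a' e => by rw [hr e], fun a' e => h1 _ _ e.symm⟩
      · exact ⟨s.inr a, fun a' e => (h1 _ _ e).symm, fun a' e => by rw [hb e]⟩
    choose d hd using h
    exact ⟨d, fun a => (hd _).1 a rfl, fun a => (hd _).2 a rfl⟩
  choose d hd hd' using key
  refine ⟨⟨w'⟩, ⟨PushoutCocone.IsColimit.mk w' (fun s => TypeCat.ofHom (d s)) (fun s => ?_)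
    (fun s => ?_) fun s m h1 h2 => ?_⟩⟩
  · ext a
    exact hd s a
  · ext a
    exact hd' s a
  · ext x
    rcases hsurj n x with ⟨a, rfl⟩ | ⟨a, rfl⟩
    · exact (ConcreteCategory.congr_hom h1 a).trans (hd s a).symm
    · exact (ConcreteCategory.congr_hom h2 a).trans (hd' s a).symm

/-- Pushouts commute with connected (here: filtered) colimits. -/
lemma isColimit_pushouts {C : Type 1} [Category.{0} C] {J : Type} [SmallCategory J]
    [IsFiltered J] {K X : C} (g : K ⟶ X) {D P : J ⥤ C} (u : ∀ j, K ⟶ D.obj j)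
    (hu : ∀ {j j' : J} (f : j ⟶ j'), u j ≫ D.map f = u j')
    (a : ∀ j, X ⟶ P.obj j) (ha : ∀ {j j' : J} (f : j ⟶ j'), a j ≫ P.map f = a j')
    (b : D ⟶ P) (hP : ∀ j, IsPushout g (u j) (a j) (b.app j))
    (cD : Cocone D) (hD : IsColimit cD) (cP : Cocone P) (u' : K ⟶ cD.pt)
    (hu' : ∀ j, u j ≫ cD.ι.app j = u') (a' : X ⟶ cP.pt) (ha' : ∀ j, a j ≫ cP.ι.app j = a')
    (b' : cD.pt ⟶ cP.pt) (hb' : ∀ j, cD.ι.app j ≫ b' = b.app j ≫ cP.ι.app j)
    (h : IsPushout g u' a' b') : Nonempty (IsColimit cP) := by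
  obtain ⟨j₀⟩ : Nonempty J := IsFiltered.nonempty
  have hc : ∀ (s : Cocone P) (j j' : J), a j ≫ s.ι.app j = a j' ≫ s.ι.app j' := fun s j j' => by
    rw [← s.w (IsFiltered.leftToMax j j'), ← s.w (IsFiltered.rightToMax j j'),
      ← Category.assoc, ← Category.assoc, ha, ha]
  have hw : ∀ s : Cocone P, g ≫ a j₀ ≫ s.ι.app j₀ =
      u' ≫ hD.desc ((Cocone.precompose b).obj s) := fun s => by
    rw [← hu' j₀, Category.assoc, hD.fac, ← Category.assoc, (hP j₀).w, Category.assoc]
    rfl
  refine ⟨⟨fun s => h.desc _ _ (hw s), fun s j => (hP j).hom_ext ?_ ?_, fun s m hm =>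
    h.hom_ext ?_ (hD.hom_ext fun j => ?_)⟩⟩
  · rw [← Category.assoc, ha', h.inl_desc]
    exact hc s _ _
  · rw [← Category.assoc, ← hb', Category.assoc, h.inr_desc, hD.fac]
    rfl
  · rw [h.inl_desc, ← ha' j₀, Category.assoc, hm]
  · rw [h.inr_desc, hD.fac, ← Category.assoc, hb', Category.assoc, hm]
    rfl

end Vale.Agent.P213
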