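import Vale.Agent.P213.SLam

/-!
P213, simplicial part 8: `X ⟶ ex X` is a `whe` for all `X`; horn filling in `ex (ex X)`.

Plan.
* `htpy_rho_ex`: for `(x, φ)` in degree `n` define the simplex of `ex (ex X)` whose `exVal` sends
  a simplex `τ` of `nerve (Chain (Ord n))` of degree `k` to
  `exMk (nmap (h φ ∘ chMap (simpHom τ)) ≫ exVal x)`, where
  `h φ : Chain (Chain (Ord n)) →o Chain (Ord n)` sends a chain `F` to the union of the image of
  `F` under `chTop` with the elements `j` of `chTop F` such that `φ j = 1`. For `φ = 0` it is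
  `chMap chTop` (giving `rho.app (ex X)`), for `φ = 1` it is `chTop` (giving `ex.map rho`).
* `whe_rho`: for a Kan complex `Z` let `g` be a homotopy inverse of `rho.app Z`
  (`exists_htpy_inverse`, `kan_ex`, `whe_rho_kan`). Onto: `f ↦ ex.map f ≫ g`. Injective:
  `h ≫ rho Z = rho (ex X) ≫ ex.map h ≃ ex.map (rho X ≫ h)`, and `Htpy.ex`.
* `ex_horn_fill`: the horn is `eta ≫ ex.map σ` for `σ : nerve (subFaces Λ) ⟶ X`
  (`SdData.isIso_comp`, `homEquiv_comp`). Put `f c = chTop c` if `c` is a face of the horn and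
  `f c = k` otherwise, and `r F =` the image of the chain of chains `F` under `f`: it is a face of
  the horn (if it contained all `i ≠ k`, these `m + 1` values would be tops of distinct horn
  faces of `F`, all inside the largest horn face of `F`, which is absurd). The filler sends the
  identity simplex to the simplex of `ex (ex X)` with `τ ↦ exMk (nmap (r ∘ chMap (simpHom τ)) ≫ σ)`.
-/

open CategoryTheory MonoidalCategory Simplicial Limits Opposite

namespace Vale.Agent.P213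

section
variable {E F : Type} [PartialOrder E] [PartialOrder F]

lemma srho_mem (f : E →o F) (c : Chain E) (y : F) :
    y ∈ (chMap f c).finset ↔ ∃ x ∈ c.finset, f x = y :=
  PartialOrder.NonemptyFiniteChains.mem_map_iff _ _ _

lemma srho_comp {G : Type} [PartialOrder G] (f : E →o F) (g : F →o G) :
    (chMap g).comp (chMap f) = chMap (g.comp f) := by
  ext c y
  simp only [OrderHom.comp_coe, Function.comp_apply, srho_mem]
  exact ⟨fun ⟨_, ⟨x, hx, e⟩, h⟩ => ⟨x, hx, e ▸ h⟩, fun ⟨x, hx, h⟩ => ⟨_, ⟨x, hx, rfl⟩, h⟩⟩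

lemma srho_id : chMap (OrderHom.id : E →o E) = OrderHom.id := by
  ext c y
  simp only [srho_mem, OrderHom.id_coe, id]
  exact ⟨fun ⟨_, h, e⟩ => e ▸ h, fun h => ⟨_, h, rfl⟩⟩

lemma srho_val (E : Type) [PartialOrder E] {n : SimplexCategoryᵒᵖ} (x : (nerve E).obj n) :
    exVal ((sdNerve E).eta.app n x) = nmap (chMap (simpHom x)) :=
  congrArg nmap (OrderHom.ext _ _ (funext fun c => (sdNerve E).e_fc x c))

lemma srho_nat (f : E →o F) :
    nmap f ≫ (sdNerve F).eta = (sdNerve E).eta ≫ SSet.ex.map (nmap (chMap f)) := by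
  ext n x
  refine ex_ext ((srho_val F _).trans ?_)
  change _ = exVal ((sdNerve E).eta.app n x) ≫ nmap (chMap f)
  rw [srho_val, ← nmap_comp, srho_comp]
  rfl

lemma srho_top (E : Type) [PartialOrder E] :
    (sdNerve E).eta ≫ SSet.ex.map (nmap chTop) = rho.app (nerve E) := by
  ext n x
  refine ex_ext ?_
  change exVal ((sdNerve E).eta.app n x) ≫ nmap chTop = nmap chTop ≫ simpMap x
  rw [srho_val, simpMap_nerve, ← nmap_comp, ← nmap_comp]
  exact congrArg nmap (OrderHom.ext _ _ (funext (chTop_chMap _)))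

end

lemma srho_simpMap {X : SSet.{0}} {n : SimplexCategoryᵒᵖ} (x : (SSet.ex.obj X).obj n) :
    simpMap x = (sdNerve (Ord n.unop.len)).eta ≫ SSet.ex.map (exVal x) := by
  let t : (nerve (Ord n.unop.len)).obj n := nmk ULift.up fun _ _ h => h
  have h₁ : simpHom t = OrderHom.id := rfl
  have h₂ : ((sdNerve (Ord n.unop.len)).eta ≫ SSet.ex.map (exVal x)).app n t = x := by
    refine ex_ext ?_
    change exVal ((sdNerve _).eta.app n t) ≫ exVal x = _
    rw [srho_val, h₁, srho_id, nmap_id, Category.id_comp]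
  conv_lhs => rw [← h₂]
  rw [simpMap_app, simpMap_nerve, h₁, nmap_id, Category.id_comp]

lemma srho_rho_ex {X : SSet.{0}} {n : SimplexCategoryᵒᵖ} (x : (SSet.ex.obj X).obj n) :
    exVal ((rho.app (SSet.ex.obj X)).app n x) =
      (sdNerve _).eta ≫ SSet.ex.map (nmap (chMap chTop) ≫ exVal x) := by
  rw [exVal_rho, srho_simpMap, reassoc_of% srho_nat, Functor.map_comp]

open Classical in
/-- The tops of the members of a chain of chains, with the elements of the largest member that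
satisfy `p`. -/
noncomputable def srhoH {n : ℕ} (p : Ord n → Prop) : Chain (Chain (Ord n)) →o Chain (Ord n) where
  toFun F := ⟨(chMap chTop F).finset ∪ (chTop F).finset.filter p,
    (chMap chTop F).nonempty.inl, fun a b => le_total a b⟩
  monotone' _ _ h := Finset.union_subset_union ((chMap chTop).monotone h)
    (Finset.filter_subset_filter _ (chTop.monotone h))

open Classical in
lemma mem_srhoH {n : ℕ} (p : Ord n → Prop) (F : Chain (Chain (Ord n))) (j : Ord n) :
    j ∈ (srhoH p F).finset ↔ j ∈ (chMap chTop F).finset ∨ j ∈ (chTop F).finset ∧ p j :=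
  Finset.mem_union.trans (or_congr_right Finset.mem_filter)

lemma srhoH_nat {m n : ℕ} (a : Ord m →o Ord n) (p : Ord n → Prop) :
    (chMap a).comp (srhoH fun j => p (a j)) = (srhoH p).comp (chMap (chMap a)) := by
  ext F j
  have h : chMap chTop (chMap (chMap a) F) = chMap a (chMap chTop F) :=
    (DFunLike.congr_fun (srho_comp (chMap a) chTop) F).trans (Eq.trans
      (by congr 2; exact OrderHom.ext _ _ (funext (chTop_chMap a)))
      (DFunLike.congr_fun (srho_comp chTop a) F).symm)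
  simp only [OrderHom.comp_coe, Function.comp_apply]
  rw [mem_srhoH, h, chTop_chMap]
  simp only [srho_mem a, mem_srhoH]
  constructor
  · rintro ⟨x, h | h, rfl⟩
    exacts [Or.inl ⟨x, h, rfl⟩, Or.inr ⟨⟨x, h.1, rfl⟩, h.2⟩]
  · rintro (⟨x, h, rfl⟩ | ⟨⟨x, h, rfl⟩, h'⟩)
    exacts [⟨x, Or.inl h, rfl⟩, ⟨x, Or.inr ⟨h, h'⟩, rfl⟩]

lemma srhoH_false {n : ℕ} {p : Ord n → Prop} (h : ∀ j, ¬p j) : srhoH p = chMap chTop := by
  ext F j
  rw [mem_srhoH]
  exact ⟨fun h' => h'.resolve_right fun h' => h j h'.2, Or.inl⟩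

lemma srhoH_true {n : ℕ} {p : Ord n → Prop} (h : ∀ j, p j) : srhoH p = chTop := by
  ext F j
  rw [mem_srhoH, srho_mem]
  refine ⟨?_, fun h' => Or.inr ⟨h', h j⟩⟩
  rintro (⟨c, hc, rfl⟩ | h')
  exacts [le_chTop hc (chTop_mem c), h'.1]

lemma htpy_rho_ex (X : SSet.{0}) :
    Htpy (rho.app (SSet.ex.obj X)) (SSet.ex.map (rho.app X)) := by
  refine ⟨{ app n := TypeCat.ofHom fun p => exMk ((sdNerve _).eta ≫ SSet.ex.map
              (nmap (srhoH fun j => (p.2 : (Δ[1] : SSet.{0}).obj n).down.toOrderHom j.down =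
                (1 : Fin 2)) ≫ exVal p.1))
            naturality n m a := ?_ }, ?_, ?_⟩
  · ext p
    refine ex_ext ?_
    change (sdNerve _).eta ≫ SSet.ex.map (nmap (srhoH fun j => (fun j : Ord n.unop.len =>
        (p.2 : (Δ[1] : SSet.{0}).obj n).down.toOrderHom j.down = (1 : Fin 2)) (ordMap a.unop j)) ≫
        nmap (chMap (ordMap a.unop)) ≫ exVal p.1) =
      nmap (chMap (ordMap a.unop)) ≫ (sdNerve _).eta ≫ SSet.ex.map (nmap (srhoH _) ≫ exVal p.1)
    rw [reassoc_of% srho_nat, ← Functor.map_comp, ← Category.assoc, ← Category.assoc, ← nmap_comp,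
      ← nmap_comp]
    exact congrArg (fun f => (sdNerve _).eta ≫ SSet.ex.map (nmap f ≫ exVal p.1))
      (srhoH_nat (ordMap a.unop) fun j =>
        (p.2 : (Δ[1] : SSet.{0}).obj n).down.toOrderHom j.down = (1 : Fin 2))
  · ext n x
    refine ex_ext (Eq.trans ?_ (srho_rho_ex x).symm)
    change (sdNerve _).eta ≫ SSet.ex.map (nmap (srhoH fun _ => (0 : Fin 2) = 1) ≫ exVal x) = _
    rw [srhoH_false (by simp)]
  · ext n x
    refine ex_ext ?_
    change (sdNerve _).eta ≫ SSet.ex.map (nmap (srhoH fun _ => (1 : Fin 2) = 1) ≫ exVal x) =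
      exVal x ≫ rho.app X
    rw [srhoH_true (by simp), Functor.map_comp, reassoc_of% srho_top, rho_nat]

lemma srho_assoc {X Y Z : SSet.{0}} (f : X ⟶ Y) (g : SSet.ex.obj Y ⟶ Z) :
    rho.app X ≫ SSet.ex.map f ≫ g = f ≫ rho.app Y ≫ g :=
  (Category.assoc _ _ _).symm.trans ((rho_nat f).symm =≫ g |>.trans (Category.assoc _ _ _))

theorem whe_rho (X : SSet.{0}) : whe (rho.app X) := by
  intro Z hZ
  obtain ⟨g, h₁, -⟩ := exists_htpy_inverse hZ (kan_ex hZ) (whe_rho_kan hZ)
  have key : ∀ h : SSet.ex.obj X ⟶ Z, Htpy (SSet.ex.map (rho.app X ≫ h) ≫ g) h := fun h => by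
    have h₂ := (htpy_rho_ex X).postcomp (SSet.ex.map h ≫ g)
    rw [srho_assoc, ← Functor.map_comp_assoc] at h₂
    simpa using (h₂.symm hZ).trans hZ (h₁.precomp h)
  refine ⟨fun f => ⟨SSet.ex.map f ≫ g, ?_⟩, fun h h' e =>
    (((key h).symm hZ).trans hZ (e.ex.postcomp g)).trans hZ (key h')⟩
  rw [srho_assoc]
  simpa using h₁.precomp f

lemma whe_ex_iff {X Y : SSet.{0}} (f : X ⟶ Y) : whe (SSet.ex.map f) ↔ whe f :=
  ⟨fun h => whe.of_postcomp _ _ (whe_rho Y) (rho_nat f ▸ whe.comp_mem _ _ (whe_rho X) h),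
    fun h => whe.of_precomp _ _ (whe_rho X) (rho_nat f ▸ whe.comp_mem _ _ h (whe_rho Y))⟩

lemma srho_retr (m : ℕ) (k : Fin (m + 2)) :
    ∃ r : Chain (Chain (Ord (m + 1))) →o subFaces (SSet.horn.{0} (m + 1) k),
      ∀ F, (∀ c ∈ F.finset, c ∈ subFaces (SSet.horn.{0} (m + 1) k)) →
        (r F).1 = chMap chTop F := by
  classical
  let f : Chain (Ord (m + 1)) → Ord (m + 1) := fun c =>
    if c ∈ subFaces (SSet.horn.{0} (m + 1) k) then chTop c else ULift.up k
  refine ⟨⟨fun F => ⟨⟨F.finset.image f, F.nonempty.image f, fun a b => le_total a b⟩, ?_⟩,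
    fun _ _ h => Finset.image_subset_image h⟩, fun F h => ?_⟩
  · have key : ∀ i ≠ k, ULift.up i ∈ F.finset.image f →
        ∃ c ∈ F.finset.filter (· ∈ subFaces (SSet.horn.{0} (m + 1) k)), ULift.up i ∈ c.finset := by
      intro i hi h
      obtain ⟨c, hc, e⟩ := Finset.mem_image.1 h
      by_cases h' : c ∈ subFaces (SSet.horn.{0} (m + 1) k)
      · exact ⟨c, Finset.mem_filter.2 ⟨hc, h'⟩, e.symm.trans (if_pos h') ▸ chTop_mem c⟩
      · exact absurd (congrArg ULift.down (e.symm.trans (if_neg h'))) hi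
    rw [mem_subFaces_horn]
    rcases (F.finset.filter (· ∈ subFaces (SSet.horn.{0} (m + 1) k))).eq_empty_or_nonempty with
      h | h
    · obtain ⟨i, hi⟩ := exists_ne k
      exact ⟨i, hi, fun h' => by simpa [h] using key i hi h'⟩
    · obtain ⟨t, ht, ht'⟩ := exists_chTop ⟨_, h, fun a b => F.isCh _
        (Finset.filter_subset _ _ a.2) _ (Finset.filter_subset _ _ b.2)⟩
      obtain ⟨i, hi, h'⟩ := (mem_subFaces_horn k t).1 (Finset.mem_filter.1 ht).2
      refine ⟨i, hi, fun h'' => ?_⟩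
      obtain ⟨c, hc, e⟩ := key i hi h''
      exact h' (ht' c hc e)
  · ext j
    rw [srho_mem]
    exact Finset.mem_image.trans (exists_congr fun c => and_congr_right fun hc => by
      rw [show f c = _ from if_pos (h c hc)])

theorem ex_horn_fill (X : SSet.{0}) (m : ℕ) (k : Fin (m + 2))
    (u : (SSet.horn.{0} (m + 1) k : SSet.{0}) ⟶ SSet.ex.obj X) :
    ∃ v : (Δ[m + 1] : SSet.{0}) ⟶ SSet.ex.obj (SSet.ex.obj X),
      (SSet.horn.{0} (m + 1) k).ι ≫ v = u ≫ rho.app (SSet.ex.obj X) := by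
  let D := sdSub (SSet.horn.{0} (m + 1) k)
  have := D.isIso_comp
  obtain ⟨σ, rfl⟩ : ∃ σ, u = D.eta ≫ SSet.ex.map σ :=
    ⟨inv D.comp ≫ (SSet.sdExAdjunction.homEquiv _ _).symm u, by
      rw [← D.homEquiv_comp, IsIso.hom_inv_id_assoc, Equiv.apply_symm_apply]⟩
  obtain ⟨r, hr⟩ := srho_retr m k
  refine ⟨(SSet.stdSimplex.isoNerve (m + 1)).hom ≫ (sdNerve (Ord (m + 1))).eta ≫
    SSet.ex.map ((sdNerve _).eta ≫ SSet.ex.map (nmap r ≫ σ)), ?_⟩
  ext n x
  refine ex_ext (Eq.trans ?_ (srho_rho_ex _).symm)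
  refine Eq.trans (srho_val (Ord (m + 1)) (D.j.app n x) =≫ _) ?_
  change _ = _ ≫ SSet.ex.map (_ ≫ nmap (D.fc x) ≫ σ)
  rw [reassoc_of% srho_nat, ← Functor.map_comp, ← Category.assoc, ← Category.assoc,
    ← nmap_comp, ← nmap_comp]
  congr 4
  refine OrderHom.ext _ _ (funext fun F => Subtype.ext ((hr _ fun c hc => ?_).trans ?_))
  · obtain ⟨c, -, rfl⟩ := (srho_mem _ _ _).1 hc
    exact D.e_fc x c ▸ (D.fc x c).2
  · refine (DFunLike.congr_fun (srho_comp _ chTop) F).trans (Eq.trans ?_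
      ((DFunLike.congr_fun (srho_comp chTop _) F).symm.trans (D.e_fc x _).symm))
    congr 2
    exact OrderHom.ext _ _ (funext (chTop_chMap _))

end Vale.Agent.P213
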