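import Vale.Agent.P213.SSdIso
import Vale.Agent.P213.SK1

/-!
P213, simplicial part 6: `sd` preserves monos and anodyne extensions, `ex` preserves
fibrations, trivial fibrations, Kan complexes and homotopies.

Plan.
* `sd_map_sub` and `SdData.isIso_comp` identify `sd.map S.ι` with the nerve of the inclusion
  of `subFaces S` in `P = Chain (Ord m)`. It is a mono; by adjunction
  (`Adjunction.hasLiftingProperty_iff`) and `trivFib_iff`, `ex` preserves `trivFib`; then
  `mono_of_llp_trivFib` gives `mono_sd_map`.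
* Horns: let `A = subFaces Λ[m,k]`, `Q` the chains containing `k`, `j c = insert k c`.
  Step a: the subcomplex `K₁` of `nerve P` of simplices with all vertices in `A` or all in `Q`
  is anodyne in `nerve P` by `anodyne_of_deformation'` with `nhtpy id j` (use `nhtpy_app_obj`;
  `A` is stable under `j`). Step b: `nerve A ⟶ K₁` is a pushout (`sset_isPushout`) of
  `nerve (A ∩ Q) ⟶ nerve Q`, anodyne by `anodyne_of_deformation` with `nhtpy (const {k}) id`.
* `Htpy.ex`: `ex X ⊗ Δ[1] ⟶ ex X ⊗ ex Δ[1] ≅ ex (X ⊗ Δ[1])`; elementwise: a pair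
  `(x, φ)` goes to `exMk (lift (exVal x) (exVal (rho φ)) ≫ h)`.
-/

open CategoryTheory MonoidalCategory Simplicial Limits Opposite

namespace Vale.Agent.P213

lemma sd_map_sub_eq {m : ℕ} (S : (Δ[m] : SSet.{0}).Subcomplex) :
    SSet.sd.map S.ι = (sdSub S).comp ≫ nmap (OrderEmbedding.subtype (· ∈ subFaces S)).toOrderHom ≫
      @inv _ _ _ _ (sdStd m).comp (SdData.isIso_comp _) := by
  have := SdData.isIso_comp (sdStd m)
  rw [← Category.assoc, IsIso.eq_comp_inv]
  exact sd_map_sub S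

lemma mono_sd_sub {m : ℕ} (S : (Δ[m] : SSet.{0}).Subcomplex) : Mono (SSet.sd.map S.ι) := by
  have := SdData.isIso_comp (sdStd m)
  have := SdData.isIso_comp (sdSub S)
  have : Mono (nmap (OrderEmbedding.subtype (· ∈ subFaces S)).toOrderHom) :=
    mono_nmap _ Subtype.val_injective
  rw [sd_map_sub_eq]
  infer_instance

lemma trivFib_ex {E D : SSet.{0}} {q : E ⟶ D} (hq : trivFib q) : trivFib (SSet.ex.map q) := by
  rw [trivFib_iff]
  intro n
  rw [← SSet.sdExAdjunction.hasLiftingProperty_iff]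
  exact hq _ (mono_sd_sub _)

lemma mono_sd_map {K L : SSet.{0}} (i : K ⟶ L) [Mono i] : Mono (SSet.sd.map i) := by
  refine mono_of_llp_trivFib _ fun E D q hq => ?_
  rw [SSet.sdExAdjunction.hasLiftingProperty_iff]
  exact trivFib_ex hq _ (inferInstance : Mono i)

section
variable {P : Type} [PartialOrder P]

/-- Simplices with all vertices in `A` or all vertices in `Q`. -/
def twoSub (A Q : Set P) : (nerve P).Subcomplex where
  obj _ := {x | (∀ i, x.obj i ∈ A) ∨ ∀ i, x.obj i ∈ Q}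
  map _ _ hx := hx.imp (fun h _ => h _) (fun h _ => h _)

lemma anodyne_twoSub (A Q : Set P) (j : P →o P) (hj : ∀ x, x ≤ j x) (hQ : ∀ x, j x ∈ Q)
    (hA : ∀ x ∈ A, j x ∈ A) : SSet.anodyneExtensions (twoSub A Q).ι := by
  refine anodyne_of_deformation' (twoSub A Q).ι (nhtpy OrderHom.id j hj)
    (SSet.Subcomplex.lift (nmap j) ?_)
    (SSet.Subcomplex.lift ((twoSub A Q).ι ▷ _ ≫ nhtpy OrderHom.id j hj) ?_)
    (ι₀_nhtpy _ _ _) (ι₁_nhtpy _ _ _) rfl
  · rintro n _ ⟨x, rfl⟩
    exact Or.inr fun i => hQ _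
  · rintro n _ ⟨p, rfl⟩
    have key : ∀ (B : Set P), (∀ x ∈ B, j x ∈ B) → (∀ i, p.1.1.obj i ∈ B) →
        ∀ i, ((nhtpy OrderHom.id j hj).app n (((twoSub A Q).ι ▷ _).app n p)).obj i ∈ B := by
      intro B hB h i
      rcases nhtpy_app_obj OrderHom.id j hj (((twoSub A Q).ι ▷ _).app n p) i with e | e
      · rw [e]; exact h i
      · rw [e]; exact hB _ (h i)
    exact p.1.2.imp (key A hA) (key Q fun x _ => hQ x)

/-- Inclusion of subsets as a monotone map. -/
def subIncl {A B : Set P} (h : A ⊆ B) : A →o B := ⟨Set.inclusion h, fun _ _ h => h⟩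

/-- The inclusion of a subset as a monotone map. -/
def subVal (A : Set P) : A →o P := ⟨Subtype.val, fun _ _ h => h⟩

lemma anodyne_subIncl {B Q : Set P} (h : B ⊆ Q) (b : P) (hb : b ∈ B) (hbot : ∀ x ∈ Q, b ≤ x) :
    SSet.anodyneExtensions (nmap (subIncl h)) := by
  have : Mono (nmap (subIncl h)) := mono_nmap _ (Set.inclusion_injective h)
  refine anodyne_of_deformation (nmap (subIncl h))
    (nhtpy (OrderHom.const Q (⟨b, h hb⟩ : Q)) OrderHom.id fun x => hbot _ x.2)
    (nmap (OrderHom.const Q (⟨b, hb⟩ : B)))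
    (nhtpy (OrderHom.const B (⟨b, hb⟩ : B)) OrderHom.id fun x => hbot _ (h x.2))
    (ι₀_nhtpy _ _ _) (ι₁_nhtpy _ _ _) ?_
  refine NatTrans.ext (funext fun n => ConcreteCategory.hom_ext _ _ fun p => ?_)
  refine nerve_ext (E := Q) fun i => ?_
  change (if (p.2 : (Δ[1] : SSet.{0}).obj n).down.toOrderHom i = (0 : Fin 2)
      then (⟨b, h hb⟩ : Q) else subIncl h (p.1.obj i)) =
    subIncl h (if (p.2 : (Δ[1] : SSet.{0}).obj n).down.toOrderHom i = (0 : Fin 2)
      then (⟨b, hb⟩ : B) else p.1.obj i)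
  split_ifs <;> rfl

lemma anodyne_subVal (A Q : Set P) (j : P →o P) (hj : ∀ x, x ≤ j x) (hQ : ∀ x, j x ∈ Q)
    (hA : ∀ x ∈ A, j x ∈ A) (b : P) (hbA : b ∈ A) (hbQ : b ∈ Q) (hbot : ∀ x ∈ Q, b ≤ x) :
    SSet.anodyneExtensions (nmap (subVal A)) := by
  let a : nerve A ⟶ twoSub A Q := SSet.Subcomplex.lift (nmap (subVal A)) (by
    rintro n _ ⟨x, rfl⟩
    exact Or.inl fun i => (x.obj i).2)
  let c : nerve Q ⟶ twoSub A Q := SSet.Subcomplex.lift (nmap (subVal Q)) (by
    rintro n _ ⟨x, rfl⟩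
    exact Or.inr fun i => (x.obj i).2)
  have ea : a ≫ (twoSub A Q).ι = nmap (subVal A) := rfl
  have ec : c ≫ (twoSub A Q).ι = nmap (subVal Q) := rfl
  have : Mono (a ≫ (twoSub A Q).ι) := mono_nmap (subVal A) Subtype.val_injective
  have : Mono (c ≫ (twoSub A Q).ι) := mono_nmap (subVal Q) Subtype.val_injective
  have : Mono a := mono_of_mono a (twoSub A Q).ι
  have : Mono c := mono_of_mono c (twoSub A Q).ι
  have sq : IsPushout (nmap (subIncl (Set.inter_subset_left : A ∩ Q ⊆ A)))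
      (nmap (subIncl (Set.inter_subset_right : A ∩ Q ⊆ Q))) a c := by
    refine sset_isPushout _ _ _ _ rfl ?_ ?_
    · rintro n ⟨x, hx | hx⟩
      · exact Or.inl ⟨nmk (fun i => ⟨x.obj i, hx i⟩) (fun _ _ h => nerve_monotone x h),
          Subtype.ext (nerve_ext fun i => rfl)⟩
      · exact Or.inr ⟨nmk (fun i => ⟨x.obj i, hx i⟩) (fun _ _ h => nerve_monotone x h),
          Subtype.ext (nerve_ext fun i => rfl)⟩
    · intro n a₁ a₂ h
      have h' : ∀ i, (a₁.obj i).1 = (a₂.obj i).1 := fun i =>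
        congrArg (fun z : (twoSub A Q).obj n => z.1.obj i) h
      exact ⟨nmk (fun i => ⟨(a₁.obj i).1, (a₁.obj i).2, h' i ▸ (a₂.obj i).2⟩)
        (fun _ _ h => nerve_monotone a₁ h), nerve_ext fun i => rfl,
        nerve_ext fun i => Subtype.ext (h' i)⟩
  have ha : SSet.anodyneExtensions a :=
    MorphismProperty.of_isPushout sq
      (anodyne_subIncl Set.inter_subset_right b ⟨hbA, hbQ⟩ hbot)
  rw [← ea]
  exact MorphismProperty.comp_mem _ _ _ ha (anodyne_twoSub A Q j hj hQ hA)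

end

/-- Adding a vertex to a chain of an ordinal. -/
def insCh {m : ℕ} (k : Ord m) : Chain (Ord m) →o Chain (Ord m) where
  toFun c := ⟨insert k c.finset, Finset.insert_nonempty _ _, fun a b => le_total a b⟩
  monotone' _ _ h := Finset.insert_subset_insert _ h

lemma anodyne_sd_horn (m : ℕ) (k : Fin (m + 2)) :
    SSet.anodyneExtensions (SSet.sd.map (SSet.horn.{0} (m + 1) k).ι) := by
  have := SdData.isIso_comp (sdStd (m + 1))
  have := SdData.isIso_comp (sdSub (SSet.horn.{0} (m + 1) k))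
  rw [sd_map_sub_eq]
  refine MorphismProperty.comp_mem _ _ _ (.of_isIso _)
    (MorphismProperty.comp_mem _ _ _ ?_ (.of_isIso _))
  refine anodyne_subVal (subFaces (SSet.horn.{0} (m + 1) k))
    {c | ULift.up k ∈ c.finset} (insCh (ULift.up k)) (fun c => Finset.subset_insert _ _)
    (fun c => Finset.mem_insert_self _ _) ?_
    ⟨{ULift.up k}, Finset.singleton_nonempty _, fun a b => le_total a b⟩ ?_
    (Finset.mem_singleton_self _) (fun c hc => Finset.singleton_subset_iff.2 hc)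
  · intro c hc
    rw [mem_subFaces_horn] at hc ⊢
    obtain ⟨i, hi, hc⟩ := hc
    refine ⟨i, hi, fun h => ?_⟩
    rcases Finset.mem_insert.1 h with h | h
    · exact hi (congrArg ULift.down h)
    · exact hc h
  · rw [mem_subFaces_horn]
    obtain ⟨i, hi⟩ := exists_ne k
    exact ⟨i, hi, fun h => hi (congrArg ULift.down (Finset.mem_singleton.1 h))⟩

lemma kanFib_ex {E D : SSet.{0}} {q : E ⟶ D} (hq : kanFib q) : kanFib (SSet.ex.map q) := by
  intro A B i hi
  simp only [SSet.modelCategoryQuillen.J, MorphismProperty.iSup_iff] at hi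
  obtain ⟨n, ⟨k⟩⟩ := hi
  rw [← SSet.sdExAdjunction.hasLiftingProperty_iff]
  exact anodyne_lift (anodyne_sd_horn n k) hq

lemma anodyne_sd_map {K L : SSet.{0}} {i : K ⟶ L} (hi : SSet.anodyneExtensions i) :
    SSet.anodyneExtensions (SSet.sd.map i) := by
  intro E D q hq
  rw [SSet.sdExAdjunction.hasLiftingProperty_iff]
  exact anodyne_lift hi (kanFib_ex hq)

lemma kan_ex {Z : SSet.{0}} (hZ : SSet.KanComplex Z) : SSet.KanComplex (SSet.ex.obj Z) := by
  rw [kan_iff] at hZ ⊢
  have h := kanFib_ex hZ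
  have : IsIso (terminal.from (SSet.ex.obj (⊤_ SSet.{0}))) :=
    isIso_of_isTerminal (IsTerminal.isTerminalObj _ _ terminalIsTerminal) terminalIsTerminal _
  have e : terminal.from (SSet.ex.obj Z) =
      SSet.ex.map (terminal.from Z) ≫ terminal.from _ := terminal.hom_ext _ _
  rw [e]
  intro A B i hi
  have := h i hi
  infer_instance

/-- The image of a homotopy under `ex`. -/
noncomputable def exHt {X Z : SSet.{0}} (h : X ⊗ Δ[1] ⟶ Z) :
    SSet.ex.obj X ⊗ Δ[1] ⟶ SSet.ex.obj Z where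
  app n := TypeCat.ofHom fun p => exMk
    (CartesianMonoidalCategory.lift (exVal p.1) (nmap chTop ≫ simpMap p.2) ≫ h)
  naturality n m a := by
    ext p
    refine ex_ext ?_
    have e := congrArg exVal
      (ConcreteCategory.congr_hom ((rho.app (Δ[1] : SSet.{0})).naturality a) p.2)
    change CartesianMonoidalCategory.lift (exVal ((SSet.ex.obj X).map a p.1))
        (exVal ((rho.app (Δ[1] : SSet.{0})).app m ((Δ[1] : SSet.{0}).map a p.2))) ≫ h =
      nmap (chMap (ordMap a.unop)) ≫ CartesianMonoidalCategory.lift (exVal p.1)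
        (exVal ((rho.app (Δ[1] : SSet.{0})).app n p.2)) ≫ h
    rw [← Category.assoc, CartesianMonoidalCategory.comp_lift, ← exVal_map, ← exVal_map]
    exact congrArg (fun z => CartesianMonoidalCategory.lift _ z ≫ h) e

lemma exHt_const {X Z : SSet.{0}} (h : X ⊗ Δ[1] ⟶ Z) (v : (Δ[1] : SSet.{0}) _⦋0⦌) :
    CartesianMonoidalCategory.lift (𝟙 _) (SSet.const v) ≫ exHt h =
      SSet.ex.map (CartesianMonoidalCategory.lift (𝟙 _) (SSet.const v) ≫ h) := by
  ext n x
  refine ex_ext ?_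
  change CartesianMonoidalCategory.lift (exVal x)
      (nmap chTop ≫ simpMap ((SSet.const v : SSet.ex.obj X ⟶ Δ[1]).app n x)) ≫ h =
    exVal x ≫ CartesianMonoidalCategory.lift (𝟙 _) (SSet.const v) ≫ h
  rw [simpMap_app, ← Category.assoc (exVal x), CartesianMonoidalCategory.comp_lift,
    Category.comp_id, SSet.comp_const, SSet.comp_const, SSet.comp_const]

lemma Htpy.ex {X Z : SSet.{0}} {f g : X ⟶ Z} (h : Htpy f g) :
    Htpy (SSet.ex.map f) (SSet.ex.map g) := by
  obtain ⟨h, rfl, rfl⟩ := h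
  exact ⟨exHt h, exHt_const h _, exHt_const h _⟩

end Vale.Agent.P213
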