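import Vale.Agent.P213.SSdDefs

/-!
P213, simplicial part 5b: the comparison map `sd K ⟶ nerve A` is an isomorphism.
See the plan in the header of `SSdDefs`.
-/

open CategoryTheory MonoidalCategory Simplicial Limits Opposite

namespace Vale.Agent.P213

namespace SdData

variable {K : SSet.{0}} {A : Type} [PartialOrder A]

lemma sdi_j_injective (D : SdData K A) (n : SimplexCategoryᵒᵖ) :
    Function.Injective (D.j.app n) := by
  have := D.mono
  exact (mono_iff_injective _).1 inferInstance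

/-- A simplex whose vertices are among those of `y` is a degeneracy of a face of `y`. -/
lemma sdi_factor (D : SdData K A) {n m : SimplexCategoryᵒᵖ} (x : K.obj n) (y : K.obj m)
    (h : simpCh (D.j.app n x) ≤ simpCh (D.j.app m y)) : ∃ a : m ⟶ n, K.map a y = x := by
  obtain ⟨a, ha⟩ := sdd_exists_factor _ _ h
  rw [← NatTrans.naturality_apply] at ha
  exact ⟨a, D.sdi_j_injective n ha⟩

/-- Each face is spanned by an injective simplex. -/
lemma sdi_exists_inj (D : SdData K A) (a : A) :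
    ∃ (n : SimplexCategoryᵒᵖ) (x : K.obj n),
      Function.Injective (D.j.app n x).obj ∧ simpCh (D.j.app n x) = D.e a := by
  obtain ⟨n, x, hx⟩ := (D.range (D.e a)).1 ⟨a, rfl⟩
  obtain ⟨m, y, hy, hya⟩ := sdd_exists_enum (D.e a)
  obtain ⟨b, hb⟩ := sdd_exists_factor y (D.j.app n x) (by rw [hya, hx])
  refine ⟨op ⦋m⦌, K.map b x, ?_, ?_⟩
  · rw [NatTrans.naturality_apply, hb]
    exact hy
  · rw [NatTrans.naturality_apply, hb, hya]

lemma sdi_fc_injective (D : SdData K A) {n : SimplexCategoryᵒᵖ} (x : K.obj n)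
    (hx : Function.Injective (D.j.app n x).obj) : Function.Injective (D.fc x) := by
  intro c c' h
  have h1 := congrArg D.e h
  rw [e_fc, e_fc] at h1
  refine sdd_chMap_injective _ (fun i j hij => ?_) h1
  exact ULift.ext _ _ (hx hij)

lemma sdi_e_fc_le (D : SdData K A) {n : SimplexCategoryᵒᵖ} (x : K.obj n)
    (c : Chain (Ord n.unop.len)) : D.e (D.fc x c) ≤ simpCh (D.j.app n x) := by
  rw [e_fc]
  exact (chMap _).monotone (Finset.subset_univ _)

/-- A simplex of the nerve of `A` below a simplex of `K` lifts. -/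
lemma sdi_lift (D : SdData K A) {n m : SimplexCategoryᵒᵖ} (x : K.obj n) (τ : (nerve A).obj m)
    (h : ∀ i, D.e (τ.obj i) ≤ simpCh (D.j.app n x)) :
    ∃ σ : (nerve (Chain (Ord n.unop.len))).obj m, (nmap (D.fc x)).app m σ = τ := by
  classical
  have h1 : ∀ i, (Finset.univ.filter fun k : Ord n.unop.len =>
      (D.j.app n x).obj k.down ∈ (D.e (τ.obj i)).finset).Nonempty := by
    intro i
    obtain ⟨y, hy⟩ := (D.e (τ.obj i)).nonempty
    obtain ⟨k, hk⟩ := (sdd_mem_simpCh _ _).1 (h i hy)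
    refine ⟨ULift.up k, Finset.mem_filter.2 ⟨Finset.mem_univ _, ?_⟩⟩
    change (D.j.app n x).obj k ∈ _
    rw [hk]
    exact hy
  let g : Fin (m.unop.len + 1) → Chain (Ord n.unop.len) := fun i =>
    ⟨_, h1 i, fun a b => le_total a b⟩
  have hg : Monotone g := by
    intro i i' hi k hk
    exact Finset.mem_filter.2 ⟨Finset.mem_univ _,
      D.e.monotone (nerve_monotone τ hi) (Finset.mem_filter.1 hk).2⟩
  refine ⟨nmk g hg, nerve_ext fun i => D.e.injective ?_⟩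
  change D.e (D.fc x (g i)) = D.e (τ.obj i)
  rw [e_fc]
  refine sdd_chain_ext fun y => ?_
  rw [sdd_mem_chMap]
  constructor
  · rintro ⟨k, hk, rfl⟩
    exact (Finset.mem_filter.1 hk).2
  · intro hy
    obtain ⟨k, hk⟩ := (sdd_mem_simpCh _ _).1 (h i hy)
    refine ⟨ULift.up k, Finset.mem_filter.2 ⟨Finset.mem_univ _, ?_⟩, hk⟩
    change (D.j.app n x).obj k ∈ _
    rw [hk]
    exact hy

/-- Every simplex of the nerve of `A` comes from a simplex of `K` spanning its last vertex. -/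
lemma sdi_cover (D : SdData K A) {m : SimplexCategoryᵒᵖ} (τ : (nerve A).obj m) :
    ∃ (n : SimplexCategoryᵒᵖ) (x : K.obj n) (σ : (nerve (Chain (Ord n.unop.len))).obj m),
      simpCh (D.j.app n x) = D.e (τ.obj (Fin.last _)) ∧ (nmap (D.fc x)).app m σ = τ := by
  obtain ⟨n, x, hx⟩ := (D.range (D.e (τ.obj (Fin.last _)))).1 ⟨_, rfl⟩
  obtain ⟨σ, hσ⟩ := D.sdi_lift x τ fun i => by
    rw [hx]
    exact D.e.monotone (nerve_monotone τ (Fin.le_last i))
  exact ⟨n, x, σ, hx, hσ⟩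

/-- Two lifts inside a common face give the same value. -/
lemma sdi_val_face (D : SdData K A) {X : SSet.{0}} (ψ : K ⟶ SSet.ex.obj X) (b : A)
    {m n₁ n₂ : SimplexCategoryᵒᵖ} (x₁ : K.obj n₁) (x₂ : K.obj n₂)
    (h₁ : simpCh (D.j.app n₁ x₁) ≤ D.e b) (h₂ : simpCh (D.j.app n₂ x₂) ≤ D.e b)
    (σ₁ : (nerve (Chain (Ord n₁.unop.len))).obj m) (σ₂ : (nerve (Chain (Ord n₂.unop.len))).obj m)
    (h : (nmap (D.fc x₁)).app m σ₁ = (nmap (D.fc x₂)).app m σ₂) :
    (exVal (ψ.app n₁ x₁)).app m σ₁ = (exVal (ψ.app n₂ x₂)).app m σ₂ := by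
  obtain ⟨n, y, hy, hyb⟩ := D.sdi_exists_inj b
  obtain ⟨a₁, rfl⟩ := D.sdi_factor x₁ y (hyb ▸ h₁)
  obtain ⟨a₂, rfl⟩ := D.sdi_factor x₂ y (hyb ▸ h₂)
  have h3 : (nmap (chMap (ordMap a₁.unop))).app m σ₁ =
      (nmap (chMap (ordMap a₂.unop))).app m σ₂ := by
    refine nerve_ext fun i => D.sdi_fc_injective y hy ?_
    have h4 := congrArg (fun z : (nerve A).obj m => z.obj i) h
    rw [fc_map, fc_map] at h4
    exact h4
  rw [NatTrans.naturality_apply, NatTrans.naturality_apply, exVal_map, exVal_map]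
  exact congrArg ((exVal (ψ.app n y)).app m) h3

/-- The value does not depend on the lift. -/
lemma sdi_val (D : SdData K A) {X : SSet.{0}} (ψ : K ⟶ SSet.ex.obj X)
    {m n₁ n₂ : SimplexCategoryᵒᵖ} (x₁ : K.obj n₁) (x₂ : K.obj n₂)
    (σ₁ : (nerve (Chain (Ord n₁.unop.len))).obj m) (σ₂ : (nerve (Chain (Ord n₂.unop.len))).obj m)
    (h : (nmap (D.fc x₁)).app m σ₁ = (nmap (D.fc x₂)).app m σ₂) :
    (exVal (ψ.app n₁ x₁)).app m σ₁ = (exVal (ψ.app n₂ x₂)).app m σ₂ := by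
  obtain ⟨n, x, σ, hx, hσ⟩ := D.sdi_cover ((nmap (D.fc x₁)).app m σ₁)
  have k₁ : (exVal (ψ.app n₁ x₁)).app m σ₁ = (exVal (ψ.app n x)).app m σ := by
    refine D.sdi_val_face ψ (D.fc x₁ (ordTop _)) x₁ x (D.e_fc x₁ _).ge ?_ σ₁ σ hσ.symm
    rw [hx, e_fc]
    exact D.sdi_e_fc_le x₁ _
  have k₂ : (exVal (ψ.app n₂ x₂)).app m σ₂ = (exVal (ψ.app n x)).app m σ := by
    refine D.sdi_val_face ψ (D.fc x₂ (ordTop _)) x₂ x (D.e_fc x₂ _).ge ?_ σ₂ σ (hσ.trans h).symm
    rw [hx, e_fc, h]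
    exact D.sdi_e_fc_le x₂ _
  rw [k₁, k₂]

lemma sdi_exists_val (D : SdData K A) {X : SSet.{0}} (ψ : K ⟶ SSet.ex.obj X)
    {m : SimplexCategoryᵒᵖ} (τ : (nerve A).obj m) :
    ∃ v : X.obj m, ∀ (n : SimplexCategoryᵒᵖ) (x : K.obj n)
      (σ : (nerve (Chain (Ord n.unop.len))).obj m),
      (nmap (D.fc x)).app m σ = τ → (exVal (ψ.app n x)).app m σ = v := by
  obtain ⟨n, x, σ, -, hσ⟩ := D.sdi_cover τ
  exact ⟨_, fun n' x' σ' h => D.sdi_val ψ x' x σ' σ (h.trans hσ.symm)⟩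

/-- The map out of the nerve of `A` attached to `ψ`. -/
noncomputable def sdi_desc (D : SdData K A) {X : SSet.{0}} (ψ : K ⟶ SSet.ex.obj X) :
    nerve A ⟶ X where
  app m := TypeCat.ofHom fun τ => (D.sdi_exists_val ψ τ).choose
  naturality := fun m m' a => by
    ext τ
    change (D.sdi_exists_val ψ ((nerve A).map a τ)).choose =
      X.map a (D.sdi_exists_val ψ τ).choose
    obtain ⟨n, x, σ, -, hσ⟩ := D.sdi_cover τ
    rw [← (D.sdi_exists_val ψ τ).choose_spec n x σ hσ,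
      ← (D.sdi_exists_val ψ ((nerve A).map a τ)).choose_spec n x ((nerve _).map a σ)
        (by rw [NatTrans.naturality_apply, hσ]), NatTrans.naturality_apply]

lemma sdi_eta_desc (D : SdData K A) {X : SSet.{0}} (ψ : K ⟶ SSet.ex.obj X) :
    D.eta ≫ SSet.ex.map (D.sdi_desc ψ) = ψ := by
  ext n x
  refine ex_ext ?_
  change nmap (D.fc x) ≫ D.sdi_desc ψ = exVal (ψ.app n x)
  ext m σ
  exact ((D.sdi_exists_val ψ _).choose_spec n x σ rfl).symm

lemma sdi_eta_inj (D : SdData K A) {X : SSet.{0}} (φ₁ φ₂ : nerve A ⟶ X)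
    (h : D.eta ≫ SSet.ex.map φ₁ = D.eta ≫ SSet.ex.map φ₂) : φ₁ = φ₂ := by
  ext m τ
  obtain ⟨n, x, σ, -, hσ⟩ := D.sdi_cover τ
  have h1 : nmap (D.fc x) ≫ φ₁ = nmap (D.fc x) ≫ φ₂ :=
    congrArg (fun z : K ⟶ SSet.ex.obj X => exVal (z.app n x)) h
  have h2 := congrArg (fun z : nerve (Chain (Ord n.unop.len)) ⟶ X => z.app m σ) h1
  subst hσ
  exact h2

end SdData

theorem SdData.isIso_comp {K : SSet.{0}} {A : Type} [PartialOrder A] (D : SdData K A) :
    IsIso D.comp := by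
  refine isIso_of_coyoneda_map_bijective _ fun X => ⟨fun φ₁ φ₂ h => ?_, fun f => ?_⟩
  · refine D.sdi_eta_inj φ₁ φ₂ ?_
    rw [← D.homEquiv_comp, ← D.homEquiv_comp]
    exact congrArg _ h
  · refine ⟨D.sdi_desc (SSet.sdExAdjunction.homEquiv _ _ f), ?_⟩
    apply (SSet.sdExAdjunction.homEquiv _ _).injective
    exact (D.homEquiv_comp _).trans (D.sdi_eta_desc _)

end Vale.Agent.P213
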