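import Vale.Agent.P213.OmBasic

/-!
P213, Steiner theory part 1: atoms, good bases, the complex with the top generators lowered.

Plan.
* `IsAtom.unique`: downward induction on the degree: `x true i - x false i` is determined and the
  two entries are nonnegative with disjoint supports.
* `hat K m`: same basis; generators of degree `m + 1` get degree `m` and differential
  `d (dneg b)`; generators of degree `> m + 1` get differential zero.
  `hatSig K m ε` replaces a generator `b` of degree `m + 1` by `dpart ε b`.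
* The atom of `hat K m` for `b` of degree `m + 1` is `hatRaw m (single b 1) (rbd false m x)` with
  `x` the atom of `b` in `K`, more precisely it has the entries of `x` below degree `m` and `b` in
  degree `m`. The order of `K` works for `hat K m`: a basis element in the negative part of
  `d (dneg b)` lies in the negative part of `d c` for some `c` in the support of `dneg b`; for the
  positive part use `d (dneg b) = d (dpos b)`.
-/

open CategoryTheory

namespace Vale.Agent.P213

variable {K L : BADC}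

/-- Raw dimension bound. -/
def RDim {B : Type} (n : ℕ) (x : Raw B) : Prop := rbd false n x = x

lemma stb_sum {B M : Type} [AddCommGroup M] (f : (B →₀ ℤ) →+ M) (x : B →₀ ℤ) :
    f x = ∑ b ∈ x.support, x b • f (Finsupp.single b 1) := by
  conv_lhs => rw [← Finsupp.sum_single x, Finsupp.sum, map_sum]
  refine Finset.sum_congr rfl fun b _ => ?_
  rw [← map_zsmul, Finsupp.smul_single, smul_eq_mul, mul_one]

lemma stb_congr {B M : Type} [AddCommGroup M] (f g : (B →₀ ℤ) →+ M) (x : B →₀ ℤ)
    (h : ∀ b, x b ≠ 0 → f (Finsupp.single b 1) = g (Finsupp.single b 1)) : f x = g x := by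
  rw [stb_sum f, stb_sum g]
  exact Finset.sum_congr rfl fun b hb => by rw [h b (Finsupp.mem_support_iff.1 hb)]

lemma stb_apply {B B' : Type} (f : (B →₀ ℤ) →+ (B' →₀ ℤ)) (x : B →₀ ℤ) (c : B') :
    f x c = ∑ b ∈ x.support, x b * f (Finsupp.single b 1) c := by
  rw [stb_sum f, Finsupp.finsetSum_apply]
  rfl

lemma stb_apply_ne {B B' : Type} (f : (B →₀ ℤ) →+ (B' →₀ ℤ)) {x : B →₀ ℤ} {c : B'}
    (h : f x c ≠ 0) : ∃ b, x b ≠ 0 ∧ f (Finsupp.single b 1) c ≠ 0 := by
  rw [stb_apply] at h
  obtain ⟨b, -, hb⟩ := Finset.exists_ne_zero_of_sum_ne_zero h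
  exact ⟨b, mul_ne_zero_iff.1 hb⟩

lemma stb_apply_pos {B B' : Type} (f : (B →₀ ℤ) →+ (B' →₀ ℤ)) {x : B →₀ ℤ} (hx : 0 ≤ x) {c : B'}
    (h : 0 < f x c) : ∃ b, 0 < x b ∧ 0 < f (Finsupp.single b 1) c := by
  by_contra h'
  push Not at h'
  rw [stb_apply] at h
  exact h.not_ge (Finset.sum_nonpos fun b hb => mul_nonpos_of_nonneg_of_nonpos (hx b)
    (h' b (lt_of_le_of_ne (hx b) (Finsupp.mem_support_iff.1 hb).symm)))

lemma stb_apply_neg {B B' : Type} (f : (B →₀ ℤ) →+ (B' →₀ ℤ)) {x : B →₀ ℤ} (hx : 0 ≤ x) {c : B'}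
    (h : f x c < 0) : ∃ b, 0 < x b ∧ f (Finsupp.single b 1) c < 0 := by
  by_contra h'
  push Not at h'
  rw [stb_apply] at h
  exact h.not_ge (Finset.sum_nonneg fun b hb => mul_nonneg (hx b)
    (h' b (lt_of_le_of_ne (hx b) (Finsupp.mem_support_iff.1 hb).symm)))

lemma stb_eq_zero_of_aug {B : Type} {x : B →₀ ℤ} (hx : 0 ≤ x) (h : aug x = 0) : x = 0 := by
  rw [stb_sum aug] at h
  simp only [aug_single, smul_eq_mul, mul_one] at h
  ext b
  by_contra hb
  exact hb ((Finset.sum_eq_zero_iff_of_nonneg fun b _ => hx b).1 h b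
    (Finsupp.mem_support_iff.2 hb))

lemma stb_single_le {B : Type} {x : B →₀ ℤ} (hx : 0 ≤ x) {b : B} (hb : x b ≠ 0) :
    Finsupp.single b 1 ≤ x := by
  classical
  intro c
  have h₁ : 0 ≤ x c := hx c
  rw [Finsupp.single_apply]
  split_ifs with h
  · subst h
    omega
  · exact h₁

lemma stb_isDeg_single {B : Type} (deg : B → ℕ) (b : B) (n : ℤ) :
    IsDeg deg (deg b) (Finsupp.single b n) := fun c hc => by
  rw [(Finsupp.single_apply_ne_zero.1 hc).1]

lemma stb_isDeg_zero {B : Type} (deg : B → ℕ) (i : ℕ) : IsDeg deg i 0 :=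
  fun _ hc => absurd rfl hc

lemma rDim_iff {B : Type} (n : ℕ) (x : Raw B) :
    RDim n x ↔ x true n = x false n ∧ ∀ ε i, n < i → x ε i = 0 := by
  refine ⟨fun h => ⟨?_, fun ε i hi => ?_⟩, fun ⟨h₁, h₂⟩ => ?_⟩
  · have e := congrFun (congrFun h true) n
    simpa [rbd] using e.symm
  · have e := congrFun (congrFun h ε) i
    rw [rbd, if_neg (by omega), if_neg (by omega)] at e
    exact e.symm
  · funext ε i
    rw [rbd]
    split_ifs with h₃ h₄
    · rfl
    · subst h₄
      cases ε
      exacts [rfl, h₁.symm]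
    · exact (h₂ ε i (by omega)).symm

lemma dim_iff_rDim (n : ℕ) (x : Cell K) : (nuObj K).Dim n x ↔ RDim n x.val :=
  ⟨fun h => congrArg Cell.val h, fun h => Cell.ext h⟩

lemma cp_iff (n : ℕ) (x y : Cell K) :
    (nuObj K).Cp n x y ↔ rbd true n x.val = rbd false n y.val :=
  ⟨fun h => congrArg Cell.val h, fun h => Cell.ext h⟩

lemma nu_comp_val (n : ℕ) (x y : Cell K) (h : (nuObj K).Cp n x y) :
    ((nuObj K).comp n x y).val = rcomp n x.val y.val :=
  Cell.comp_val n x y ((cp_iff n x y).1 h)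

/-- Positive (`true`) and negative (`false`) part of the differential of a basis element. -/
noncomputable def dpart (K : BADC) (ε : Bool) (b : K.B) : K.B →₀ ℤ :=
  if ε then (K.d (Finsupp.single b 1))⁺ else (K.d (Finsupp.single b 1))⁻

lemma stb_dpart_true (b c : K.B) : dpart K true b c = max (K.d (Finsupp.single b 1) c) 0 := rfl

lemma stb_dpart_false (b c : K.B) :
    dpart K false b c = max (-K.d (Finsupp.single b 1) c) 0 := rfl

lemma dpart_nonneg (ε : Bool) (b : K.B) : 0 ≤ dpart K ε b := by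
  intro c
  cases ε
  · rw [stb_dpart_false]
    exact le_max_right _ _
  · rw [stb_dpart_true]
    exact le_max_right _ _

lemma dpart_sub (b : K.B) : dpart K true b - dpart K false b = K.d (Finsupp.single b 1) := by
  ext c
  rw [Finsupp.sub_apply, stb_dpart_true, stb_dpart_false]
  omega

lemma d_dpart (ε : Bool) (b : K.B) : K.d (dpart K ε b) = K.d (dpart K false b) := by
  cases ε
  · rfl
  · rw [← sub_eq_zero, ← map_sub, dpart_sub, K.d_d]

lemma dpart_deg (ε : Bool) (b : K.B) {m : ℕ} (h : K.deg b = m + 1) :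
    IsDeg K.deg m (dpart K ε b) := by
  intro c hc
  have h₁ : K.d (Finsupp.single b 1) c ≠ 0 := by
    intro e
    cases ε
    · rw [stb_dpart_false, e] at hc
      exact hc rfl
    · rw [stb_dpart_true, e] at hc
      exact hc rfl
  have := K.d_deg b c h₁
  omega

lemma IsDeg.d {x : K.B →₀ ℤ} {i : ℕ} (h : IsDeg K.deg (i + 1) x) : IsDeg K.deg i (K.d x) := by
  intro c hc
  obtain ⟨b, h₁, h₂⟩ := stb_apply_ne K.d hc
  have := K.d_deg b c h₂
  have := h b h₁
  omega

lemma IsDeg.d_zero {x : K.B →₀ ℤ} (h : IsDeg K.deg 0 x) : K.d x = 0 := by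
  ext c
  by_contra hc
  obtain ⟨b, h₁, h₂⟩ := stb_apply_ne K.d hc
  have := K.d_deg b c h₂
  have := h b h₁
  omega

lemma IsDeg.aug_d {x : K.B →₀ ℤ} (h : IsDeg K.deg 1 x) : aug (K.d x) = 0 :=
  stb_congr (aug.comp K.d) 0 x fun b hb => K.aug_d b (h b hb)

/-- `x` is Steiner's atom of the basis element `b`. -/
structure IsAtom (K : BADC) (b : K.B) (x : Raw K.B) : Prop where
  tab : IsTab K x
  top : ∀ ε, x ε (K.deg b) = Finsupp.single b 1
  zero : ∀ ε i, K.deg b < i → x ε i = 0
  disj : ∀ i, i < K.deg b → ∀ c, x true i c = 0 ∨ x false i c = 0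

lemma IsAtom.rDim {b : K.B} {x : Raw K.B} (h : IsAtom K b x) : RDim (K.deg b) x :=
  (rDim_iff _ _).2 ⟨(h.top true).trans (h.top false).symm, h.zero⟩

lemma IsAtom.unique {b : K.B} {x y : Raw K.B} (hx : IsAtom K b x) (hy : IsAtom K b y) :
    x = y := by
  have key : ∀ k i, i + k = K.deg b → ∀ ε, x ε i = y ε i := by
    intro k
    induction k with
    | zero => exact fun i hi ε => by rw [show i = K.deg b from hi, hx.top, hy.top]
    | succ k ih =>
      intro i hi ε
      have e := hx.tab.d false i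
      rw [ih (i + 1) (by omega), hy.tab.d] at e
      ext c
      have e' := DFunLike.congr_fun e c
      rw [Finsupp.sub_apply, Finsupp.sub_apply] at e'
      have h₁ := hx.disj i (by omega) c
      have h₂ := hy.disj i (by omega) c
      have h₃ : 0 ≤ x true i c := hx.tab.nonneg _ _ c
      have h₄ : 0 ≤ x false i c := hx.tab.nonneg _ _ c
      have h₅ : 0 ≤ y true i c := hy.tab.nonneg _ _ c
      have h₆ : 0 ≤ y false i c := hy.tab.nonneg _ _ c
      cases ε <;> omega
  funext ε i
  by_cases h : i ≤ K.deg b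
  · exact key (K.deg b - i) i (by omega) ε
  · rw [hx.zero ε i (by omega), hy.zero ε i (by omega)]

lemma IsAtom.eq_dpart {b : K.B} {x : Raw K.B} (h : IsAtom K b x) {m : ℕ}
    (hm : K.deg b = m + 1) (ε : Bool) : x ε m = dpart K ε b := by
  have e := h.tab.d false m
  rw [← hm, h.top] at e
  ext c
  have e' := DFunLike.congr_fun e c
  rw [Finsupp.sub_apply] at e'
  have h₁ := h.disj m (by omega) c
  have h₃ : 0 ≤ x true m c := h.tab.nonneg _ _ c
  have h₄ : 0 ≤ x false m c := h.tab.nonneg _ _ c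
  cases ε
  · rw [stb_dpart_false]
    omega
  · rw [stb_dpart_true]
    omega

/-- Unital and strongly loop-free in degrees at most `m`. -/
structure GoodLE (K : BADC) (m : ℕ) : Prop where
  unital : ∀ b, K.deg b ≤ m → ∃ x, IsAtom K b x
  order : ∃ lt : K.B → K.B → Prop, (∀ a, ¬ lt a a) ∧ (∀ a b c, lt a b → lt b c → lt a c) ∧
    ∀ b c, K.deg b ≤ m →
      (K.d (Finsupp.single b 1) c < 0 → lt c b) ∧ (0 < K.d (Finsupp.single b 1) c → lt b c)

lemma GoodLE.mono {m n : ℕ} (h : GoodLE K n) (hm : m ≤ n) : GoodLE K m :=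
  ⟨fun b hb => h.unital b (hb.trans hm), by
    obtain ⟨lt, h₁, h₂, h₃⟩ := h.order
    exact ⟨lt, h₁, h₂, fun b c hb => h₃ b c (hb.trans hm)⟩⟩

/-- Unital and strongly loop-free basis. -/
class Good (K : BADC) : Prop where
  unital : ∀ b, ∃ x, IsAtom K b x
  order : ∃ lt : K.B → K.B → Prop, (∀ a, ¬ lt a a) ∧ (∀ a b c, lt a b → lt b c → lt a c) ∧
    ∀ b c, (K.d (Finsupp.single b 1) c < 0 → lt c b) ∧ (0 < K.d (Finsupp.single b 1) c → lt b c)

lemma Good.goodLE (K : BADC) [h : Good K] (m : ℕ) : GoodLE K m :=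
  ⟨fun b _ => h.unital b, by
    obtain ⟨lt, h₁, h₂, h₃⟩ := h.order
    exact ⟨lt, h₁, h₂, fun b c _ => h₃ b c⟩⟩

/-- The atom of a basis element. -/
noncomputable def atom [Good K] (b : K.B) : Cell K :=
  ⟨(Good.unital b).choose, (Good.unital b).choose_spec.tab,
    ⟨_, (Good.unital b).choose_spec.rDim⟩⟩

lemma isAtom_atom [Good K] (b : K.B) : IsAtom K b (atom b).val := (Good.unital b).choose_spec

lemma eq_atom [Good K] {b : K.B} {x : Cell K} (h : IsAtom K b x.val) : x = atom b :=
  Cell.ext (h.unique (isAtom_atom b))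

lemma dim_atom [Good K] (b : K.B) : (nuObj K).Dim (K.deg b) (atom b) :=
  (dim_iff_rDim _ _).2 (isAtom_atom b).rDim

/-- A morphism sending basis elements injectively to basis elements sends atoms to atoms. -/
lemma map_atom_of_injective [Good K] [Good L] (f : K ⟶ L) (φ : K.B → L.B)
    (hφ : Function.Injective φ) (hf : ∀ b, f.f (Finsupp.single b 1) = Finsupp.single (φ b) 1)
    (b : K.B) : Cell.map f (atom b) = atom (φ b) ∧ L.deg (φ b) = K.deg b := by
  have hd : L.deg (φ b) = K.deg b :=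
    f.deg _ _ (stb_isDeg_single K.deg b 1) (φ b) (by rw [hf]; simp)
  have hm : ∀ z, f.f z = Finsupp.mapDomain φ z := fun z =>
    stb_congr f.f (Finsupp.mapDomain.addMonoidHom φ) z fun c _ =>
      (hf c).trans Finsupp.mapDomain_single.symm
  have ha := isAtom_atom b
  refine ⟨eq_atom ⟨ha.tab.rmap f, fun ε => ?_, fun ε i hi => ?_, fun i hi c => ?_⟩, hd⟩
  · change f.f ((atom b).val ε _) = _
    rw [hd, ha.top, hf]
  · change f.f ((atom b).val ε i) = 0
    rw [ha.zero ε i (hd ▸ hi), map_zero]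
  · change f.f ((atom b).val true i) c = 0 ∨ f.f ((atom b).val false i) c = 0
    rw [hm, hm]
    by_cases hc : c ∈ Set.range φ
    · obtain ⟨a, rfl⟩ := hc
      rw [Finsupp.mapDomain_apply hφ, Finsupp.mapDomain_apply hφ]
      exact ha.disj i (hd ▸ hi) a
    · exact Or.inl (Finsupp.mapDomain_of_notMem_range _ _ hc)

/-- A cell of dimension zero is the atom of a basis element of degree zero. -/
lemma exists_eq_single_of_rDim_zero {x : Raw K.B} (hx : IsTab K x) (h : RDim 0 x) :
    ∃ b, K.deg b = 0 ∧ IsAtom K b x := by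
  obtain ⟨h₁, h₂⟩ := (rDim_iff _ _).1 h
  have h₃ : x false 0 ≠ 0 := fun e => by simpa [e] using hx.aug false
  obtain ⟨b, hb⟩ := Finsupp.ne_iff.1 h₃
  have h₄ : x false 0 = Finsupp.single b 1 := sub_eq_zero.1 (stb_eq_zero_of_aug
    (sub_nonneg.2 (stb_single_le (hx.nonneg _ _) hb)) (by rw [map_sub, hx.aug, aug_single]; rfl))
  have h₅ : K.deg b = 0 := hx.deg false 0 b hb
  refine ⟨b, h₅, hx, fun ε => ?_, fun ε i hi => h₂ ε i (h₅ ▸ hi), fun i hi => by omega⟩
  rw [h₅, ← h₄]
  cases ε
  exacts [rfl, h₁]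

/-- The differential of `hat K m`. -/
noncomputable def stbD (K : BADC) (m : ℕ) : (K.B →₀ ℤ) →+ (K.B →₀ ℤ) :=
  lin fun b => if K.deg b ≤ m then K.d (Finsupp.single b 1)
    else if K.deg b = m + 1 then K.d (dpart K false b) else 0

lemma stbD_le {m : ℕ} {b : K.B} (h : K.deg b ≤ m) :
    stbD K m (Finsupp.single b 1) = K.d (Finsupp.single b 1) := by
  rw [stbD, lin_single, one_smul, if_pos h]

lemma stbD_eq {m : ℕ} {b : K.B} (h : K.deg b = m + 1) :
    stbD K m (Finsupp.single b 1) = K.d (dpart K false b) := by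
  rw [stbD, lin_single, one_smul, if_neg (by omega), if_pos h]

lemma stbD_gt {m : ℕ} {b : K.B} (h : m + 1 < K.deg b) : stbD K m (Finsupp.single b 1) = 0 := by
  rw [stbD, lin_single, one_smul, if_neg (by omega), if_neg (by omega)]

lemma stbD_of_le {m : ℕ} {x : K.B →₀ ℤ} (h : ∀ b, x b ≠ 0 → K.deg b ≤ m) : stbD K m x = K.d x :=
  stb_congr _ _ x fun b hb => stbD_le (h b hb)

lemma stb_d_deg {m : ℕ} {x : K.B →₀ ℤ} (h : IsDeg K.deg m x) {c : K.B} (hc : K.d x c ≠ 0) :
    K.deg c + 1 = m := by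
  obtain ⟨b, h₁, h₂⟩ := stb_apply_ne K.d hc
  rw [K.d_deg b c h₂, h b h₁]

lemma stbD_deg (K : BADC) (m : ℕ) (b c : K.B) (h : stbD K m (Finsupp.single b 1) c ≠ 0) :
    (if K.deg c = m + 1 then m else K.deg c) + 1 = if K.deg b = m + 1 then m else K.deg b := by
  rcases lt_trichotomy (K.deg b) (m + 1) with hb | hb | hb
  · rw [stbD_le (by omega)] at h
    have := K.d_deg b c h
    rw [if_neg (by omega), if_neg (by omega), this]
  · rw [stbD_eq hb] at h
    have := stb_d_deg (dpart_deg false b hb) h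
    rw [if_neg (by omega), if_pos hb, this]
  · rw [stbD_gt hb] at h
    exact absurd rfl h

lemma stbD_D (K : BADC) (m : ℕ) (x : K.B →₀ ℤ) : stbD K m (stbD K m x) = 0 := by
  refine stb_congr ((stbD K m).comp (stbD K m)) 0 x fun b _ => ?_
  change stbD K m (stbD K m (Finsupp.single b 1)) = 0
  rcases lt_trichotomy (K.deg b) (m + 1) with hb | hb | hb
  · rw [stbD_le (by omega), stbD_of_le, K.d_d]
    intro c hc
    have := K.d_deg b c hc
    omega
  · rw [stbD_eq hb, stbD_of_le, K.d_d]
    intro c hc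
    have := stb_d_deg (dpart_deg false b hb) hc
    omega
  · rw [stbD_gt hb, map_zero]

lemma stbD_aug (K : BADC) (m : ℕ) (b : K.B) (h : (if K.deg b = m + 1 then m else K.deg b) = 1) :
    aug (stbD K m (Finsupp.single b 1)) = 0 := by
  split_ifs at h with hb
  · rw [stbD_eq hb]
    exact IsDeg.aug_d (h ▸ dpart_deg false b hb)
  · rw [stbD_le (by omega), K.aug_d b h]

/-- The complex in which the generators of degree `m + 1` are lowered to degree `m`. -/
@[reducible]
noncomputable def hat (K : BADC) (m : ℕ) : BADC where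
  B := K.B
  deg b := if K.deg b = m + 1 then m else K.deg b
  d := lin fun b => if K.deg b ≤ m then K.d (Finsupp.single b 1)
    else if K.deg b = m + 1 then K.d (dpart K false b) else 0
  d_deg := stbD_deg K m
  d_d := stbD_D K m
  aug_d := stbD_aug K m

/-- Replace the generators of degree `m + 1` lying in `S` by their `ε`-boundary. -/
noncomputable def hatSub (K : BADC) (m : ℕ) (ε : Bool) (S : K.B → Prop) :
    (K.B →₀ ℤ) →+ (K.B →₀ ℤ) :=
  open Classical in
  lin fun b => if K.deg b = m + 1 ∧ S b then dpart K ε b else Finsupp.single b 1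

lemma hat_d_of_deg {m i : ℕ} {x : K.B →₀ ℤ} (hx : IsDeg K.deg i x) (hi : i ≤ m) :
    (hat K m).d x = K.d x :=
  stbD_of_le fun b hb => (hx b hb).trans_le hi

lemma hat_d_hatSub {m : ℕ} (ε : Bool) (S : K.B → Prop) {x : K.B →₀ ℤ}
    (hx : IsDeg (hat K m).deg m x) : (hat K m).d (hatSub K m ε S x) = (hat K m).d x := by
  refine stb_congr ((stbD K m).comp (hatSub K m ε S)) (stbD K m) x fun b hb => ?_
  have := hx b hb
  change stbD K m (hatSub K m ε S (Finsupp.single b 1)) = _
  rw [hatSub, lin_single, one_smul]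
  split_ifs with h
  · rw [stbD_eq h.1, stbD_of_le fun c hc => (dpart_deg ε b h.1 c hc).le, d_dpart]
  · rfl

/-- A table of `K` of dimension at most `m` is a table of `hat K m`. -/
lemma IsTab.toHat {m : ℕ} {x : Raw K.B} (hx : IsTab K x) (h : RDim m x) : IsTab (hat K m) x := by
  obtain ⟨-, h₂⟩ := (rDim_iff _ _).1 h
  refine ⟨hx.nonneg, fun ε i b hb => ?_, hx.aug, fun ε i => ?_⟩
  · have h₃ := hx.deg ε i b hb
    have h₄ : i ≤ m := by
      by_contra hi
      exact hb (by rw [h₂ ε i (by omega)]; rfl)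
    exact (if_neg (by omega)).trans h₃
  · rw [← hx.d ε i]
    by_cases hi : i + 1 ≤ m
    · exact hat_d_of_deg (hx.deg _ _) hi
    · rw [h₂ ε (i + 1) (by omega), map_zero, map_zero]

/-- A table of `hat K m` of dimension at most `m` without lowered generators is a table of `K`. -/
lemma IsTab.ofHat {m : ℕ} {x : Raw K.B} (hx : IsTab (P213.hat K m) x) (h : RDim m x)
    (h' : IsDeg K.deg m (x false m)) : IsTab K x := by
  obtain ⟨h₁, h₂⟩ := (rDim_iff _ _).1 h
  have hd : ∀ ε i, IsDeg K.deg i (x ε i) := by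
    intro ε i b hb
    rcases lt_trichotomy i m with hi | rfl | hi
    · have h₃ : (if K.deg b = m + 1 then m else K.deg b) = i := hx.deg ε i b hb
      split_ifs at h₃ <;> omega
    · cases ε
      · exact h' b hb
      · exact h' b (h₁ ▸ hb)
    · exact absurd (by rw [h₂ ε i hi]; rfl) hb
  refine ⟨hx.nonneg, hd, hx.aug, fun ε i => ?_⟩
  rw [← hx.d ε i]
  by_cases hi : i + 1 ≤ m
  · exact (hat_d_of_deg (hd _ _) hi).symm
  · rw [h₂ ε (i + 1) (by omega), map_zero, map_zero]

lemma IsAtom.toHat {m : ℕ} {b : K.B} {x : Raw K.B} (hx : IsAtom K b x) (hb : K.deg b ≤ m) :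
    IsAtom (P213.hat K m) b x := by
  have hd : (P213.hat K m).deg b = K.deg b := if_neg (by omega)
  refine ⟨hx.tab.toHat ?_, hd ▸ hx.top, hd ▸ hx.zero, hd ▸ hx.disj⟩
  have e : rbd false (K.deg b) x = x := hx.rDim
  rw [RDim, ← e, rbd_rbd_le _ _ _ _ _ hb]

/-- Replace the entries in degree `m` by `z` and drop the entries above. -/
noncomputable def setTop {B : Type} (m : ℕ) (z : B →₀ ℤ) (x : Raw B) : Raw B :=
  fun ε i => if i < m then x ε i else if i = m then z else 0

lemma IsAtom.hatTop {m : ℕ} {b : K.B} {x : Raw K.B} (hx : IsAtom K b x) (hb : K.deg b = m + 1) :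
    IsAtom (P213.hat K m) b (setTop m (Finsupp.single b 1) x) := by
  have hd : (P213.hat K m).deg b = m := if_pos hb
  refine ⟨⟨fun ε i => ?_, fun ε i => ?_, fun ε => ?_, fun ε i => ?_⟩, fun ε => ?_,
    fun ε i hi => ?_, fun i hi c => ?_⟩
  · rw [setTop]
    split_ifs
    exacts [hx.tab.nonneg _ _, Finsupp.single_nonneg.2 zero_le_one, le_rfl]
  · rw [setTop]
    split_ifs with h₁ h₂
    · intro c hc
      have h₃ := hx.tab.deg ε i c hc
      exact (if_neg (by omega)).trans h₃
    · intro c hc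
      rw [(Finsupp.single_apply_ne_zero.1 hc).1, hd, h₂]
    · exact stb_isDeg_zero _ _
  · rw [setTop]
    split_ifs with h₁ h₂
    · exact hx.tab.aug ε
    · exact aug_single _ _
    · omega
  · simp only [setTop]
    rcases lt_trichotomy (i + 1) m with hi | hi | hi
    · rw [if_pos hi, if_pos (by omega), if_pos (by omega), ← hx.tab.d ε i]
      exact hat_d_of_deg (hx.tab.deg _ _) hi.le
    · rw [if_neg (by omega), if_pos hi, if_pos (by omega), if_pos (by omega), ← hx.tab.d false i,
        hi, hx.eq_dpart hb]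
      exact stbD_eq hb
    · rw [if_neg (by omega), if_neg (by omega), if_neg (show ¬i < m by omega),
        if_neg (show ¬i < m by omega), map_zero, sub_self]
  · rw [hd, setTop, if_neg (lt_irrefl m), if_pos rfl]
  · rw [hd] at hi
    rw [setTop, if_neg (by omega), if_neg (by omega)]
  · rw [hd] at hi
    rw [setTop, setTop, if_pos hi, if_pos hi]
    exact hx.disj i (by omega) c

lemma stb_hat_order {m : ℕ} {lt : K.B → K.B → Prop} (h₂ : ∀ a b c, lt a b → lt b c → lt a c)
    (h₃ : ∀ b c, K.deg b ≤ m + 1 →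
      (K.d (Finsupp.single b 1) c < 0 → lt c b) ∧ (0 < K.d (Finsupp.single b 1) c → lt b c))
    (b c : K.B) (hb : (if K.deg b = m + 1 then m else K.deg b) ≤ m) :
    (stbD K m (Finsupp.single b 1) c < 0 → lt c b) ∧
      (0 < stbD K m (Finsupp.single b 1) c → lt b c) := by
  split_ifs at hb with e
  · rw [stbD_eq e]
    refine ⟨fun hc => ?_, fun hc => ?_⟩
    · obtain ⟨a, ha, ha'⟩ := stb_apply_neg K.d (c := c) (dpart_nonneg false b) hc
      have h₄ : K.deg a ≤ m + 1 := (dpart_deg false b e a ha.ne').le.trans m.le_succ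
      have h₅ : K.d (Finsupp.single b 1) a < 0 := by
        rw [stb_dpart_false, lt_max_iff, lt_self_iff_false, or_false, neg_pos] at ha
        exact ha
      exact h₂ c a b ((h₃ a c h₄).1 ha') ((h₃ b a e.le).1 h₅)
    · rw [← d_dpart true] at hc
      obtain ⟨a, ha, ha'⟩ := stb_apply_pos K.d (c := c) (dpart_nonneg true b) hc
      have h₄ : K.deg a ≤ m + 1 := (dpart_deg true b e a ha.ne').le.trans m.le_succ
      have h₅ : 0 < K.d (Finsupp.single b 1) a := by
        rw [stb_dpart_true, lt_max_iff, lt_self_iff_false, or_false] at ha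
        exact ha
      exact h₂ b a c ((h₃ b a e.le).2 h₅) ((h₃ a c h₄).2 ha')
  · rw [stbD_le hb]
    exact h₃ b c (hb.trans m.le_succ)

lemma GoodLE.hat {m : ℕ} (h : GoodLE K (m + 1)) : GoodLE (hat K m) m := by
  obtain ⟨lt, h₁, h₂, h₃⟩ := h.order
  refine ⟨fun b hb => ?_, lt, h₁, h₂, fun b c hb => ?_⟩
  · change (if K.deg b = m + 1 then m else K.deg b) ≤ m at hb
    split_ifs at hb with e
    · obtain ⟨x, hx⟩ := h.unital b e.le
      exact ⟨_, hx.hatTop e⟩
    · obtain ⟨x, hx⟩ := h.unital b (by omega)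
      exact ⟨_, hx.toHat hb⟩
  · exact stb_hat_order h₂ h₃ b c hb

lemma stb_exists_min {B : Type} (lt : B → B → Prop) (h₁ : ∀ a, ¬lt a a)
    (h₂ : ∀ a b c, lt a b → lt b c → lt a c) {s : Finset B} (hs : s.Nonempty) :
    ∃ a ∈ s, ∀ b ∈ s, ¬lt b a := by
  induction hs using Finset.Nonempty.cons_induction with
  | singleton a => exact ⟨a, Finset.mem_singleton_self a, by simpa using h₁ a⟩
  | cons a s ha _ ih =>
    obtain ⟨b, hb, hb'⟩ := ih
    by_cases h : lt a b
    · refine ⟨a, Finset.mem_cons_self a s, fun c hc e => ?_⟩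
      rcases Finset.mem_cons.1 hc with rfl | hc
      · exact h₁ _ e
      · exact hb' c hc (h₂ _ _ _ e h)
    · refine ⟨b, Finset.mem_cons_of_mem hb, fun c hc => ?_⟩
      rcases Finset.mem_cons.1 hc with rfl | hc
      exacts [h, hb' c hc]

/-- In a table of dimension `m + 1`, a minimal generator of the top entry can be applied to the
source, together with any other generator that can be applied. -/
lemma exists_applicable {m : ℕ} (h : GoodLE K (m + 1)) {x : Raw K.B} (hx : IsTab K x)
    (hne : x false (m + 1) ≠ 0) :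
    ∃ a, x false (m + 1) a ≠ 0 ∧ dpart K false a ≤ x false m ∧
      ∀ b, b ≠ a → x false (m + 1) b ≠ 0 → dpart K false b ≤ x false m →
        dpart K false a + dpart K false b ≤ x false m := by
  obtain ⟨lt, h₁, h₂, h₃⟩ := h.order
  obtain ⟨a, ha, hmin⟩ := stb_exists_min lt h₁ h₂ (Finsupp.support_nonempty_iff.2 hne)
  rw [Finsupp.mem_support_iff] at ha
  have hz := hx.nonneg false (m + 1)
  have key : ∀ w : K.B →₀ ℤ, 0 ≤ w → w ≤ x false (m + 1) → ∀ c,
      K.d (Finsupp.single a 1) c < 0 → K.d w c ≤ 0 := by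
    intro w hw hw' c hc
    by_contra hc'
    obtain ⟨b, hb, hb'⟩ := stb_apply_pos K.d hw (not_le.1 hc')
    have hb'' : x false (m + 1) b ≠ 0 := (hb.trans_le (hw' b)).ne'
    exact hmin b (Finsupp.mem_support_iff.2 hb'') (h₂ _ _ _
      ((h₃ b c (hx.deg _ _ b hb'').le).2 hb') ((h₃ a c (hx.deg _ _ a ha).le).1 hc))
  have hs : ∀ b : K.B, (0 : K.B →₀ ℤ) ≤ Finsupp.single b 1 := fun b =>
    Finsupp.single_nonneg.2 zero_le_one
  have hw := sub_nonneg.2 (stb_single_le hz ha)
  refine ⟨a, ha, fun c => ?_, fun b hb hb' hb'' c => ?_⟩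
  · have h₄ := key _ hw (sub_le_self _ (hs a)) c
    have h₅ : 0 ≤ x true m c := hx.nonneg _ _ c
    have h₆ : 0 ≤ x false m c := hx.nonneg _ _ c
    rw [map_sub, hx.d, Finsupp.sub_apply, Finsupp.sub_apply] at h₄
    rw [stb_dpart_false]
    omega
  · have hw' := sub_nonneg.2 (stb_single_le hw (b := b) (by
      rwa [Finsupp.sub_apply, Finsupp.single_eq_of_ne hb, sub_zero]))
    have h₄ := key _ hw' ((sub_le_self _ (hs b)).trans (sub_le_self _ (hs a))) c
    have h₅ : 0 ≤ x true m c := hx.nonneg _ _ c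
    have h₆ := hb'' c
    have h₇ := key _ (hs b) (stb_single_le hz hb') c
    rw [map_sub, map_sub, hx.d, Finsupp.sub_apply, Finsupp.sub_apply, Finsupp.sub_apply] at h₄
    rw [stb_dpart_false] at h₆
    rw [Finsupp.add_apply, stb_dpart_false, stb_dpart_false]
    omega

end Vale.Agent.P213
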