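import Vale.Agent.P213.StBasic

/-!
P213, Steiner theory part 2: every cell is a composite of atoms.

Plan. Induction on `m`, for all `K`. Case `0`: `exists_eq_single_of_rDim_zero`. Step `m + 1`:
first the cells of dimension `≤ m` (induction hypothesis for `K`). A cell `x` of dimension
`m + 1` is determined by its source `u = rbd false m x` and its top `M = x false (m + 1)`.
Induct on `aug M` (a natural number as `M ≥ 0`): take `a` from `exists_applicable`; then
`x = rcomp m (single a u) x'` where `single a u` has source `u` and top `a`, and `x'` has the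
source `u - dneg a + dpos a` in degree `m` and top `M - a`. For the single cells apply the
induction hypothesis to `hat K m` with the predicate `z ↦ Q (unhat z)`, where `unhat z` has the
entries of `z` below `m`, `hatSub K m ε ⊤ (z ε m)` in degree `m` and the part of `z false m`
supported on the generators of degree `m + 1` in degree `m + 1`; `unhat` is additive, sends
tables of `hat K m` of dimension `≤ m` to tables of `K`, atoms to atoms, and commutes with `rbd α j`
and `rcomp j` for `j < m`.
-/

open CategoryTheory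

namespace Vale.Agent.P213

section Gen

variable {K : BADC} {m : ℕ}

lemma gen_isDeg_add {B : Type} {deg : B → ℕ} {i : ℕ} {x y : B →₀ ℤ} (hx : IsDeg deg i x)
    (hy : IsDeg deg i y) : IsDeg deg i (x + y) := fun b hb => by
  by_cases h : x b = 0
  · exact hy b (by simpa [h] using hb)
  · exact hx b h

lemma gen_isDeg_sub {B : Type} {deg : B → ℕ} {i : ℕ} {x y : B →₀ ℤ} (hx : IsDeg deg i x)
    (hy : IsDeg deg i y) : IsDeg deg i (x - y) := fun b hb => by
  by_cases h : x b = 0
  · exact hy b (by simpa [h] using hb)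
  · exact hx b h

lemma gen_isDeg_single {B : Type} {deg : B → ℕ} {i : ℕ} {a : B} (h : deg a = i) :
    IsDeg deg i (Finsupp.single a (1 : ℤ)) := fun b hb => by
  obtain rfl : a = b := by
    by_contra hab
    exact hb (Finsupp.single_eq_of_ne' hab)
  exact h

lemma gen_lin_nonneg {B B' : Type} {g : B → (B' →₀ ℤ)} (h : ∀ b, 0 ≤ g b) {x : B →₀ ℤ}
    (hx : 0 ≤ x) : 0 ≤ lin g x := by
  rw [lin_apply]
  exact Finset.sum_nonneg fun b _ => smul_nonneg (hx b) (h b)

lemma gen_lin_deg {B B' : Type} {g : B → (B' →₀ ℤ)} {deg : B' → ℕ} {i : ℕ} {x : B →₀ ℤ}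
    (h : ∀ b, x b ≠ 0 → IsDeg deg i (g b)) : IsDeg deg i (lin g x) := fun c hc => by
  rw [lin_apply, Finsupp.finsetSum_apply] at hc
  obtain ⟨b, hb, hb'⟩ := Finset.exists_ne_zero_of_sum_ne_zero hc
  exact h b (Finsupp.mem_support_iff.1 hb) c fun e => hb' (by simp [e])

lemma gen_congr {B M : Type} [AddCommGroup M] {f g : (B →₀ ℤ) →+ M} {x : B →₀ ℤ}
    (h : ∀ b, x b ≠ 0 → f (Finsupp.single b 1) = g (Finsupp.single b 1)) : f x = g x := by
  rw [← Finsupp.sum_single x, Finsupp.sum, map_sum, map_sum]
  refine Finset.sum_congr rfl fun b hb => ?_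
  rw [← Finsupp.smul_single_one, map_zsmul, map_zsmul, h b (Finsupp.mem_support_iff.1 hb)]

lemma gen_aug_nonneg {B : Type} {x : B →₀ ℤ} (hx : 0 ≤ x) : 0 ≤ aug x := by
  rw [← Finsupp.sum_single x, Finsupp.sum, map_sum]
  exact Finset.sum_nonneg fun b _ => by simpa using hx b

/-- The part of a chain which is supported on the generators of degree `m + 1`. -/
noncomputable def genTop (K : BADC) (m : ℕ) : (K.B →₀ ℤ) →+ (K.B →₀ ℤ) :=
  lin fun b => if K.deg b = m + 1 then Finsupp.single b 1 else 0

/-- Replace all the generators of degree `m + 1` by their `ε`-boundary. -/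
noncomputable abbrev genSub (K : BADC) (m : ℕ) (ε : Bool) : (K.B →₀ ℤ) →+ (K.B →₀ ℤ) :=
  hatSub K m ε fun _ => True

lemma genTop_single (b : K.B) : genTop K m (Finsupp.single b 1) =
    if K.deg b = m + 1 then Finsupp.single b 1 else 0 := by
  rw [genTop, lin_single, one_smul]

lemma genSub_single (ε : Bool) (b : K.B) : genSub K m ε (Finsupp.single b 1) =
    if K.deg b = m + 1 then dpart K ε b else Finsupp.single b 1 := by
  simp [hatSub]

lemma genTop_of_deg {x : K.B →₀ ℤ} (hx : IsDeg K.deg m x) : genTop K m x = 0 :=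
  gen_congr (g := 0) fun b hb => by
    rw [genTop_single, if_neg (by rw [hx b hb]; omega)]
    rfl

lemma genSub_of_deg (ε : Bool) {x : K.B →₀ ℤ} (hx : IsDeg K.deg m x) : genSub K m ε x = x :=
  gen_congr (g := AddMonoidHom.id _) fun b hb => by
    rw [genSub_single, if_neg (by rw [hx b hb]; omega)]
    rfl

lemma d_genTop (x : K.B →₀ ℤ) : K.d (genTop K m x) = genSub K m true x - genSub K m false x :=
  gen_congr (f := K.d.comp (genTop K m)) (g := genSub K m true - genSub K m false) fun b _ => by
    rw [AddMonoidHom.comp_apply, AddMonoidHom.sub_apply, genTop_single, genSub_single,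
      genSub_single]
    split_ifs
    · exact (dpart_sub b).symm
    · simp

lemma genSub_deg (ε : Bool) {x : K.B →₀ ℤ} (hx : IsDeg (hat K m).deg m x) :
    IsDeg K.deg m (genSub K m ε x) :=
  gen_lin_deg fun b hb => by
    have h := hx b hb
    split_ifs with h'
    · exact dpart_deg ε b h'.1
    · exact gen_isDeg_single (by simpa [show K.deg b ≠ m + 1 by simpa using h'] using h)

lemma gen_aug_dpart (hK : GoodLE K 1) (ε : Bool) {b : K.B} (hb : K.deg b = 0 + 1) :
    aug (dpart K ε b) = 1 := by
  obtain ⟨x, hx⟩ := hK.unital b hb.le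
  rw [← hx.eq_dpart hb, hx.tab.aug]

lemma gen_ofHat {i : ℕ} {x : K.B →₀ ℤ} (hx : IsDeg (hat K m).deg i x) (hi : i < m) :
    IsDeg K.deg i x := fun b hb => by
  have h : (if K.deg b = m + 1 then m else K.deg b) = i := hx b hb
  split_ifs at h <;> omega

lemma gen_toHat {x : K.B →₀ ℤ} (hx : IsDeg K.deg m x) : IsDeg (hat K m).deg m x := fun b hb => by
  have h := hx b hb
  show (if K.deg b = m + 1 then m else K.deg b) = m
  split_ifs <;> omega

/-- Raise the lowered generators again. -/
noncomputable def unhat (K : BADC) (m : ℕ) (z : Raw K.B) : Raw K.B := fun ε i =>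
  if i < m then z ε i else if i = m then genSub K m ε (z ε m)
  else if i = m + 1 then genTop K m (z false m) else 0

lemma unhat_lt {i : ℕ} (h : i < m) (z : Raw K.B) (ε : Bool) : unhat K m z ε i = z ε i := if_pos h

lemma unhat_self (z : Raw K.B) (ε : Bool) : unhat K m z ε m = genSub K m ε (z ε m) := by
  simp [unhat]

lemma unhat_succ (z : Raw K.B) (ε : Bool) : unhat K m z ε (m + 1) = genTop K m (z false m) := by
  simp [unhat]

lemma unhat_gt {i : ℕ} (h : m + 1 < i) (z : Raw K.B) (ε : Bool) : unhat K m z ε i = 0 := by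
  rw [unhat, if_neg (by omega), if_neg (by omega), if_neg (by omega)]

lemma gen_cases (m i : ℕ) : i < m ∨ i = m ∨ i = m + 1 ∨ m + 1 < i := by omega

lemma unhat_rDim (z : Raw K.B) : RDim (m + 1) (unhat K m z) :=
  (rDim_iff _ _).2 ⟨by rw [unhat_succ, unhat_succ], fun ε _ h => unhat_gt h z ε⟩

lemma rbd_unhat {j : ℕ} (hj : j < m) (α : Bool) (z : Raw K.B) :
    rbd α j (unhat K m z) = rbd α j z := by
  funext ε i
  simp only [rbd]
  split_ifs with h₁ h₂
  exacts [unhat_lt (by omega) z ε, unhat_lt hj z α, rfl]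

lemma unhat_rcomp {j : ℕ} (hj : j < m) (x y : Raw K.B) :
    unhat K m (rcomp j x y) = rcomp j (unhat K m x) (unhat K m y) := by
  rw [rcomp, rcomp, rbd_unhat hj]
  funext ε i
  have h : ∀ ε i, m ≤ i → rbd true j x ε i = 0 := fun ε i hi => by
    rw [rbd, if_neg (by omega), if_neg (by omega)]
  simp only [unhat, Pi.sub_apply, Pi.add_apply, h _ m le_rfl, sub_zero, map_add]
  split_ifs with h₁ h₂ h₃
  · rfl
  all_goals simp [h ε i (by omega)]

lemma unhat_eq {x : Raw K.B} (hx : IsTab K x) (h : RDim m x) : unhat K m x = x := by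
  funext ε i
  rcases gen_cases m i with hi | rfl | rfl | hi
  · exact unhat_lt hi x ε
  · rw [unhat_self, genSub_of_deg _ (hx.deg _ _)]
  · rw [unhat_succ, genTop_of_deg (hx.deg _ _), ((rDim_iff _ _).1 h).2 ε _ (by omega)]
  · rw [unhat_gt hi, ((rDim_iff _ _).1 h).2 ε _ (by omega)]

lemma unhat_tab (hK : GoodLE K (m + 1)) {z : Raw K.B} (hz : IsTab (hat K m) z) (h : RDim m z) :
    IsTab K (unhat K m z) where
  nonneg ε i := by
    rcases gen_cases m i with hi | rfl | rfl | hi
    · rw [unhat_lt hi]
      exact hz.nonneg ε i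
    · rw [unhat_self]
      refine gen_lin_nonneg (fun b => ?_) (hz.nonneg _ _)
      split_ifs
      exacts [dpart_nonneg ε b, Finsupp.single_nonneg.2 zero_le_one]
    · rw [unhat_succ]
      refine gen_lin_nonneg (fun b => ?_) (hz.nonneg _ _)
      split_ifs
      exacts [Finsupp.single_nonneg.2 zero_le_one, le_rfl]
    · rw [unhat_gt hi]
  deg ε i := by
    rcases gen_cases m i with hi | rfl | rfl | hi
    · rw [unhat_lt hi]
      exact gen_ofHat (hz.deg ε i) hi
    · rw [unhat_self]
      exact genSub_deg ε (hz.deg _ _)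
    · rw [unhat_succ]
      refine gen_lin_deg fun b _ => ?_
      split_ifs with h'
      exacts [gen_isDeg_single h', fun c hc => absurd rfl hc]
    · rw [unhat_gt hi]
      exact fun c hc => absurd rfl hc
  aug ε := by
    rcases Nat.eq_zero_or_pos m with rfl | hm
    · rw [unhat_self, ← hz.aug ε]
      refine gen_congr (f := aug.comp (genSub K 0 ε)) fun b _ => ?_
      rw [AddMonoidHom.comp_apply, genSub_single, aug_single]
      split_ifs with h'
      exacts [gen_aug_dpart hK ε h', aug_single b 1]
    · rw [unhat_lt hm]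
      exact hz.aug ε
  d ε i := by
    rcases gen_cases m (i + 1) with hi | rfl | hi | hi
    · rw [unhat_lt hi, unhat_lt (by omega), unhat_lt (by omega),
        ← hat_d_of_deg (gen_ofHat (hz.deg ε _) hi) hi.le]
      exact hz.d ε i
    · rw [unhat_self, unhat_lt (by omega), unhat_lt (by omega),
        ← hat_d_of_deg (genSub_deg ε (hz.deg _ _)) le_rfl, hat_d_hatSub _ _ (hz.deg _ _)]
      exact hz.d ε i
    · obtain rfl : i = m := by omega
      rw [unhat_succ, unhat_self, unhat_self, d_genTop, ((rDim_iff _ _).1 h).1]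
    · rw [unhat_gt hi, map_zero]
      rcases (show i = m + 1 ∨ m + 1 < i by omega) with rfl | hi'
      · rw [unhat_succ, unhat_succ, sub_self]
      · rw [unhat_gt hi', unhat_gt hi', sub_self]

lemma unhat_atom (hK : GoodLE K (m + 1)) {b : K.B} {z : Raw K.B} (hb : (hat K m).deg b ≤ m)
    (hz : IsAtom (hat K m) b z) : K.deg b ≤ m + 1 ∧ IsAtom K b (unhat K m z) := by
  have h : (if K.deg b = m + 1 then m else K.deg b) ≤ m := hb
  have h₁ : K.deg b ≤ m + 1 := by split_ifs at h <;> omega
  obtain ⟨x, hx⟩ := hK.unital b h₁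
  refine ⟨h₁, ?_⟩
  rcases h₁.eq_or_lt with h₂ | h₂
  · obtain rfl := hz.unique (hx.hatTop h₂)
    convert hx
    funext ε i
    rcases gen_cases m i with hi | rfl | rfl | hi
    · rw [unhat_lt hi, setTop, if_pos hi]
    · simp [unhat_self, setTop, genSub_single, h₂, hx.eq_dpart h₂]
    · rw [unhat_succ, ← h₂, hx.top]
      simp [setTop, genTop_single, h₂]
    · rw [unhat_gt hi, hx.zero ε i (by omega)]
  · obtain rfl := hz.unique (hx.toHat (Nat.lt_succ_iff.1 h₂))
    rwa [unhat_eq hx.tab]
    rw [← hx.rDim]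
    exact rbd_rbd_le _ _ _ _ _ (Nat.lt_succ_iff.1 h₂)

lemma gen_setTop {x : Raw K.B} (hx : IsTab K x) {w : K.B →₀ ℤ} (h₀ : 0 ≤ w)
    (h₁ : IsDeg K.deg m w) (h₂ : m = 0 → aug w = 1) (h₃ : K.d w = K.d (x false m)) :
    IsTab K (setTop m w x) where
  nonneg ε i := by
    simp only [setTop]
    split_ifs
    exacts [hx.nonneg _ _, h₀, le_rfl]
  deg ε i := by
    simp only [setTop]
    split_ifs with h h'
    exacts [hx.deg _ _, h' ▸ h₁, fun c hc => absurd rfl hc]
  aug ε := by
    simp only [setTop]
    split_ifs with h h'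
    exacts [hx.aug _, h₂ h'.symm, by omega]
  d ε i := by
    simp only [setTop]
    rcases lt_trichotomy (i + 1) m with hi | rfl | hi
    · rw [if_pos hi, if_pos (by omega), if_pos (by omega), hx.d]
    · rw [if_neg (by omega), if_pos rfl, if_pos (by omega), if_pos (by omega), h₃, hx.d]
    · rw [if_neg (by omega), if_neg (by omega), if_neg (by omega), if_neg (show ¬ i < m by omega),
        map_zero, sub_self]

/-- Split off one generator of the top entry. -/
lemma gen_split (hK : GoodLE K (m + 1)) {x : Raw K.B} (hx : IsTab K x) (h : RDim (m + 1) x)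
    (hne : x false (m + 1) ≠ 0) : ∃ z x' : Raw K.B, IsTab (hat K m) z ∧ RDim m z ∧ IsTab K x' ∧
      RDim (m + 1) x' ∧ rbd true m (unhat K m z) = rbd false m x' ∧
      x = rcomp m (unhat K m z) x' ∧ aug (x' false (m + 1)) + 1 = aug (x false (m + 1)) := by
  obtain ⟨a, ha, ha', -⟩ := exists_applicable hK hx hne
  have hd : K.deg a = m + 1 := hx.deg _ _ a ha
  have hu : IsDeg K.deg m (x false m - dpart K false a) :=
    gen_isDeg_sub (hx.deg _ _) (dpart_deg false a hd)
  set w := x false m - dpart K false a + Finsupp.single a 1 with hw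
  have hw₁ : ∀ ε, genSub K m ε w = x false m - dpart K false a + dpart K ε a := fun ε => by
    rw [hw, map_add, genSub_of_deg ε hu, genSub_single, if_pos hd]
  have hw₂ : genTop K m w = Finsupp.single a 1 := by
    rw [hw, map_add, genTop_of_deg hu, genTop_single, if_pos hd, zero_add]
  have hw₃ : IsDeg (hat K m).deg m w :=
    gen_isDeg_add (gen_toHat hu) (gen_isDeg_single (if_pos hd))
  have hz : IsTab (hat K m) (setTop m w (rbd false m x)) :=
    gen_setTop (K := hat K m) ((hx.rbd false m).toHat (rbd_rbd_le _ _ _ _ _ le_rfl))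
      (add_nonneg (sub_nonneg.2 ha') (Finsupp.single_nonneg.2 zero_le_one)) hw₃
      (by
        rintro rfl
        rw [hw, map_add, map_sub, hx.aug, gen_aug_dpart hK false hd, aug_single]
        rfl)
      (by
        rw [← hat_d_hatSub false (fun _ => True) hw₃, hw₁, sub_add_cancel]
        simp [rbd])
  set z := setTop m w (rbd false m x) with hz'
  have hzd : RDim m z := (rDim_iff _ _).2 ⟨by simp [hz', setTop], fun ε i hi => by
    rw [hz', setTop, if_neg (by omega), if_neg (by omega)]⟩
  have hs := unhat_tab hK hz hzd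
  set s := unhat K m z with hs'
  have s₁ : ∀ ε i, i < m → s ε i = x ε i := fun ε i hi => by
    rw [hs', unhat_lt hi, hz', setTop, if_pos hi, rbd, if_pos hi]
  have s₂ : ∀ ε, s ε m = x false m - dpart K false a + dpart K ε a := fun ε => by
    rw [hs', unhat_self, ← hw₁]
    simp [hz', setTop]
  have s₃ : ∀ ε, s ε (m + 1) = Finsupp.single a 1 := fun ε => by
    rw [hs', unhat_succ, ← hw₂]
    simp [hz', setTop]
  obtain ⟨x₁, x₂⟩ := (rDim_iff _ _).1 h
  have e : ∀ ε i, (x - s + rbd true m s) ε i = if i < m then x ε i else if i = m then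
      x ε m - s ε m + s true m else x ε i - s ε i := fun ε i => by
    simp only [rbd, Pi.add_apply, Pi.sub_apply]
    split_ifs with h₁ h₂
    · rw [sub_add_cancel]
    · rw [h₂]
    · rw [add_zero]
  have e' : ∀ ε, (x - s + rbd true m s) ε (m + 1) = x false (m + 1) - Finsupp.single a 1 :=
    fun ε => by
      rw [e, if_neg (by omega), if_neg (by omega), s₃]
      cases ε
      exacts [rfl, by rw [x₁]]
  have e'' : ∀ ε i, m + 1 < i → (x - s + rbd true m s) ε i = 0 := fun ε i hi => by
    rw [e, if_neg (by omega), if_neg (by omega), x₂ ε i hi, hs', unhat_gt hi, sub_zero]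
  refine ⟨z, x - s + rbd true m s, hz, hzd, ⟨fun ε i => ?_, fun ε i => ?_, fun ε => ?_,
    fun ε i => ?_⟩, (rDim_iff _ _).2 ⟨by rw [e', e'], e''⟩, ?_, by rw [rcomp]; abel, ?_⟩
  · rcases gen_cases m i with hi | rfl | rfl | hi
    · rw [e, if_pos hi]
      exact hx.nonneg _ _
    · rw [e, if_neg (by omega), if_pos rfl]
      cases ε
      · rw [s₂ false, sub_add_cancel, sub_self, zero_add]
        exact hs.nonneg _ _
      · rw [sub_add_cancel]
        exact hx.nonneg _ _
    · rw [e', sub_nonneg]
      intro b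
      by_cases hab : b = a
      · rw [hab, Finsupp.single_eq_same]
        exact lt_of_le_of_ne (hx.nonneg false (m + 1) a) (Ne.symm ha)
      · rw [Finsupp.single_eq_of_ne hab]
        exact hx.nonneg false (m + 1) b
    · rw [e'' ε i hi]
  · exact gen_isDeg_add (gen_isDeg_sub (hx.deg _ _) (hs.deg _ _)) ((hs.rbd true m).deg _ _)
  · simp only [Pi.add_apply, Pi.sub_apply, map_add, map_sub, hx.aug, hs.aug, (hs.rbd true m).aug]
    rfl
  · simp only [Pi.add_apply, Pi.sub_apply, map_add, map_sub, hx.d, hs.d, (hs.rbd true m).d]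
    abel
  · funext ε i
    simp only [rbd, e]
    split_ifs with h₁ h₂ h₃
    · exact s₁ ε i h₁
    · omega
    · rw [s₂ false, sub_add_cancel, sub_self, zero_add]
    · rfl
  · rw [e', map_sub, aug_single, sub_add_cancel]

end Gen

theorem gen_raw (m : ℕ) : ∀ (K : BADC), GoodLE K m → ∀ Q : Raw K.B → Prop,
    (∀ b x, K.deg b ≤ m → IsAtom K b x → Q x) →
    (∀ j x y, j < m → IsTab K x → IsTab K y → RDim m x → RDim m y →
      rbd true j x = rbd false j y → Q x → Q y → Q (rcomp j x y)) →
    ∀ x, IsTab K x → RDim m x → Q x := by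
  induction m with
  | zero =>
    intro K _ Q h₁ _ x hx h
    obtain ⟨b, hb, hb'⟩ := exists_eq_single_of_rDim_zero hx h
    exact h₁ b x hb.le hb'
  | succ m ih =>
    intro K hK Q h₁ h₂
    have hA : ∀ z : Raw K.B, IsTab (hat K m) z → RDim m z → Q (unhat K m z) := by
      refine ih (hat K m) hK.hat (fun z : Raw K.B => Q (unhat K m z)) ?_ ?_
      · intro b z hb hz
        exact h₁ b _ (unhat_atom hK hb hz).1 (unhat_atom hK hb hz).2
      · intro j x y hj hx hy hx' hy' hxy qx qy
        have e := unhat_rcomp (K := K) hj x y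
        have e' : rbd true j (unhat K m x) = rbd false j (unhat K m y) :=
          (rbd_unhat (K := K) hj true x).trans (hxy.trans (rbd_unhat (K := K) hj false y).symm)
        have := h₂ j _ _ (by omega) (unhat_tab hK hx hx') (unhat_tab hK hy hy')
          (unhat_rDim (K := K) x) (unhat_rDim (K := K) y) e' qx qy
        rwa [← e] at this
    have hB : ∀ (n : ℕ) x, IsTab K x → RDim (m + 1) x → aug (x false (m + 1)) < n → Q x := by
      intro n
      induction n with
      | zero => exact fun x hx _ h => absurd h (not_lt.2 (gen_aug_nonneg (hx.nonneg _ _)))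
      | succ n ihn =>
        intro x hx h hn
        by_cases h₀ : x false (m + 1) = 0
        · obtain ⟨x₁, x₂⟩ := (rDim_iff _ _).1 h
          have hd : RDim m x := (rDim_iff _ _).2 ⟨by
            rw [← sub_eq_zero, ← hx.d false m, h₀, map_zero], fun ε i hi => by
            rcases (show i = m + 1 ∨ m + 1 < i by omega) with rfl | hi'
            · cases ε
              exacts [h₀, x₁.trans h₀]
            · exact x₂ ε i hi'⟩
          rw [← unhat_eq hx hd]
          exact hA x (hx.toHat hd) hd
        · obtain ⟨z, x', a₁, a₂, a₃, a₄, a₅, a₆, a₇⟩ := gen_split hK hx h h₀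
          rw [a₆]
          exact h₂ m _ _ (by omega) (unhat_tab hK a₁ a₂) a₃ (unhat_rDim (K := K) z) a₄ a₅ (hA z a₁ a₂)
            (ihn x' a₃ a₄ (by omega))
    exact fun x hx h => hB ((aug (x false (m + 1))).toNat + 1) x hx h (by omega)

/-- `F` preserves boundaries and composites below level `m` on tables of dimension `≤ m`. -/
structure RPres (m : ℕ) (K : BADC) (Y : PreOmega) (F : Raw K.B → Y.C) : Prop where
  bd : ∀ α j x, j < m → IsTab K x → RDim m x → F (rbd α j x) = Y.bd α j (F x)
  comp : ∀ j x y, j < m → IsTab K x → IsTab K y → RDim m x → RDim m y →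
    rbd true j x = rbd false j y → F (rcomp j x y) = Y.comp j (F x) (F y)

theorem RPres.ext {m : ℕ} {K : BADC} (hK : GoodLE K m) {Y : PreOmega} {F G : Raw K.B → Y.C}
    (hF : RPres m K Y F) (hG : RPres m K Y G)
    (h : ∀ b x, K.deg b ≤ m → IsAtom K b x → F x = G x) :
    ∀ x, IsTab K x → RDim m x → F x = G x :=
  gen_raw m K hK (fun x => F x = G x) h fun j x y hj hx hy hx' hy' hxy e₁ e₂ => by
    rw [hF.comp j x y hj hx hy hx' hy' hxy, hG.comp j x y hj hx hy hx' hy' hxy, e₁, e₂]

end Vale.Agent.P213
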