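import Vale.Agent.P213.StRel

/-!
P213, Steiner theory part 4: cell level statements; recursion principle; gluing.

Plan.
* `cell_induction_le` from `gen_raw` with the predicate `∀ hx hfin, Q ⟨x, hx, hfin⟩`.
* `funUpTo_succ`: extend `F` to raw tables by a junk value, use `rel_succ`; the new function is
  dimension preserving because the atoms go to cells of dimension `≤ m + 1`
  (`cell_induction_le`), and then it preserves `bd α j` and `comp j` for `j ≥ m + 1` trivially.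
  (If `Cell K` is empty everything is trivial; otherwise `F x₀` is a junk value.)
* `exists_hom`: a tower `F m` by recursion and choice, `g x = F (dim x) x`.
* `glue`: `exists_hom` with `Inv m F := ∀ j z, Dim m z → F (map (ι j) z) = (g j).toFun z`.
-/

open CategoryTheory

namespace Vale.Agent.P213

variable {K L : BADC}

theorem cell_induction_le [Good K] (m : ℕ) (Q : Cell K → Prop)
    (h₁ : ∀ b, K.deg b ≤ m → Q (atom b))
    (h₂ : ∀ j x y, j < m → (nuObj K).Dim m x → (nuObj K).Dim m y → (nuObj K).Cp j x y →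
      Q x → Q y → Q ((nuObj K).comp j x y)) :
    ∀ x, (nuObj K).Dim m x → Q x := by
  intro x hx
  refine gen_raw m K (Good.goodLE K m) (fun r => ∀ c : Cell K, c.val = r → Q c) ?_ ?_ x.val x.tab
    ((dim_iff_rDim _ _).1 hx) x rfl
  · rintro b r hb hr c rfl
    rw [eq_atom hr]
    exact h₁ b hb
  · intro j r s hj hr hs hr' hs' hrs qr qs c hc
    have hcp : (nuObj K).Cp j ⟨r, hr, m, hr'⟩ ⟨s, hs, m, hs'⟩ := (cp_iff j _ _).2 hrs
    have e : c = (nuObj K).comp j ⟨r, hr, m, hr'⟩ ⟨s, hs, m, hs'⟩ :=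
      Cell.ext (hc.trans (nu_comp_val j _ _ hcp).symm)
    rw [e]
    exact h₂ j _ _ hj ((dim_iff_rDim _ _).2 hr') ((dim_iff_rDim _ _).2 hs') hcp (qr _ rfl)
      (qs _ rfl)

theorem cell_induction' [Good K] (Q : Cell K → Prop) (h₁ : ∀ b, Q (atom b))
    (h₂ : ∀ j x y, (nuObj K).Cp j x y → Q x → Q y → Q ((nuObj K).comp j x y)) : ∀ x, Q x := by
  intro x
  obtain ⟨m, hm⟩ := OmegaCat.exists_dim (X := nuObj K) x
  exact cell_induction_le m Q (fun b _ => h₁ b) (fun j x y _ _ _ => h₂ j x y) x hm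

/-- `F` is a functor on the cells of dimension at most `m`. -/
structure FunUpTo (m : ℕ) (K : BADC) (Y : PreOmega) (F : Cell K → Y.C) : Prop where
  bd : ∀ α j x, (nuObj K).Dim m x → F ((nuObj K).bd α j x) = Y.bd α j (F x)
  comp : ∀ j x y, (nuObj K).Dim m x → (nuObj K).Dim m y → (nuObj K).Cp j x y →
    F ((nuObj K).comp j x y) = Y.comp j (F x) (F y)

lemma FunUpTo.of_hom {Y : OmegaCat} (g : nuObj K ⟶ Y) (m : ℕ) :
    FunUpTo m K Y.toPreOmega g.toFun :=
  ⟨fun α j x _ => g.map_bd α j x, fun j x y _ _ h => g.map_comp j x y h⟩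

lemma FunUpTo.precomp {Y : PreOmega} {m : ℕ} {F : Cell L → Y.C} (h : FunUpTo m L Y F)
    (f : K ⟶ L) : FunUpTo m K Y (fun x => F (Cell.map f x)) := by
  refine ⟨fun α j x hx => ?_, fun j x y hx hy hxy => ?_⟩
  · exact (congrArg F ((nuMap f).map_bd α j x)).trans (h.bd α j _ ((nuMap f).map_dim hx))
  · exact (congrArg F ((nuMap f).map_comp j x y hxy)).trans
      (h.comp j _ _ ((nuMap f).map_dim hx) ((nuMap f).map_dim hy) ((nuMap f).map_cp hxy))

lemma FunUpTo.map_cp {Y : PreOmega} {m j : ℕ} {F : Cell K → Y.C} (h : FunUpTo m K Y F)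
    {x y : Cell K} (hx : (nuObj K).Dim m x) (hy : (nuObj K).Dim m y)
    (hxy : (nuObj K).Cp j x y) : Y.Cp j (F x) (F y) :=
  (h.bd true j x hx).symm.trans ((congrArg F hxy).trans (h.bd false j y hy))

lemma FunUpTo.map_dim {Y : PreOmega} {m k : ℕ} {F : Cell K → Y.C} (h : FunUpTo m K Y F)
    {x : Cell K} (hx : (nuObj K).Dim m x) (hk : (nuObj K).Dim k x) : Y.Dim k (F x) :=
  (h.bd false k x hx).symm.trans (congrArg F hk)

lemma FunUpTo.postcomp {Y Z : PreOmega} {m : ℕ} {F : Cell K → Y.C} (h : FunUpTo m K Y F)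
    (g : Y.Hom Z) : FunUpTo m K Z (fun x => g.toFun (F x)) := by
  refine ⟨fun α j x hx => ?_, fun j x y hx hy hxy => ?_⟩
  · exact (congrArg g.toFun (h.bd α j x hx)).trans (g.map_bd α j _)
  · exact (congrArg g.toFun (h.comp j x y hx hy hxy)).trans
      (g.map_comp j _ _ (h.map_cp hx hy hxy))

lemma FunUpTo.mono {Y : PreOmega} {m n : ℕ} {F : Cell K → Y.C} (h : FunUpTo n K Y F)
    (hm : m ≤ n) : FunUpTo m K Y F := by
  exact ⟨fun α j x hx => h.bd α j x (hx.mono hm),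
    fun j x y hx hy => h.comp j x y (hx.mono hm) (hy.mono hm)⟩

theorem FunUpTo.ext [Good K] {Y : PreOmega} {m : ℕ} {F G : Cell K → Y.C} (hF : FunUpTo m K Y F)
    (hG : FunUpTo m K Y G) (h : ∀ b, K.deg b ≤ m → F (atom b) = G (atom b)) :
    ∀ x, (nuObj K).Dim m x → F x = G x := by
  refine cell_induction_le m (fun x => F x = G x) h fun j x y _ hx hy hxy e₁ e₂ => ?_
  rw [hF.comp j x y hx hy hxy, hG.comp j x y hx hy hxy, e₁, e₂]

theorem hom_ext_atoms [Good K] {Y : OmegaCat} {f g : nuObj K ⟶ Y}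
    (h : ∀ b, f.toFun (atom b) = g.toFun (atom b)) : f = g := by
  refine OmegaCat.hom_ext fun x => ?_
  obtain ⟨m, hm⟩ := OmegaCat.exists_dim x
  exact (FunUpTo.of_hom f m).ext (FunUpTo.of_hom g m) (fun b _ => h b) x hm

private lemma eq_of_cp {X : PreOmega} {m j : ℕ} {x y : X.C} (hx : X.Dim m x) (hy : X.Dim m y)
    (hj : m ≤ j) (h : X.Cp j x y) : x = y :=
  (hx.bd_eq true hj).symm.trans (h.trans (hy.bd_eq false hj))

theorem funUpTo_zero [Good K] (Y : PreOmega) (y : K.B → Y.C)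
    (hy : ∀ b, K.deg b = 0 → Y.Dim 0 (y b)) :
    ∃ F, FunUpTo 0 K Y F ∧ ∀ b, K.deg b = 0 → F (atom b) = y b := by
  have h₁ : ∀ x : Cell K, ∃ b, K.deg b = 0 ∧ IsAtom K b ((nuObj K).bd false 0 x).val := fun x =>
    exists_eq_single_of_rDim_zero ((nuObj K).bd false 0 x).tab
      ((dim_iff_rDim _ _).1 (PreOmega.dim_bd (X := (nuObj K).toPreOmega) false 0 x))
  choose β hβ hβ' using h₁
  refine ⟨fun x => y (β x), ⟨fun α j x hx => ?_, fun j x z hx hz hxz => ?_⟩, fun b hb => ?_⟩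
  · rw [hx.bd_eq α (Nat.zero_le j), (hy _ (hβ x)).bd_eq α (Nat.zero_le j)]
  · obtain rfl := eq_of_cp hx hz (Nat.zero_le j) hxz
    rw [hx.comp_self (Nat.zero_le j), (hy _ (hβ x)).comp_self (Nat.zero_le j)]
  · have h₂ := hβ' (atom b)
    have h₃ : (nuObj K).Dim 0 (atom b) := hb ▸ dim_atom b
    rw [h₃.bd_eq false le_rfl] at h₂
    have h₄ := h₂.top false
    have h₅ := (isAtom_atom b).top false
    rw [hβ] at h₄
    rw [hb, h₄] at h₅
    exact congrArg y (Finsupp.single_left_injective one_ne_zero h₅)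

theorem funUpTo_succ [Good K] {Y : PreOmega} {m : ℕ} {F : Cell K → Y.C} (hF : FunUpTo m K Y F)
    (y : K.B → Y.C) (hy : ∀ b, K.deg b = m + 1 → Y.Dim (m + 1) (y b) ∧
      ∀ α, Y.bd α m (y b) = F ((nuObj K).bd α m (atom b))) :
    ∃ F', FunUpTo (m + 1) K Y F' ∧ (∀ x, (nuObj K).Dim m x → F' x = F x) ∧
      ∀ b, K.deg b = m + 1 → F' (atom b) = y b := by
  classical
  rcases isEmpty_or_nonempty (Cell K) with hE | ⟨⟨x₀⟩⟩
  · exact ⟨F, ⟨fun _ _ x => isEmptyElim x, fun _ x => isEmptyElim x⟩, fun _ _ => rfl,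
      fun b _ => isEmptyElim (atom b)⟩
  obtain ⟨E, hE⟩ : ∃ E : Raw K.B → Y.C, ∀ c : Cell K, E c.val = F c :=
    ⟨fun r => if h : IsTab K r ∧ ∃ n, rbd false n r = r then F ⟨r, h.1, h.2⟩ else F x₀,
      fun c => dif_pos ⟨c.tab, c.fin⟩⟩
  obtain ⟨G, hG, h₁, h₂⟩ := rel_succ m K (Good.goodLE K _) Y E
    ⟨fun α j x _ hx hx' => (hE ((nuObj K).bd α j ⟨x, hx, m, hx'⟩)).trans
      ((hF.bd α j _ ((dim_iff_rDim _ _).2 hx')).trans
        (congrArg (Y.bd α j) (hE ⟨x, hx, m, hx'⟩).symm)),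
    fun j x z _ hx hz hx' hz' hxz => by
      have hcp : (nuObj K).Cp j ⟨x, hx, m, hx'⟩ ⟨z, hz, m, hz'⟩ := (cp_iff j _ _).2 hxz
      have e := hE ((nuObj K).comp j ⟨x, hx, m, hx'⟩ ⟨z, hz, m, hz'⟩)
      rw [nu_comp_val j _ _ hcp, hF.comp j _ _ ((dim_iff_rDim _ _).2 hx')
        ((dim_iff_rDim _ _).2 hz') hcp, ← hE, ← hE] at e
      exact e⟩
    (fun x hx hx' => by
      have hd : (nuObj K).Dim m ⟨x, hx, m, hx'⟩ := (dim_iff_rDim _ _).2 hx'
      have e := hF.map_dim hd hd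
      rw [← hE] at e
      exact e)
    y
    (fun b x α hb hx => by
      obtain rfl := hx.unique (isAtom_atom b)
      exact ((hy b hb).2 α).trans (hE _).symm)
  have h₃ : ∀ x : Cell K, (nuObj K).Dim m x → G x.val = F x := fun x hx =>
    (h₁ _ x.tab ((dim_iff_rDim _ _).1 hx)).trans (hE x)
  have h₄ : ∀ b, K.deg b = m + 1 → G (atom b).val = y b := fun b hb =>
    h₂ b _ hb (isAtom_atom b)
  have hbd : ∀ α j (x : Cell K), j < m + 1 → (nuObj K).Dim (m + 1) x →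
      G ((nuObj K).bd α j x).val = Y.bd α j (G x.val) := fun α j x hj hx =>
    hG.bd α j _ hj x.tab ((dim_iff_rDim _ _).1 hx)
  have hcomp : ∀ j (x z : Cell K), j < m + 1 → (nuObj K).Dim (m + 1) x →
      (nuObj K).Dim (m + 1) z → (nuObj K).Cp j x z →
      G ((nuObj K).comp j x z).val = Y.comp j (G x.val) (G z.val) := fun j x z hj hx hz hxz => by
    rw [nu_comp_val j x z hxz]
    exact hG.comp j _ _ hj x.tab z.tab ((dim_iff_rDim _ _).1 hx) ((dim_iff_rDim _ _).1 hz)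
      ((cp_iff j x z).1 hxz)
  have hdim : ∀ x : Cell K, (nuObj K).Dim (m + 1) x → Y.Dim (m + 1) (G x.val) := by
    refine cell_induction_le (m + 1) (fun x => Y.Dim (m + 1) (G x.val)) (fun b hb => ?_)
      fun j x z hj hx hz hxz e₁ e₂ => ?_
    · rcases hb.eq_or_lt with hb | hb
      · rw [h₄ b hb]
        exact (hy b hb).1
      · have hd := (dim_atom b).mono (Nat.lt_succ_iff.1 hb)
        rw [h₃ _ hd]
        exact (hF.map_dim hd hd).mono (Nat.le_succ m)
    · rw [hcomp j x z hj hx hz hxz]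
      exact e₁.comp e₂ ((hbd true j x hj hx).symm.trans
        ((congrArg (fun c : Cell K => G c.val) hxz).trans (hbd false j z hj hz)))
  refine ⟨fun x => G x.val, ⟨fun α j x hx => ?_, fun j x z hx hz hxz => ?_⟩, h₃, h₄⟩
  · rcases lt_or_ge j (m + 1) with hj | hj
    · exact hbd α j x hj hx
    · rw [hx.bd_eq α hj, (hdim x hx).bd_eq α hj]
  · rcases lt_or_ge j (m + 1) with hj | hj
    · exact hcomp j x z hj hx hz hxz
    · obtain rfl := eq_of_cp hx hz hj hxz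
      rw [hx.comp_self hj, (hdim x hx).comp_self hj]

theorem exists_hom [Good K] (Y : OmegaCat) (Inv : ℕ → (Cell K → Y.C) → Prop)
    (hInv : ∀ m F F', (∀ x, (nuObj K).Dim m x → F x = F' x) → Inv m F → Inv m F')
    (h₀ : ∃ y : K.B → Y.C, (∀ b, K.deg b = 0 → Y.Dim 0 (y b)) ∧
      ∀ F, FunUpTo 0 K Y.toPreOmega F → (∀ b, K.deg b = 0 → F (atom b) = y b) → Inv 0 F)
    (hs : ∀ m F, FunUpTo m K Y.toPreOmega F → Inv m F →
      ∃ y : K.B → Y.C, (∀ b, K.deg b = m + 1 → Y.Dim (m + 1) (y b) ∧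
        ∀ α, Y.bd α m (y b) = F ((nuObj K).bd α m (atom b))) ∧
      ∀ F', FunUpTo (m + 1) K Y.toPreOmega F' → (∀ x, (nuObj K).Dim m x → F' x = F x) →
        (∀ b, K.deg b = m + 1 → F' (atom b) = y b) → Inv (m + 1) F') :
    ∃ g : nuObj K ⟶ Y, ∀ m, Inv m g.toFun := by
  obtain ⟨F₀, hF₀⟩ : ∃ F, FunUpTo 0 K Y.toPreOmega F ∧ Inv 0 F := by
    obtain ⟨y, hy, h⟩ := h₀
    obtain ⟨F, hF, hF'⟩ := funUpTo_zero (K := K) Y.toPreOmega y hy
    exact ⟨F, hF, h F hF hF'⟩
  have step : ∀ m F, FunUpTo m K Y.toPreOmega F ∧ Inv m F →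
      ∃ F', (FunUpTo (m + 1) K Y.toPreOmega F' ∧ Inv (m + 1) F') ∧
        ∀ x, (nuObj K).Dim m x → F' x = F x := by
    intro m F hF
    obtain ⟨y, hy, h⟩ := hs m F hF.1 hF.2
    obtain ⟨F', h₁, h₂, h₃⟩ := funUpTo_succ hF.1 y hy
    exact ⟨F', ⟨h₁, h F' h₁ h₂ h₃⟩, h₂⟩
  choose s hs₁ hs₂ using step
  let T : ∀ m, {F : Cell K → Y.C // FunUpTo m K Y.toPreOmega F ∧ Inv m F} := fun m =>
    Nat.rec ⟨F₀, hF₀⟩ (fun m t => ⟨s m t.1 t.2, hs₁ m t.1 t.2⟩) m
  have hT : ∀ m x, (nuObj K).Dim m x → (T (m + 1)).1 x = (T m).1 x := fun m =>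
    hs₂ m (T m).1 (T m).2
  have hT' : ∀ m n, m ≤ n → ∀ x, (nuObj K).Dim m x → (T n).1 x = (T m).1 x := by
    intro m n hmn x hx
    induction n, hmn using Nat.le_induction with
    | base => rfl
    | succ n hn ih => rw [hT n x (hx.mono hn), ih]
  choose d hd using OmegaCat.exists_dim (X := nuObj K)
  have hg : ∀ m x, (nuObj K).Dim m x → (T (d x)).1 x = (T m).1 x := by
    intro m x hx
    rcases le_total m (d x) with h | h
    · exact hT' _ _ h x hx
    · exact (hT' _ _ h x (hd x)).symm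
  refine ⟨⟨fun x => (T (d x)).1 x, fun α n x => ?_, fun n x z hxz => ?_⟩, fun m =>
    hInv m (T m).1 _ (fun x hx => (hg m x hx).symm) (T m).2.2⟩
  · exact (hg (d x) _ ((hd x).bd α n)).trans ((T (d x)).2.1.bd α n x (hd x))
  · have hx := (hd x).mono (le_max_left (d x) (d z))
    have hz := (hd z).mono (le_max_right (d x) (d z))
    exact (hg _ _ (hx.comp hz hxz)).trans (((T _).2.1.comp n x z hx hz hxz).trans
      (congrArg₂ (Y.comp n) (hg _ x hx).symm (hg _ z hz).symm))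

theorem glue [Good K] {J : Type} (Kj : J → BADC) [∀ j, Good (Kj j)] (ι : ∀ j, Kj j ⟶ K)
    (Y : OmegaCat) (g : ∀ j, nuObj (Kj j) ⟶ Y)
    (cover : ∀ b, ∃ j a, (Kj j).deg a = K.deg b ∧ Cell.map (ι j) (atom a) = atom b)
    (rigid : ∀ j a, (∃ b, K.deg b = (Kj j).deg a ∧ Cell.map (ι j) (atom a) = atom b) ∨
      ∃ k, k < (Kj j).deg a ∧ (nuObj K).Dim k (Cell.map (ι j) (atom a)) ∧
        Y.Dim k ((g j).toFun (atom a)))
    (compat : ∀ j a j' a' b, (Kj j).deg a = K.deg b → (Kj j').deg a' = K.deg b →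
      Cell.map (ι j) (atom a) = atom b → Cell.map (ι j') (atom a') = atom b →
      (g j).toFun (atom a) = (g j').toFun (atom a')) :
    ∃ G : nuObj K ⟶ Y, ∀ j, nuMap (ι j) ≫ G = g j := by
  choose jj aa hdeg hmap using cover
  have hy : ∀ b, Y.Dim (K.deg b) ((g (jj b)).toFun (atom (aa b))) := fun b =>
    hdeg b ▸ (g (jj b)).map_dim (dim_atom (aa b))
  obtain ⟨G, hG⟩ := exists_hom (K := K) Y
    (fun m F => ∀ j z, (nuObj (Kj j)).Dim m z → F (Cell.map (ι j) z) = (g j).toFun z)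
    (fun m F F' h hF j z hz => (h _ ((nuMap (ι j)).map_dim hz)).symm.trans (hF j z hz))
    ⟨fun b => (g (jj b)).toFun (atom (aa b)), fun b hb => hb ▸ hy b, fun F hF hF' j => by
      refine (hF.precomp (ι j)).ext (FunUpTo.of_hom (g j) 0) fun a ha => ?_
      rcases rigid j a with ⟨b, hb, e⟩ | ⟨k, hk, -⟩
      · rw [e, hF' b (by omega)]
        exact compat _ _ _ _ b (hdeg b) hb.symm (hmap b) e
      · omega⟩
    (fun m F hF hI => ⟨fun b => (g (jj b)).toFun (atom (aa b)), fun b hb => ⟨hb ▸ hy b, fun α => by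
        rw [← hmap b]
        exact ((g (jj b)).map_bd α m _).symm.trans ((hI _ _ (PreOmega.dim_bd α m _)).symm.trans
          (congrArg F ((nuMap (ι (jj b))).map_bd α m _)))⟩, fun F' hF' h₁ h₂ j => by
      refine (hF'.precomp (ι j)).ext (FunUpTo.of_hom (g j) (m + 1)) fun a ha => ?_
      rcases ha.eq_or_lt with ha | ha
      · rcases rigid j a with ⟨b, hb, e⟩ | ⟨k, hk, e₁, e₂⟩
        · rw [e, h₂ b (by omega)]
          exact compat _ _ _ _ b (hdeg b) hb.symm (hmap b) e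
        · have hkm : k ≤ m := by omega
          have e₃ : Cell.map (ι j) ((nuObj (Kj j)).bd false m (atom a)) = Cell.map (ι j) (atom a) :=
            ((nuMap (ι j)).map_bd false m _).trans (e₁.bd_eq false hkm)
          rw [h₁ _ (e₁.mono hkm), ← e₃, hI _ _ (PreOmega.dim_bd false m _)]
          exact ((g j).map_bd false m _).trans (e₂.bd_eq false hkm)
      · have hd := (dim_atom a).mono (Nat.lt_succ_iff.1 ha)
        exact (h₁ _ ((nuMap (ι j)).map_dim hd)).trans (hI j _ hd)⟩)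
  refine ⟨G, fun j => OmegaCat.hom_ext fun x => ?_⟩
  obtain ⟨m, hm⟩ := OmegaCat.exists_dim x
  exact hG m j x hm

end Vale.Agent.P213
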