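import Vale.Agent.P213.StGen

/-!
P213, Steiner theory part 3: relative freeness.

Plan (no dimension condition on the prescribed values `y b`; this is what makes the induction
work). Induction on `m` for all `K`, `Y`, `F`, `y`. For the step, apply the previous level
(`rel_zero` if `m = 0`) to `hat K m` with the values `F (atom)` on generators of degree `m` and
`y b` on lowered generators: get `Φ` with `RPres m (hat K m) Y Φ`. By `RPres.ext`:
`Φ = F` on tables of `K` of dimension `≤ m`; `Y.bd α m (Φ z) = F (z with hatSub α ⊤ in degree m)`;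
and `Φ z = Y.comp m (Φ (z with hatSub false (· ≠ a))) (Φ (z with hatSub true (· = a)))`
(interchange law). For a table `u` of dimension `≤ m` and `a` with `dneg a ≤ u false m` put
`one u a = Φ (setTop m (u false m - dneg a + single a 1) u)`. Define `F' x` by recursion on the
size of the top `M = x false (m + 1)`: `F (x)` if `M = 0`, else
`comp m (one u a) (F' x')` for a chosen `a` from `exists_applicable`. Prove by induction on the
size: boundaries; the move lemma (any applicable `b` in the support of `M` may be taken first,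
using the exchange identity above applied in both orders to the table with top
`u - dneg a - dneg b + a + b`); compatibility with `rcomp m`; whiskering by cells of
dimension `≤ m` along `j < m` (from `RPres` of `Φ` and the interchange law in `Y`); general
`rcomp j` by `PreOmega.Cp.whisker` (in `rawOmega` and in `Y`).
-/

open CategoryTheory

namespace Vale.Agent.P213

section chains

variable {K : BADC} {m : ℕ} {ε : Bool} {S : K.B → Prop}

lemma rel_lin_nonneg {B B' : Type} {g : B → (B' →₀ ℤ)} (hg : ∀ b, 0 ≤ g b) {z : B →₀ ℤ}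
    (hz : 0 ≤ z) : 0 ≤ lin g z := by
  rw [lin_apply]
  exact Finset.sum_nonneg fun b _ => smul_nonneg (hz b) (hg b)

lemma rel_lin_deg {B B' : Type} {g : B → (B' →₀ ℤ)} {deg : B' → ℕ} {i : ℕ} {z : B →₀ ℤ}
    (hg : ∀ b, z b ≠ 0 → IsDeg deg i (g b)) : IsDeg deg i (lin g z) := by
  intro c hc
  rw [lin_apply, Finsupp.finsetSum_apply] at hc
  obtain ⟨b, hb, hb'⟩ := Finset.exists_ne_zero_of_sum_ne_zero hc
  refine hg b (Finsupp.mem_support_iff.1 hb) c fun h => hb' ?_
  simp [h]

lemma rel_deg_single {B : Type} {deg : B → ℕ} {i : ℕ} {b : B} (h : deg b = i) :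
    IsDeg deg i (Finsupp.single b 1) := by
  intro c hc
  obtain rfl : c = b := by
    by_contra hne
    exact hc (Finsupp.single_eq_of_ne hne)
  exact h

lemma rel_deg_add {B : Type} {deg : B → ℕ} {i : ℕ} {z z' : B →₀ ℤ} (h : IsDeg deg i z)
    (h' : IsDeg deg i z') : IsDeg deg i (z + z') := fun c hc => by
  by_cases h0 : z c = 0
  · exact h' c (by simpa [h0] using hc)
  · exact h c h0

lemma rel_deg_sub {B : Type} {deg : B → ℕ} {i : ℕ} {z z' : B →₀ ℤ} (h : IsDeg deg i z)
    (h' : IsDeg deg i z') : IsDeg deg i (z - z') := fun c hc => by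
  by_cases h0 : z c = 0
  · exact h' c (by simpa [h0] using hc)
  · exact h c h0

lemma rel_deg_hat {z : K.B →₀ ℤ} (h : IsDeg K.deg m z) : IsDeg (hat K m).deg m z := fun c hc => by
  have := h c hc
  show (if K.deg c = m + 1 then m else K.deg c) = m
  split_ifs <;> omega

lemma rel_deg_hat_single {a : K.B} (h : K.deg a = m + 1) :
    IsDeg (hat K m).deg m (Finsupp.single a 1) :=
  rel_deg_single (if_pos h)

lemma rl_hatSub_pos {a : K.B} (h : K.deg a = m + 1) (hS : S a) :
    hatSub K m ε S (Finsupp.single a 1) = dpart K ε a := by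
  rw [hatSub, lin_single, if_pos ⟨h, hS⟩, one_smul]

lemma rl_hatSub_neg {a : K.B} (h : ¬ (K.deg a = m + 1 ∧ S a)) :
    hatSub K m ε S (Finsupp.single a 1) = Finsupp.single a 1 := by
  rw [hatSub, lin_single, if_neg h, one_smul]

lemma rl_hatSub_fix {z : K.B →₀ ℤ} (h : IsDeg K.deg m z) : hatSub K m ε S z = z := by
  conv_lhs => rw [← Finsupp.sum_single z, Finsupp.sum, map_sum]
  conv_rhs => rw [← Finsupp.sum_single z, Finsupp.sum]
  refine Finset.sum_congr rfl fun b hb => ?_
  have h1 := h b (Finsupp.mem_support_iff.1 hb)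
  rw [hatSub, lin_single, if_neg (fun h2 => by omega), Finsupp.smul_single, smul_eq_mul, mul_one]

lemma rl_hatSub_nonneg {z : K.B →₀ ℤ} (h : 0 ≤ z) : 0 ≤ hatSub K m ε S z :=
  rel_lin_nonneg (fun b => by
    split_ifs
    · exact dpart_nonneg _ _
    · exact Finsupp.single_nonneg.2 zero_le_one) h

lemma rl_hatSub_deg {z : K.B →₀ ℤ} (h : IsDeg (hat K m).deg m z) :
    IsDeg (hat K m).deg m (hatSub K m ε S z) :=
  rel_lin_deg fun b hb => by
    split_ifs with h1
    · exact rel_deg_hat (dpart_deg _ _ h1.1)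
    · exact rel_deg_single (h b hb)

lemma rl_hatSub_aug (hK : GoodLE K (m + 1)) (hm : m = 0) (z : K.B →₀ ℤ) :
    aug (hatSub K m ε S z) = aug z := by
  have : aug.comp (hatSub K m ε S) = aug := addHom_ext fun b => by
    rw [AddMonoidHom.comp_apply]
    by_cases h : K.deg b = m + 1 ∧ S b
    · obtain ⟨x, hx⟩ := hK.unital b h.1.le
      rw [rl_hatSub_pos h.1 h.2, ← hx.eq_dpart h.1, hm, hx.tab.aug, aug_single]
    · rw [rl_hatSub_neg h]
  exact DFunLike.congr_fun this z

lemma rl_hatSub_hatSub (S : K.B → Prop) (z : K.B →₀ ℤ) :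
    hatSub K m true (fun _ => True) (hatSub K m false (fun b => ¬ S b) z) =
      hatSub K m false (fun _ => True) (hatSub K m true S z) := by
  have : (hatSub K m true fun _ => True).comp (hatSub K m false fun b => ¬ S b) =
      (hatSub K m false fun _ => True).comp (hatSub K m true S) := addHom_ext fun b => by
    rw [AddMonoidHom.comp_apply, AddMonoidHom.comp_apply]
    by_cases h : K.deg b = m + 1
    · by_cases hS : S b
      · rw [rl_hatSub_neg (S := fun b => ¬ S b) (fun h' => h'.2 hS),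
          rl_hatSub_pos (S := fun _ => True) h trivial, rl_hatSub_pos h hS, rl_hatSub_fix (dpart_deg _ _ h)]
      · rw [rl_hatSub_pos (S := fun b => ¬ S b) h hS, rl_hatSub_fix (dpart_deg _ _ h),
          rl_hatSub_neg (S := S) (fun h' => hS h'.2), rl_hatSub_pos (S := fun _ => True) h trivial]
    · rw [rl_hatSub_neg (fun h' => h h'.1), rl_hatSub_neg (fun h' => h h'.1),
        rl_hatSub_neg (fun h' => h h'.1), rl_hatSub_neg (fun h' => h h'.1)]
  exact DFunLike.congr_fun this z

end chains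

section raw

variable {B : Type} {m j : ℕ} {x y : Raw B} {z z' : B →₀ ℤ}

lemma rel_rbd_eq (α : Bool) (m : ℕ) (x : Raw B) : rbd α m x = setTop m (x α m) x := rfl

lemma rl_setTop_top (ε : Bool) : setTop m z x ε m = z := by simp [setTop]

lemma rl_setTop_setTop : setTop m z (setTop m z' x) = setTop m z x := by
  funext ε i
  simp only [setTop]
  split_ifs <;> rfl

lemma rl_setTop_rDim : RDim m (setTop m z x) := by
  rw [RDim, rel_rbd_eq, rl_setTop_top, rl_setTop_setTop]

lemma rl_rbd_setTop (h : j < m) (β : Bool) : rbd β j (setTop m z x) = rbd β j x := by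
  funext ε i
  simp only [setTop, rbd]
  split_ifs <;> first | rfl | omega

lemma rel_rbd_top (h : j < m) (β ε : Bool) : rbd β j x ε m = 0 := by
  simp only [rbd]
  split_ifs <;> first | rfl | omega

lemma rl_setTop_rbd_lt (h : j < m) (β : Bool) : setTop m 0 (rbd β j x) = rbd β j x := by
  rw [← rel_rbd_top (x := x) h β false, ← rel_rbd_eq, rbd_rbd_le _ _ _ _ _ h.le]

lemma rel_rcomp_top (h : j < m) (ε : Bool) : rcomp j x y ε m = x ε m + y ε m := by
  simp only [rcomp, Pi.sub_apply, Pi.add_apply, rel_rbd_top h, sub_zero]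

lemma rl_setTop_rcomp (h : j < m) :
    setTop m (z + z') (rcomp j x y) = rcomp j (setTop m z x) (setTop m z' y) := by
  rw [rcomp, rcomp, rl_rbd_setTop h]
  funext ε i
  simp only [setTop, rbd, Pi.sub_apply, Pi.add_apply]
  split_ifs <;> first | rfl | omega | simp

lemma RDim.monoRel (h : RDim j x) (hm : j ≤ m) : RDim m x :=
  PreOmega.Dim.mono (X := rawOmega B) h hm

lemma RDim.rbdEqRel (h : RDim j x) (α : Bool) (hm : j ≤ m) : P213.rbd α m x = x :=
  PreOmega.Dim.bd_eq (X := rawOmega B) h α hm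

lemma RDim.rbdRel (h : RDim m x) (α : Bool) (j : ℕ) : RDim m (P213.rbd α j x) :=
  PreOmega.Dim.bd (X := rawOmega B) h α j

lemma RDim.rcompRel (hx : RDim m x) (hy : RDim m y) (h : P213.rbd true j x = P213.rbd false j y) :
    RDim m (P213.rcomp j x y) :=
  PreOmega.Dim.comp (X := rawOmega B) hx hy h

lemma rel_rDim_rbd (α : Bool) (m : ℕ) (x : Raw B) : RDim m (rbd α m x) :=
  PreOmega.dim_bd (X := rawOmega B) α m x

lemma RDim.topEqRel (h : RDim m x) (ε : Bool) : x ε m = x false m := by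
  cases ε
  · rfl
  · exact ((rDim_iff m x).1 h).1

end raw

section tabs

variable {K : BADC} {m j : ℕ} {Y : PreOmega}

lemma rel_tab_setTop {L : BADC} {x : Raw L.B} (hx : IsTab L x) {z : L.B →₀ ℤ} (h0 : 0 ≤ z)
    (h1 : IsDeg L.deg m z) (h2 : L.d z = L.d (x false m)) (h3 : m = 0 → aug z = 1) :
    IsTab L (setTop m z x) where
  nonneg ε i := by
    simp only [setTop]
    split_ifs
    exacts [hx.nonneg _ _, h0, le_rfl]
  deg ε i := by
    simp only [setTop]
    split_ifs with h₁ h₂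
    · exact hx.deg _ _
    · rw [h₂]
      exact h1
    · intro b hb
      simp at hb
  aug ε := by
    simp only [setTop]
    split_ifs with h₁ h₂
    · exact hx.aug _
    · exact h3 h₂.symm
    · omega
  d ε i := by
    simp only [setTop]
    by_cases h₁ : i + 1 < m
    · rw [if_pos h₁, if_pos (by omega), if_pos (by omega)]
      exact hx.d _ _
    · by_cases h₂ : i + 1 = m
      · rw [if_neg h₁, if_pos h₂, if_pos (by omega), if_pos (by omega), h2, ← h₂]
        exact hx.d _ _
      · rw [if_neg h₁, if_neg h₂, if_neg (by omega), if_neg (show ¬ i < m by omega)]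
        simp

/-- Substitution of boundaries for lowered generators in a table. -/
noncomputable def sbRel (K : BADC) (m : ℕ) (ε : Bool) (S : K.B → Prop) (x : Raw K.B) :
    Raw K.B :=
  setTop m (hatSub K m ε S (x false m)) x

lemma sbRel_tab (hK : GoodLE K (m + 1)) {x : Raw K.B} (hx : IsTab (hat K m) x) (ε : Bool)
    (S : K.B → Prop) : IsTab (hat K m) (sbRel K m ε S x) := by
  have h1 : IsDeg (hat K m).deg m (x false m) := hx.deg false m
  have h2 : m = 0 → aug (x false m) = 1 := by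
    rintro rfl
    exact hx.aug false
  have h3 : 0 ≤ hatSub K m ε S (x false m) := rl_hatSub_nonneg (hx.nonneg false m)
  have h4 : IsDeg (hat K m).deg m (hatSub K m ε S (x false m)) := rl_hatSub_deg h1
  have h5 := hat_d_hatSub ε S h1
  have h6 : m = 0 → aug (hatSub K m ε S (x false m)) = 1 := fun hm => by
    rw [rl_hatSub_aug hK hm, h2 hm]
  exact rel_tab_setTop (L := hat K m) hx h3 h4 h5 h6

lemma sbRel_rDim {x : Raw K.B} {ε : Bool} {S : K.B → Prop} : RDim m (sbRel K m ε S x) :=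
  rl_setTop_rDim

lemma sbRel_setTop (ε : Bool) (S : K.B → Prop) (z : K.B →₀ ℤ) (x : Raw K.B) :
    sbRel K m ε S (setTop m z x) = setTop m (hatSub K m ε S z) x := by
  rw [sbRel, rl_setTop_top, rl_setTop_setTop]

lemma sbRel_fix {x : Raw K.B} (hx : IsTab K x) (h : RDim m x) (ε : Bool) (S : K.B → Prop) :
    sbRel K m ε S x = x := by
  rw [sbRel, rl_hatSub_fix (hx.deg _ _), ← rel_rbd_eq, h]

lemma sbRel_rbd (h : j < m) (β ε : Bool) (S : K.B → Prop) (x : Raw K.B) :
    sbRel K m ε S (rbd β j x) = rbd β j x := by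
  rw [sbRel, rel_rbd_top h, map_zero, rl_setTop_rbd_lt h]

lemma rbd_sbRel (h : j < m) (β ε : Bool) (S : K.B → Prop) (x : Raw K.B) :
    rbd β j (sbRel K m ε S x) = rbd β j x :=
  rl_rbd_setTop h β

lemma sbRel_rcomp (h : j < m) (ε : Bool) (S : K.B → Prop) (x y : Raw K.B) :
    sbRel K m ε S (rcomp j x y) = rcomp j (sbRel K m ε S x) (sbRel K m ε S y) := by
  rw [sbRel, rel_rcomp_top h, map_add, rl_setTop_rcomp h, sbRel, sbRel]

lemma rel_tab_lift (hK : GoodLE K (m + 1)) {x : Raw K.B} (hx : IsTab K x) {z : K.B →₀ ℤ}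
    (h0 : 0 ≤ z) (h1 : IsDeg (hat K m).deg m z)
    (h2 : hatSub K m false (fun _ => True) z = x false m) : IsTab (hat K m) (setTop m z x) := by
  have h3 := (hx.rbd false m).toHat (rel_rDim_rbd false m x)
  rw [rel_rbd_eq] at h3
  rw [← rl_setTop_setTop (z' := x false m)]
  refine rel_tab_setTop h3 h0 h1 ?_ fun hm => ?_
  · rw [rl_setTop_top, ← h2, hat_d_hatSub _ _ h1]
  · rw [← rl_hatSub_aug (ε := false) (S := fun _ => True) hK hm, h2, hm]
    exact hx.aug _

lemma RPres.cpRel {F : Raw K.B → Y.C} (hF : RPres m K Y F) (h : j < m) {x y : Raw K.B}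
    (hx : IsTab K x) (hy : IsTab K y) (hx' : RDim m x) (hy' : RDim m y)
    (hxy : rbd true j x = rbd false j y) : Y.Cp j (F x) (F y) := by
  unfold PreOmega.Cp
  rw [← hF.bd _ _ _ h hx hx', ← hF.bd _ _ _ h hy hy', hxy]

lemma RPres.sbRel (hK : GoodLE K (m + 1)) {Φ : Raw K.B → Y.C} (hΦ : RPres m (hat K m) Y Φ)
    (ε : Bool) (S : K.B → Prop) : RPres m (hat K m) Y fun x => Φ (sbRel K m ε S x) where
  bd α j x hj hx _ := by
    rw [sbRel_rbd hj, ← hΦ.bd α j _ hj (sbRel_tab hK hx ε S) sbRel_rDim, rbd_sbRel hj]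
  comp j x y hj hx hy _ _ hxy := by
    rw [sbRel_rcomp hj]
    exact hΦ.comp j _ _ hj (sbRel_tab hK hx ε S) (sbRel_tab hK hy ε S) sbRel_rDim sbRel_rDim
      (by rw [rbd_sbRel hj, rbd_sbRel hj, hxy])

lemma rel_hat_atom (hK : GoodLE K (m + 1)) {b : K.B} {x : Raw K.B} (hb : (hat K m).deg b ≤ m)
    (hx : IsAtom (hat K m) b x) : (K.deg b ≤ m ∧ IsAtom K b x) ∨
      (K.deg b = m + 1 ∧ ∃ x₀, IsAtom K b x₀ ∧ x = setTop m (Finsupp.single b 1) x₀) := by
  have hb' : (if K.deg b = m + 1 then m else K.deg b) ≤ m := hb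
  by_cases h : K.deg b = m + 1
  · obtain ⟨x₀, hx₀⟩ := hK.unital b h.le
    exact Or.inr ⟨h, x₀, hx₀, hx.unique (hx₀.hatTop h)⟩
  · rw [if_neg h] at hb'
    obtain ⟨x₀, hx₀⟩ := hK.unital b (by omega)
    exact Or.inl ⟨hb', hx.unique (hx₀.toHat hb') ▸ hx₀⟩

end tabs

section step

variable {K : BADC} {m j : ℕ} {Y : PreOmega} {Φ : Raw K.B → Y.C}

/-- The properties of the extension to the lowered complex. -/
structure RelH (K : BADC) (m : ℕ) (Y : PreOmega) (Φ : Raw K.B → Y.C) : Prop where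
  good : GoodLE K (m + 1)
  pres : RPres m (hat K m) Y Φ
  low : ∀ b x, K.deg b ≤ m → IsAtom K b x → Y.Dim m (Φ x)
  top : ∀ b x α, K.deg b = m + 1 → IsAtom K b x →
    Y.bd α m (Φ (setTop m (Finsupp.single b 1) x)) = Φ (rbd α m x)

lemma RelH.bd (H : RelH K m Y Φ) (α : Bool) {x : Raw K.B} (hx : IsTab (hat K m) x)
    (hx' : RDim m x) : Y.bd α m (Φ x) = Φ (sbRel K m α (fun _ => True) x) := by
  refine RPres.ext H.good.hat (F := fun x => Y.bd α m (Φ x)) ⟨?_, ?_⟩ (H.pres.sbRel H.good α _) ?_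
    x hx hx'
  · intro β j x hj hx hx'
    rw [H.pres.bd β j x hj hx hx', Y.bd_bd_le _ _ _ _ _ hj.le, Y.bd_bd_lt _ _ _ _ _ hj]
  · intro j x y hj hx hy hx' hy' hxy
    rw [H.pres.comp j x y hj hx hy hx' hy' hxy,
      Y.bd_comp_gt _ _ _ _ _ hj (H.pres.cpRel hj hx hy hx' hy' hxy)]
  · intro b x hb hx
    rcases rel_hat_atom H.good hb hx with ⟨h1, h2⟩ | ⟨h1, x₀, h2, rfl⟩
    · rw [sbRel_fix h2.tab (h2.rDim.monoRel h1), (H.low b x h1 h2).bd_eq α le_rfl]
    · rw [H.top b x₀ α h1 h2, sbRel_setTop, rl_hatSub_pos (S := fun _ => True) h1 trivial,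
        rel_rbd_eq, h2.eq_dpart h1]

lemma RelH.dim (H : RelH K m Y Φ) {x : Raw K.B} (hx : IsTab K x) (hx' : RDim m x) :
    Y.Dim m (Φ x) := by
  unfold PreOmega.Dim
  rw [H.bd false (hx.toHat hx') hx', sbRel_fix hx hx']

lemma RelH.cp_split (H : RelH K m Y Φ) (S : K.B → Prop) {x : Raw K.B} (hx : IsTab (hat K m) x) :
    Y.Cp m (Φ (sbRel K m false (fun b => ¬ S b) x)) (Φ (sbRel K m true S x)) := by
  unfold PreOmega.Cp
  rw [H.bd true (sbRel_tab H.good hx _ _) sbRel_rDim,
    H.bd false (sbRel_tab H.good hx _ _) sbRel_rDim, sbRel, sbRel, sbRel, sbRel, rl_setTop_top,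
    rl_setTop_top, rl_setTop_setTop, rl_setTop_setTop, rl_hatSub_hatSub]

lemma RelH.split (H : RelH K m Y Φ) (S : K.B → Prop) {x : Raw K.B} (hx : IsTab (hat K m) x)
    (hx' : RDim m x) :
    Φ x = Y.comp m (Φ (sbRel K m false (fun b => ¬ S b) x)) (Φ (sbRel K m true S x)) := by
  have P1 := H.pres.sbRel H.good false fun b => ¬ S b
  have P2 := H.pres.sbRel H.good true S
  refine RPres.ext H.good.hat H.pres (G := fun x =>
    Y.comp m (Φ (sbRel K m false (fun b => ¬ S b) x)) (Φ (sbRel K m true S x))) ⟨?_, ?_⟩ ?_ x hx hx'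
  · intro β j x hj hx hx'
    rw [(H.cp_split S hx).bd_comp_lt hj, ← P1.bd β j x hj hx hx', sbRel_rbd hj, sbRel_rbd hj]
    refine PreOmega.Dim.comp_self (n := j) ?_ hj.le
    rw [H.pres.bd β j x hj hx hx']
    exact PreOmega.dim_bd _ _ _
  · intro j x y hj hx hy hx' hy' hxy
    rw [Y.exchange j m _ _ _ _ hj (H.cp_split S hx) (H.cp_split S hy)
      (P1.cpRel hj hx hy hx' hy' hxy), ← P1.comp j x y hj hx hy hx' hy' hxy,
      ← P2.comp j x y hj hx hy hx' hy' hxy]
  · intro b x hb hx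
    rcases rel_hat_atom H.good hb hx with ⟨h1, h2⟩ | ⟨h1, x₀, h2, rfl⟩
    · rw [sbRel_fix h2.tab (h2.rDim.monoRel h1), sbRel_fix h2.tab (h2.rDim.monoRel h1),
        (H.low b x h1 h2).comp_self le_rfl]
    · rw [sbRel_setTop, sbRel_setTop]
      by_cases hS : S b
      · rw [rl_hatSub_neg (S := fun b => ¬ S b) (fun h' => h'.2 hS), rl_hatSub_pos h1 hS,
          ← h2.eq_dpart h1, ← rel_rbd_eq, ← H.top b x₀ true h1 h2, Y.comp_id]
      · rw [rl_hatSub_pos (S := fun b => ¬ S b) h1 hS, rl_hatSub_neg (S := S) (fun h' => hS h'.2),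
          ← h2.eq_dpart h1, ← rel_rbd_eq, ← H.top b x₀ false h1 h2, Y.id_comp]

/-- The change of a table when the generator `a` is applied to its source. -/
noncomputable def dlRel (K : BADC) (m : ℕ) (a : K.B) : Raw K.B := fun ε i =>
  if i = m + 1 then Finsupp.single a 1
  else if i = m ∧ ε = false then dpart K false a - dpart K true a else 0

lemma dlRel_top (x : Raw K.B) (a : K.B) (ε : Bool) :
    (x - dlRel K m a) ε (m + 1) = x ε (m + 1) - Finsupp.single a 1 := by
  simp [dlRel]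

lemma dlRel_src (x : Raw K.B) (a : K.B) :
    (x - dlRel K m a) false m = x false m - dpart K false a + dpart K true a := by
  simp only [dlRel, Pi.sub_apply]
  rw [if_neg (by omega), if_pos (by simp)]
  abel

lemma dlRel_setTop (x : Raw K.B) (a : K.B) (z : K.B →₀ ℤ) :
    setTop m z (x - dlRel K m a) = setTop m z x := by
  funext ε i
  simp only [setTop, dlRel, Pi.sub_apply]
  split_ifs <;> first | rfl | omega | simp

lemma dlRel_tgt (x : Raw K.B) (a : K.B) : rbd true m (x - dlRel K m a) = rbd true m x := by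
  rw [rel_rbd_eq, rel_rbd_eq, dlRel_setTop]
  simp [dlRel]

lemma dlRel_lt (h : j < m) (β : Bool) (x : Raw K.B) (a : K.B) :
    rbd β j (x - dlRel K m a) = rbd β j x := by
  rw [← rbd_rbd_lt true β j m _ h, dlRel_tgt, rbd_rbd_lt _ _ _ _ _ h]

lemma dlRel_rDim {x : Raw K.B} (h : RDim (m + 1) x) (a : K.B) :
    RDim (m + 1) (x - dlRel K m a) := by
  rw [rDim_iff] at h ⊢
  refine ⟨by rw [dlRel_top, dlRel_top, h.1], fun ε i hi => ?_⟩
  simp only [dlRel, Pi.sub_apply]
  rw [h.2 ε i hi, if_neg (by omega), if_neg (by omega), sub_zero]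

lemma dlRel_tab {x : Raw K.B} (hx : IsTab K x) (h : RDim (m + 1) x) {a : K.B}
    (ha : x false (m + 1) a ≠ 0) (ha' : dpart K false a ≤ x false m) :
    IsTab K (x - dlRel K m a) := by
  have hd : K.deg a = m + 1 := hx.deg _ _ a ha
  refine ⟨fun ε i => ?_, fun ε i => ?_, fun ε => ?_, fun ε i => ?_⟩
  · simp only [dlRel, Pi.sub_apply]
    split_ifs with h1 h2
    · rw [h1, h.topEqRel, sub_nonneg]
      intro b
      have : (0 : ℤ) ≤ x false (m + 1) b := hx.nonneg false (m + 1) b
      by_cases hb : b = a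
      · subst hb
        rw [Finsupp.single_eq_same]
        omega
      · rwa [Finsupp.single_eq_of_ne hb]
    · rw [h2.1, h2.2, ← sub_add]
      exact add_nonneg (sub_nonneg.2 ha') (dpart_nonneg _ _)
    · rw [sub_zero]
      exact hx.nonneg _ _
  · simp only [dlRel, Pi.sub_apply]
    refine rel_deg_sub (hx.deg _ _) ?_
    split_ifs with h1 h2
    · rw [h1]
      exact rel_deg_single hd
    · rw [h2.1]
      exact rel_deg_sub (dpart_deg _ _ hd) (dpart_deg _ _ hd)
    · intro b hb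
      simp at hb
  · simp only [dlRel, Pi.sub_apply]
    rw [map_sub, hx.aug, if_neg (by omega)]
    split_ifs with h1
    · rw [← neg_sub (dpart K true a), dpart_sub, map_neg, K.aug_d a (by omega), neg_zero, sub_zero]
    · rw [map_zero, sub_zero]
  · have h1 : K.d (dlRel K m a ε (i + 1)) = dlRel K m a true i - dlRel K m a false i := by
      simp only [dlRel]
      by_cases h1 : i = m
      · rw [if_pos (by omega), if_neg (by omega), if_neg (by simp), if_neg (by omega),
          if_pos (by simp [h1]), zero_sub, neg_sub, dpart_sub]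
      · rw [if_neg (by omega), if_neg (show ¬ (i = m ∧ true = false) by simp),
          if_neg (show ¬ (i = m ∧ True) by simp [h1]), sub_self]
        split_ifs
        · rw [map_sub, d_dpart true, sub_self]
        · rw [map_zero]
    simp only [Pi.sub_apply, map_sub, hx.d, h1]
    abel

/-- The cell applying the generator `a` to the source of `x`. -/
noncomputable def oneRel (K : BADC) (m : ℕ) (x : Raw K.B) (a : K.B) : Raw K.B :=
  setTop m (x false m - dpart K false a + Finsupp.single a 1) x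

lemma rel_hatSub_one {u : K.B →₀ ℤ} (hu : IsDeg K.deg m u) {a : K.B} (ha : K.deg a = m + 1)
    (ε : Bool) : hatSub K m ε (fun _ => True) (u - dpart K false a + Finsupp.single a 1) =
      u - dpart K false a + dpart K ε a := by
  rw [map_add, rl_hatSub_fix (rel_deg_sub hu (dpart_deg _ _ ha)),
    rl_hatSub_pos (S := fun _ => True) ha trivial]

lemma oneRel_tab (hK : GoodLE K (m + 1)) {x : Raw K.B} (hx : IsTab K x) {a : K.B}
    (ha : K.deg a = m + 1) (ha' : dpart K false a ≤ x false m) :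
    IsTab (hat K m) (oneRel K m x a) := by
  have h0 : 0 ≤ x false m - dpart K false a + Finsupp.single a 1 :=
    add_nonneg (sub_nonneg.2 ha') (Finsupp.single_nonneg.2 zero_le_one)
  have h1 : IsDeg (hat K m).deg m (x false m - dpart K false a + Finsupp.single a 1) :=
    rel_deg_add (rel_deg_hat (rel_deg_sub (hx.deg _ _) (dpart_deg _ _ ha))) (rel_deg_hat_single ha)
  exact rel_tab_lift hK hx h0 h1 (by rw [rel_hatSub_one (hx.deg _ _) ha, sub_add_cancel])

lemma RelH.one_src (H : RelH K m Y Φ) {x : Raw K.B} (hx : IsTab K x) {a : K.B}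
    (ha : K.deg a = m + 1) (ha' : dpart K false a ≤ x false m) :
    Y.bd false m (Φ (oneRel K m x a)) = Φ (rbd false m x) := by
  rw [H.bd false (oneRel_tab H.good hx ha ha') rl_setTop_rDim, oneRel, sbRel_setTop,
    rel_hatSub_one (hx.deg _ _) ha, sub_add_cancel, rel_rbd_eq]

lemma RelH.one_tgt (H : RelH K m Y Φ) {x : Raw K.B} (hx : IsTab K x) {a : K.B}
    (ha : K.deg a = m + 1) (ha' : dpart K false a ≤ x false m) :
    Y.bd true m (Φ (oneRel K m x a)) = Φ (rbd false m (x - dlRel K m a)) := by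
  rw [H.bd true (oneRel_tab H.good hx ha ha') rl_setTop_rDim, oneRel, sbRel_setTop,
    rel_hatSub_one (hx.deg _ _) ha, rel_rbd_eq, dlRel_src, dlRel_setTop]

lemma RelH.two (H : RelH K m Y Φ) {x : Raw K.B} (hx : IsTab K x) {a b : K.B}
    (ha : K.deg a = m + 1) (hb : K.deg b = m + 1) (hab : b ≠ a)
    (h : dpart K false a + dpart K false b ≤ x false m) :
    Φ (setTop m (x false m - (dpart K false a + dpart K false b) +
      (Finsupp.single a 1 + Finsupp.single b 1)) x) =
      Y.comp m (Φ (oneRel K m x a)) (Φ (oneRel K m (x - dlRel K m a) b)) := by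
  have hN : IsDeg K.deg m (x false m - (dpart K false a + dpart K false b)) :=
    rel_deg_sub (hx.deg _ _) (rel_deg_add (dpart_deg _ _ ha) (dpart_deg _ _ hb))
  have h0 : 0 ≤ x false m - (dpart K false a + dpart K false b) +
      (Finsupp.single a 1 + Finsupp.single b 1) :=
    add_nonneg (sub_nonneg.2 h) (add_nonneg (Finsupp.single_nonneg.2 zero_le_one)
      (Finsupp.single_nonneg.2 zero_le_one))
  have h1 : IsDeg (hat K m).deg m (x false m - (dpart K false a + dpart K false b) +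
      (Finsupp.single a 1 + Finsupp.single b 1)) :=
    rel_deg_add (rel_deg_hat hN) (rel_deg_add (rel_deg_hat_single ha) (rel_deg_hat_single hb))
  have h2 := rel_tab_lift H.good hx h0 h1 (by
    rw [map_add, map_add, rl_hatSub_fix hN, rl_hatSub_pos (S := fun _ => True) ha trivial,
      rl_hatSub_pos (S := fun _ => True) hb trivial, sub_add_cancel])
  rw [H.split (fun c => c = a) h2 rl_setTop_rDim, sbRel_setTop, sbRel_setTop, map_add, map_add,
    map_add, map_add, rl_hatSub_fix hN, rl_hatSub_fix hN,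
    rl_hatSub_neg (S := fun c => ¬ c = a) (fun h' => h'.2 rfl),
    rl_hatSub_pos (S := fun c => ¬ c = a) hb hab, rl_hatSub_pos (S := fun c => c = a) ha rfl,
    rl_hatSub_neg (S := fun c => c = a) (fun h' => hab h'.2), oneRel, oneRel, dlRel_src, dlRel_setTop]
  congr 3 <;> abel

/-- The possible values on a table of dimension `m + 1`. -/
inductive ValRel (K : BADC) (m : ℕ) (Y : PreOmega) (Φ : Raw K.B → Y.C) : Raw K.B → Y.C → Prop
  | base (x : Raw K.B) : IsTab K x → RDim m x → ValRel K m Y Φ x (Φ x)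
  | step (x : Raw K.B) (a : K.B) (c : Y.C) : IsTab K x → RDim (m + 1) x →
      x false (m + 1) a ≠ 0 → dpart K false a ≤ x false m → ValRel K m Y Φ (x - dlRel K m a) c →
      ValRel K m Y Φ x (Y.comp m (Φ (oneRel K m x a)) c)

lemma ValRel.tab {x : Raw K.B} {c : Y.C} (h : ValRel K m Y Φ x c) :
    IsTab K x ∧ RDim (m + 1) x := by
  cases h with
  | base _ hx hx' => exact ⟨hx, hx'.monoRel (Nat.le_succ m)⟩
  | step _ _ _ hx hx' => exact ⟨hx, hx'⟩

lemma RelH.val_bd (H : RelH K m Y Φ) {x : Raw K.B} {c : Y.C} (h : ValRel K m Y Φ x c)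
    (α : Bool) : Y.bd α m c = Φ (rbd α m x) := by
  induction h generalizing α with
  | base x hx hx' => rw [(H.dim hx hx').bd_eq α le_rfl, hx'.rbdEqRel α le_rfl]
  | step x a c hx _ ha ha' _ ih =>
    have hd : K.deg a = m + 1 := hx.deg _ _ a ha
    have hcp : Y.bd true m (Φ (oneRel K m x a)) = Y.bd false m c := by
      rw [H.one_tgt hx hd ha', ih]
    cases α
    · rw [Y.src_comp _ _ _ hcp, H.one_src hx hd ha']
    · rw [Y.tgt_comp _ _ _ hcp, ih, dlRel_tgt]

lemma RelH.val_cp (H : RelH K m Y Φ) {x : Raw K.B} (hx : IsTab K x) {a : K.B}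
    (ha : K.deg a = m + 1) (ha' : dpart K false a ≤ x false m) {c : Y.C}
    (h : ValRel K m Y Φ (x - dlRel K m a) c) : Y.Cp m (Φ (oneRel K m x a)) c := by
  unfold PreOmega.Cp
  rw [H.one_tgt hx ha ha', H.val_bd h]

lemma rel_aug_nonneg {B : Type} {z : B →₀ ℤ} (h : 0 ≤ z) : 0 ≤ aug z := by
  rw [← Finsupp.sum_single z, Finsupp.sum, map_sum]
  exact Finset.sum_nonneg fun b _ => by
    rw [aug_single]
    exact h b

lemma rel_ind (P : Raw K.B → Prop) (hP : ∀ x, IsTab K x → RDim (m + 1) x →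
    (∀ a, x false (m + 1) a ≠ 0 → dpart K false a ≤ x false m → P (x - dlRel K m a)) → P x)
    {x : Raw K.B} (hx : IsTab K x) (hx' : RDim (m + 1) x) : P x := by
  induction hn : (aug (x false (m + 1))).toNat using Nat.strong_induction_on generalizing x with
  | _ n ih =>
    refine hP x hx hx' fun a ha ha' => ?_
    have h1 := dlRel_tab hx hx' ha ha'
    refine ih _ ?_ h1 (dlRel_rDim hx' a) rfl
    have h2 := rel_aug_nonneg (h1.nonneg false (m + 1))
    rw [dlRel_top, map_sub, aug_single] at h2 ⊢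
    omega

lemma rel_rDim_of_top {x : Raw K.B} (hx : IsTab K x) (hx' : RDim (m + 1) x)
    (h : x false (m + 1) = 0) : RDim m x := by
  rw [rDim_iff]
  refine ⟨?_, fun ε i hi => ?_⟩
  · rw [← sub_eq_zero, ← hx.d false, h, map_zero]
  · rcases (Nat.succ_le_of_lt hi).eq_or_lt with h1 | h1
    · rw [← h1, hx'.topEqRel, h]
    · exact ((rDim_iff _ _).1 hx').2 ε i h1

lemma rel_val_exists (hK : GoodLE K (m + 1)) {x : Raw K.B} (hx : IsTab K x)
    (hx' : RDim (m + 1) x) : ∃ c, ValRel K m Y Φ x c := by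
  refine rel_ind (fun x => ∃ c, ValRel K m Y Φ x c) (fun x hx hx' ih => ?_) hx hx'
  by_cases h : x false (m + 1) = 0
  · exact ⟨_, .base x hx (rel_rDim_of_top hx hx' h)⟩
  · obtain ⟨a, ha, ha', -⟩ := exists_applicable hK hx h
    obtain ⟨c, hc⟩ := ih a ha ha'
    exact ⟨_, .step x a c hx hx' ha ha' hc⟩

lemma RelH.val_unique (H : RelH K m Y Φ) {x : Raw K.B} {c c' : Y.C} (h : ValRel K m Y Φ x c)
    (h' : ValRel K m Y Φ x c') : c = c' := by
  refine rel_ind (fun x => ∀ c c', ValRel K m Y Φ x c → ValRel K m Y Φ x c' → c = c')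
    (fun x hx hx' ih => ?_) h.tab.1 h.tab.2 c c' h h'
  by_cases h0 : x false (m + 1) = 0
  · have key : ∀ c, ValRel K m Y Φ x c → c = Φ x := fun c hc => by
      cases hc with
      | base => rfl
      | step _ a _ _ _ ha => exact absurd (by rw [h0]; rfl) ha
    exact fun c c' h h' => (key c h).trans (key c' h').symm
  obtain ⟨a, ha, ha', hab⟩ := exists_applicable H.good hx h0
  have hd : K.deg a = m + 1 := hx.deg _ _ a ha
  obtain ⟨c₀, hc₀⟩ := rel_val_exists (Y := Y) (Φ := Φ) H.good (dlRel_tab hx hx' ha ha')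
    (dlRel_rDim hx' a)
  have key : ∀ c, ValRel K m Y Φ x c → c = Y.comp m (Φ (oneRel K m x a)) c₀ := fun c hc => by
    cases hc with
    | base _ _ h1 => exact absurd (((rDim_iff _ _).1 h1).2 false _ (Nat.lt_succ_self m)) h0
    | step _ b c₁ _ _ hb hb' hc₁ =>
      by_cases hba : b = a
      · subst hba
        rw [ih b hb hb' _ _ hc₁ hc₀]
      have hdb : K.deg b = m + 1 := hx.deg _ _ b hb
      have h1 := hab b hba hb hb'
      have app : ∀ p q : K.B, q ≠ p → x false (m + 1) q ≠ 0 →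
          dpart K false p + dpart K false q ≤ x false m →
          (x - dlRel K m p) false (m + 1) q ≠ 0 ∧ dpart K false q ≤ (x - dlRel K m p) false m :=
        fun p q hpq hq hle => ⟨by
          rwa [dlRel_top, Finsupp.sub_apply, Finsupp.single_eq_of_ne hpq, sub_zero], by
          rw [dlRel_src]
          exact le_add_of_le_of_nonneg (le_sub_iff_add_le'.2 hle) (dpart_nonneg _ _)⟩
      have h2 := app a b hba hb h1
      have h3 := app b a (Ne.symm hba) ha (by rwa [add_comm])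
      have ta := dlRel_tab hx hx' ha ha'
      have tb := dlRel_tab hx hx' hb hb'
      obtain ⟨c₂, hc₂⟩ := rel_val_exists (Y := Y) (Φ := Φ) H.good
        (dlRel_tab ta (dlRel_rDim hx' a) h2.1 h2.2) (dlRel_rDim (dlRel_rDim hx' a) b)
      have hc₃ := hc₂
      rw [sub_right_comm] at hc₃
      have e1 := ih a ha ha' _ _ hc₀ (.step _ b c₂ ta (dlRel_rDim hx' a) h2.1 h2.2 hc₂)
      have e2 := ih b hb hb' _ _ hc₁ (.step _ a c₂ tb (dlRel_rDim hx' b) h3.1 h3.2 hc₃)
      rw [e1, e2, ← Y.assoc, ← Y.assoc, ← H.two hx hd hdb hba h1,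
        ← H.two hx hdb hd (Ne.symm hba) (by rwa [add_comm]), add_comm (dpart K false a),
        add_comm (Finsupp.single a 1)]
      · rw [H.one_tgt hx hd ha', H.one_src ta hdb h2.2]
      · exact H.val_cp ta hdb h2.2 hc₂
      · rw [H.one_tgt hx hdb hb', H.one_src tb hd h3.2]
      · exact H.val_cp tb hd h3.2 hc₃
  exact fun c c' h h' => (key c h).trans (key c' h').symm

end step

section step2

variable {K : BADC} {m j : ℕ} {Y : PreOmega} {Φ : Raw K.B → Y.C}

lemma rel_add_ne {B : Type} {z z' : B →₀ ℤ} (hz : 0 ≤ z) (hz' : 0 ≤ z') {a : B}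
    (h : z a ≠ 0 ∨ z' a ≠ 0) : (z + z') a ≠ 0 := by
  have h1 : (0 : ℤ) ≤ z a := hz a
  have h2 : (0 : ℤ) ≤ z' a := hz' a
  rw [Finsupp.add_apply]
  omega

lemma rel_rcomp_src {B : Type} {x y : Raw B} (h : rbd true m x = rbd false m y) :
    rcomp m x y false m = x false m := by
  rw [rcomp_apply h]
  simp

lemma rel_setTop_rcomp {B : Type} {x y : Raw B} (h : rbd true m x = rbd false m y) (z : B →₀ ℤ) :
    setTop m z (rcomp m x y) = setTop m z x := by
  funext ε i
  simp only [setTop, rcomp_apply h]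
  split_ifs <;> rfl

lemma RelH.val_comp (H : RelH K m Y Φ) {x y : Raw K.B} {c c' : Y.C} (h : ValRel K m Y Φ x c)
    (h' : ValRel K m Y Φ y c') (hxy : rbd true m x = rbd false m y) :
    ValRel K m Y Φ (rcomp m x y) (Y.comp m c c') := by
  induction h with
  | base x hx hx' =>
    have e : rcomp m x y = y := PreOmega.Dim.comp_left (X := rawOmega K.B) hx' le_rfl hxy
    rw [e, (H.dim hx hx').comp_left le_rfl]
    · exact h'
    · unfold PreOmega.Cp
      rw [H.val_bd h', ← hxy, H.val_bd (.base x hx hx')]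
  | step x a c hx hx' ha ha' hc ih =>
    have hd : K.deg a = m + 1 := hx.deg _ _ a ha
    have e1 : rcomp m x y - dlRel K m a = rcomp m (x - dlRel K m a) y := by
      rw [rcomp, rcomp, dlRel_tgt]
      abel
    have e2 : oneRel K m x a = oneRel K m (rcomp m x y) a := by
      rw [oneRel, oneRel, rel_rcomp_src hxy, rel_setTop_rcomp hxy]
    rw [Y.assoc _ _ _ _ (H.val_cp hx hd ha' hc)
      (by rw [H.val_bd hc, H.val_bd h', dlRel_tgt, hxy]), e2]
    refine .step _ a _ (hx.rcomp h'.tab.1 m hxy) (hx'.rcompRel h'.tab.2 hxy) ?_ ?_ ?_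
    · rw [rel_rcomp_top (Nat.lt_succ_self m)]
      exact rel_add_ne (hx.nonneg _ _) (h'.tab.1.nonneg _ _) (Or.inl ha)
    · rwa [rel_rcomp_src hxy]
    · rw [e1]
      exact ih (by rwa [dlRel_tgt])

lemma RelH.bd_lt (H : RelH K m Y Φ) (hj : j < m) {x : Raw K.B} {c : Y.C}
    (h : ValRel K m Y Φ x c) (β : Bool) : Y.bd β j c = Φ (rbd β j x) := by
  rw [← Y.bd_bd_lt false β j m c hj, H.val_bd h, ← H.pres.bd β j _ hj
    ((h.tab.1.rbd false m).toHat (rel_rDim_rbd _ _ _)) (rel_rDim_rbd _ _ _),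
    rbd_rbd_lt _ _ _ _ _ hj]

lemma RelH.val_right (H : RelH K m Y Φ) (hj : j < m) {x w : Raw K.B} {c : Y.C}
    (h : ValRel K m Y Φ x c) (hw : IsTab K w) (hw' : RDim m w)
    (hxw : rbd true j x = rbd false j w) : ValRel K m Y Φ (rcomp j x w) (Y.comp j c (Φ w)) := by
  induction h with
  | base x hx hx' =>
    rw [← H.pres.comp j x w hj (hx.toHat hx') (hw.toHat hw') hx' hw' hxw]
    exact .base _ (hx.rcomp hw j hxw) (hx'.rcompRel hw' hxw)
  | step x a c hx hx' ha ha' hc ih =>
    have hd : K.deg a = m + 1 := hx.deg _ _ a ha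
    have e1 : rcomp j x w - dlRel K m a = rcomp j (x - dlRel K m a) w := by
      rw [rcomp, rcomp, dlRel_lt hj]
      abel
    have e2 : rcomp j (oneRel K m x a) w = oneRel K m (rcomp j x w) a := by
      conv_lhs => rw [← hw', rel_rbd_eq]
      rw [oneRel, oneRel, ← rl_setTop_rcomp hj, rel_rcomp_top hj]
      congr 1
      abel
    have e3 : rbd true j (oneRel K m x a) = rbd false j w := by rw [oneRel, rl_rbd_setTop hj, hxw]
    have t1 := oneRel_tab H.good hx hd ha'
    have d1 := H.dim hw hw'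
    conv => rhs; rw [← d1.comp_self le_rfl]
    rw [Y.exchange j m _ _ _ _ hj (H.val_cp hx hd ha' hc)
      (by rw [d1.bd_eq _ le_rfl, d1.bd_eq _ le_rfl])
      (H.pres.cpRel hj t1 (hw.toHat hw') rl_setTop_rDim hw' e3),
      ← H.pres.comp j _ w hj t1 (hw.toHat hw') rl_setTop_rDim hw' e3, e2]
    refine .step _ a _ (hx.rcomp hw j hxw) (hx'.rcompRel (hw'.monoRel (Nat.le_succ m)) hxw) ?_ ?_ ?_
    · rw [rel_rcomp_top (by omega)]
      exact rel_add_ne (hx.nonneg _ _) (hw.nonneg _ _) (Or.inl ha)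
    · rw [rel_rcomp_top hj]
      exact le_add_of_le_of_nonneg ha' (hw.nonneg _ _)
    · rw [e1]
      exact ih (by rwa [dlRel_lt hj])

lemma RelH.val_left (H : RelH K m Y Φ) (hj : j < m) {x w : Raw K.B} {c : Y.C}
    (h : ValRel K m Y Φ x c) (hw : IsTab K w) (hw' : RDim m w)
    (hxw : rbd true j w = rbd false j x) : ValRel K m Y Φ (rcomp j w x) (Y.comp j (Φ w) c) := by
  induction h with
  | base x hx hx' =>
    rw [← H.pres.comp j w x hj (hw.toHat hw') (hx.toHat hx') hw' hx' hxw]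
    exact .base _ (hw.rcomp hx j hxw) (hw'.rcompRel hx' hxw)
  | step x a c hx hx' ha ha' hc ih =>
    have hd : K.deg a = m + 1 := hx.deg _ _ a ha
    have e1 : rcomp j w x - dlRel K m a = rcomp j w (x - dlRel K m a) := by
      rw [rcomp, rcomp]
      abel
    have e2 : rcomp j w (oneRel K m x a) = oneRel K m (rcomp j w x) a := by
      conv_lhs => rw [← hw', rel_rbd_eq]
      rw [oneRel, oneRel, ← rl_setTop_rcomp hj, rel_rcomp_top hj]
      congr 1
      abel
    have e3 : rbd true j w = rbd false j (oneRel K m x a) := by rw [oneRel, rl_rbd_setTop hj, hxw]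
    have t1 := oneRel_tab H.good hx hd ha'
    have d1 := H.dim hw hw'
    conv => rhs; rw [← d1.comp_self le_rfl]
    rw [Y.exchange j m _ _ _ _ hj (by rw [d1.bd_eq _ le_rfl, d1.bd_eq _ le_rfl])
      (H.val_cp hx hd ha' hc) (H.pres.cpRel hj (hw.toHat hw') t1 hw' rl_setTop_rDim e3),
      ← H.pres.comp j w _ hj (hw.toHat hw') t1 hw' rl_setTop_rDim e3, e2]
    refine .step _ a _ (hw.rcomp hx j hxw) ((hw'.monoRel (Nat.le_succ m)).rcompRel hx' hxw) ?_ ?_ ?_
    · rw [rel_rcomp_top (by omega)]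
      exact rel_add_ne (hw.nonneg _ _) (hx.nonneg _ _) (Or.inr ha)
    · rw [rel_rcomp_top hj]
      exact le_add_of_nonneg_of_le (hw.nonneg _ _) ha'
    · rw [e1]
      exact ih (by rwa [dlRel_lt hj])

lemma RelH.val_comp_lt (H : RelH K m Y Φ) (hj : j < m) {x y : Raw K.B} {c c' : Y.C}
    (h : ValRel K m Y Φ x c) (h' : ValRel K m Y Φ y c') (hxy : rbd true j x = rbd false j y) :
    ValRel K m Y Φ (rcomp j x y) (Y.comp j c c') := by
  have hcp : Y.Cp j c c' := by
    unfold PreOmega.Cp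
    rw [H.bd_lt hj h, H.bd_lt hj h', hxy]
  have e : rcomp j x y = rcomp m (rcomp j x (rbd false m y)) (rcomp j (rbd true m x) y) :=
    PreOmega.Cp.whisker (X := rawOmega K.B) hxy hj
  rw [e, hcp.whisker hj, H.val_bd h, H.val_bd h']
  exact H.val_comp
    (H.val_right hj h (h'.tab.1.rbd _ _) (rel_rDim_rbd _ _ _) (by rwa [rbd_rbd_lt _ _ _ _ _ hj]))
    (H.val_left hj h' (h.tab.1.rbd _ _) (rel_rDim_rbd _ _ _) (by rwa [rbd_rbd_lt _ _ _ _ _ hj]))
    (PreOmega.Cp.whisker_cp (X := rawOmega K.B) hxy hj)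

lemma RelH.val_atom (H : RelH K m Y Φ) {b : K.B} {x : Raw K.B} (hb : K.deg b = m + 1)
    (hx : IsAtom K b x) : ValRel K m Y Φ x (Φ (setTop m (Finsupp.single b 1) x)) := by
  have h1 : RDim (m + 1) x := hb ▸ hx.rDim
  have h2 : x false (m + 1) = Finsupp.single b 1 := hb ▸ hx.top false
  have h3 : x false (m + 1) b ≠ 0 := by simp [h2]
  have h4 : dpart K false b ≤ x false m := (hx.eq_dpart hb false).ge
  have h5 := dlRel_tab hx.tab h1 h3 h4
  have h6 : RDim m (x - dlRel K m b) :=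
    rel_rDim_of_top h5 (dlRel_rDim h1 b) (by rw [dlRel_top, h2, sub_self])
  have h7 := ValRel.step (Φ := Φ) x b _ hx.tab h1 h3 h4 (.base _ h5 h6)
  have h8 : oneRel K m x b = setTop m (Finsupp.single b 1) x := by
    rw [oneRel, hx.eq_dpart hb, sub_self, zero_add]
  rwa [← h6.rbdEqRel true le_rfl, dlRel_tgt, h8, ← H.top b x true hb hx, Y.comp_id] at h7

theorem RelH.step (H : RelH K m Y Φ) : ∃ F' : Raw K.B → Y.C, RPres (m + 1) K Y F' ∧
    (∀ x, IsTab K x → RDim m x → F' x = Φ x) ∧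
    ∀ b x, K.deg b = m + 1 → IsAtom K b x → F' x = Φ (setTop m (Finsupp.single b 1) x) := by
  have hex : ∀ x, ∃ c, IsTab K x → RDim (m + 1) x → ValRel K m Y Φ x c := fun x => by
    by_cases h : IsTab K x ∧ RDim (m + 1) x
    · obtain ⟨c, hc⟩ := rel_val_exists (Y := Y) (Φ := Φ) H.good h.1 h.2
      exact ⟨c, fun _ _ => hc⟩
    · exact ⟨Φ x, fun h1 h2 => absurd ⟨h1, h2⟩ h⟩
  choose F' hF' using hex
  have key : ∀ {x c}, ValRel K m Y Φ x c → F' x = c := fun h =>
    H.val_unique (hF' _ h.tab.1 h.tab.2) h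
  refine ⟨F', ⟨fun α j x hj hx hx' => ?_, fun j x y hj hx hy hx' hy' hxy => ?_⟩,
    fun x hx hx' => key (.base x hx hx'), fun b x hb hx => key (H.val_atom hb hx)⟩
  · rw [key (.base _ (hx.rbd α j) ((rel_rDim_rbd α j x).monoRel (Nat.lt_succ_iff.1 hj)))]
    rcases (Nat.lt_succ_iff.1 hj).eq_or_lt with rfl | h
    · exact (H.val_bd (hF' x hx hx') α).symm
    · exact (H.bd_lt h (hF' x hx hx') α).symm
  · rcases (Nat.lt_succ_iff.1 hj).eq_or_lt with rfl | h
    · exact key (H.val_comp (hF' x hx hx') (hF' y hy hy') hxy)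
    · exact key (H.val_comp_lt h (hF' x hx hx') (hF' y hy hy') hxy)

lemma rel_finish (hK : GoodLE K (m + 1)) {F : Raw K.B → Y.C} (hF : RPres m K Y F)
    (hD : ∀ x, IsTab K x → RDim m x → Y.Dim m (F x)) {y : K.B → Y.C}
    (hy : ∀ b x α, K.deg b = m + 1 → IsAtom K b x → Y.bd α m (y b) = F (rbd α m x))
    (hΦ : RPres m (hat K m) Y Φ) (h1 : ∀ b x, K.deg b ≤ m → IsAtom K b x → Φ x = F x)
    (h2 : ∀ b x, K.deg b = m + 1 → IsAtom K b x → Φ (setTop m (Finsupp.single b 1) x) = y b) :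
    ∃ F' : Raw K.B → Y.C, RPres (m + 1) K Y F' ∧
      (∀ x, IsTab K x → RDim m x → F' x = F x) ∧
      ∀ b x, K.deg b = m + 1 → IsAtom K b x → F' x = y b := by
  have hΦK : RPres m K Y Φ :=
    ⟨fun α j x hj hx hx' => hΦ.bd α j x hj (hx.toHat hx') hx',
      fun j x y hj hx hy hx' hy' hxy =>
        hΦ.comp j x y hj (hx.toHat hx') (hy.toHat hy') hx' hy' hxy⟩
  have he := RPres.ext (hK.mono (Nat.le_succ m)) hΦK hF h1
  have H : RelH K m Y Φ := ⟨hK, hΦ, fun b x hb hx => by
    rw [h1 b x hb hx]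
    exact hD x hx.tab (hx.rDim.monoRel hb), fun b x α hb hx => by
    rw [h2 b x hb hx, hy b x α hb hx, he _ (hx.tab.rbd α m) (rel_rDim_rbd α m x)]⟩
  obtain ⟨F', a1, a2, a3⟩ := H.step
  exact ⟨F', a1, fun x hx hx' => (a2 x hx hx').trans (he x hx hx'),
    fun b x hb hx => (a3 b x hb hx).trans (h2 b x hb hx)⟩

lemma rel_vals (hK : GoodLE K (m + 1)) (F : Raw K.B → Y.C) (y : K.B → Y.C) :
    ∃ y' : K.B → Y.C, (∀ b x, K.deg b ≤ m → IsAtom K b x → y' b = F x) ∧
      ∀ b, K.deg b = m + 1 → y' b = y b := by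
  have : ∀ b, ∃ c : Y.C, (∀ x, K.deg b ≤ m → IsAtom K b x → c = F x) ∧
      (K.deg b = m + 1 → c = y b) := fun b => by
    by_cases hb : K.deg b ≤ m
    · obtain ⟨x₀, hx₀⟩ := hK.unital b (by omega)
      exact ⟨F x₀, fun x _ hx => by rw [hx.unique hx₀], fun h => by omega⟩
    · exact ⟨y b, fun x h => absurd h hb, fun _ => rfl⟩
  choose y' hy' using this
  exact ⟨y', fun b => (hy' b).1, fun b => (hy' b).2⟩

end step2

theorem rel_zero (K : BADC) (Y : PreOmega) (y : K.B → Y.C) (y₀ : Y.C) :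
    ∃ F : Raw K.B → Y.C, ∀ b x, K.deg b = 0 → IsAtom K b x → F x = y b := by
  have : ∀ x : Raw K.B, ∃ c : Y.C, ∀ b, K.deg b = 0 → IsAtom K b x → c = y b := fun x => by
    by_cases h : ∃ b, K.deg b = 0 ∧ IsAtom K b x
    · obtain ⟨b₀, h0, hx₀⟩ := h
      refine ⟨y b₀, fun b hb hx => ?_⟩
      have h1 := hx₀.top false
      have h2 := hx.top false
      rw [h0] at h1
      rw [hb, h1] at h2
      rw [Finsupp.single_left_injective one_ne_zero h2]
    · exact ⟨y₀, fun b hb hx => absurd ⟨b, hb, hx⟩ h⟩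
  choose F hF using this
  exact ⟨F, fun b x => hF x b⟩

theorem rel_succ (m : ℕ) : ∀ (K : BADC), GoodLE K (m + 1) → ∀ (Y : PreOmega)
    (F : Raw K.B → Y.C), RPres m K Y F →
    (∀ x, IsTab K x → RDim m x → Y.Dim m (F x)) →
    ∀ y : K.B → Y.C,
    (∀ b x α, K.deg b = m + 1 → IsAtom K b x → Y.bd α m (y b) = F (rbd α m x)) →
    ∃ F' : Raw K.B → Y.C, RPres (m + 1) K Y F' ∧
      (∀ x, IsTab K x → RDim m x → F' x = F x) ∧
      ∀ b x, K.deg b = m + 1 → IsAtom K b x → F' x = y b := by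
  induction m with
  | zero =>
    intro K hK Y F hF hD y hy
    obtain ⟨y', e1, e2⟩ := rel_vals hK F y
    obtain ⟨Φ, hΦ⟩ := rel_zero (hat K 0) Y y' (F 0)
    refine rel_finish (K := K) hK hF hD hy (Φ := Φ) ⟨fun _ _ _ h => absurd h (Nat.not_lt_zero _),
      fun _ _ _ h => absurd h (Nat.not_lt_zero _)⟩ (fun b x hb hx => ?_) fun b x hb hx => ?_
    · rw [hΦ b x ((if_neg (by omega)).trans (by omega)) (hx.toHat hb), e1 b x hb hx]
    · rw [hΦ b _ (if_pos hb) (hx.hatTop hb), e2 b hb]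
  | succ n ih =>
    intro K hK Y F hF hD y hy
    obtain ⟨y', e1, e2⟩ := rel_vals hK F y
    have hof : ∀ x, IsTab (hat K (n + 1)) x → RDim n x → IsTab K x := fun x hx hx' =>
      hx.ofHat (hx'.monoRel (Nat.le_succ n)) (by
        rw [((rDim_iff _ _).1 hx').2 false _ (Nat.lt_succ_self n)]
        intro b hb
        simp at hb)
    obtain ⟨Φ, a1, a2, a3⟩ := ih (hat K (n + 1)) hK.hat Y F
      ⟨fun α j x hj hx hx' => hF.bd α j x (by omega) (hof x hx hx') (hx'.monoRel (Nat.le_succ n)),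
        fun j x y hj hx hy hx' hy' hxy => hF.comp j x y (by omega) (hof x hx hx') (hof y hy hy')
          (hx'.monoRel (Nat.le_succ n)) (hy'.monoRel (Nat.le_succ n)) hxy⟩
      (fun x hx hx' => by
        unfold PreOmega.Dim
        rw [← hF.bd false n x (Nat.lt_succ_self n) (hof x hx hx') (hx'.monoRel (Nat.le_succ n)), hx'])
      y' (fun b x α hb hx => by
        rcases rel_hat_atom hK hb.le hx with ⟨h1, h2⟩ | ⟨h1, x₀, h2, rfl⟩
        · rw [e1 b x h1 h2, hF.bd α n x (Nat.lt_succ_self n) h2.tab (h2.rDim.monoRel h1)]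
        · rw [e2 b h1, ← Y.bd_bd_lt false α n (n + 1) _ (Nat.lt_succ_self n), hy b x₀ false h1 h2,
            ← hF.bd α n _ (Nat.lt_succ_self n) (h2.tab.rbd _ _) (rel_rDim_rbd _ _ _),
            rbd_rbd_lt _ _ _ _ _ (Nat.lt_succ_self n), rl_rbd_setTop (Nat.lt_succ_self n)])
    refine rel_finish hK hF hD hy a1 (fun b x hb hx => ?_) fun b x hb hx => ?_
    · rcases hb.eq_or_lt with h | h
      · rw [a3 b x ((if_neg (by omega)).trans h) (hx.toHat hb), e1 b x hb hx]
      · exact a2 x (hx.toHat hb).tab (hx.rDim.monoRel (Nat.lt_succ_iff.1 h))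
    · rw [a3 b _ (if_pos hb) (hx.hatTop hb), e2 b hb]

end Vale.Agent.P213
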