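import Vale.Agent.P213.KeyInd
import Vale.Agent.P213.SExtra
import Vale.Agent.P213.OmLimits

/-!
P213: transfer of the model structure and the Quillen equivalence.

Plan. Let `L = (sd ⋙ sd) ⋙ c`, `R = nerveN n ⋙ ex ⋙ ex`, `A = adjT adj : L ⊣ R`.
* `fp_left`: `Adjunction.isCardinalPresentable_leftAdjoint_obj` (`presFilt_nerveN`,
  `presFilt_ex`, `Functor.IsFinitelyAccessible_iff_preservesFilteredColimitsOfSize`).
* `genI`, `genJ`: the images under `L` of the boundary and horn inclusions; the small object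
  argument as in `Mathlib/AlgebraicTopology/SimplicialSet/AnodyneExtensions/Basic`
  (`IsCardinalForSmallObjectArgument _ ℵ₀`, `HasSmallObjectArgument`).
* `rlp_genJ`, `rlp_genI`: `Adjunction.hasLiftingProperty_iff`, `trivFib_iff`, `trivFib_of_whe`,
  `whe_of_trivFib`, `kanFib_of_trivFib`, `whe_ex_iff`.
* `llp_Fn_le_Wn`: `SmallObject.llp_rlp_of_isCardinalForSmallObjectArgument_aleph0`. A coproduct
  of maps of `genJ` is isomorphic to `L.map` of a coproduct `i` of horn inclusions (`L` preserves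
  coproducts), which is anodyne; a pushout of `L.map i` is in `Wn` by `sPush_iff`,
  `hsq_sd_mono`, `Hsq.whe_map`, `anodyne_sd_map`. Compositions indexed by `ℕ`:
  `presFilt_nerveN` and `whe_colim` from the constant diagram. Retracts: `whe` is stable.
* `exists_thomason`: `ModelCategory.mk'` (two weak factorization systems) or the constructor,
  with the retract argument for `Cn ⊓ Wn = (Fn).llp`.
* `wn_iff`: the adjoint of `f` for `adj` is `unit ≫ N f` with `unit` a `whe` (`uGood_sd`,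
  `sUniv_unit`); then `whe_homEquiv_sd` twice.
-/

open CategoryTheory Limits Simplicial HomotopicalAlgebra

namespace Vale.Agent.P213

variable {n : ℕ∞} {c : SSet.{0} ⥤ NCat n}

/-- The composite adjunction. -/
noncomputable abbrev adjT (adj : c ⊣ nerveN n) :
    (SSet.sd ⋙ SSet.sd) ⋙ c ⊣ nerveN n ⋙ SSet.ex ⋙ SSet.ex :=
  (SSet.sdExAdjunction.comp SSet.sdExAdjunction).comp adj

attribute [local instance] Cardinal.fact_isRegular_aleph0 Cardinal.orderBotAleph0OrdToType in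
lemma fp_left (adj : c ⊣ nerveN n) (K : SSet.{0}) [K.Finite] :
    IsFinitelyPresentable.{0} (((SSet.sd ⋙ SSet.sd) ⋙ c).obj K) := by
  have : (nerveN n ⋙ SSet.ex ⋙ SSet.ex).IsCardinalAccessible Cardinal.aleph0.{0} :=
    Functor.IsFinitelyAccessible_iff_preservesFilteredColimitsOfSize.2 inferInstance
  exact (adjT adj).isCardinalPresentable_leftAdjoint_obj _ K

/-- Generating cofibrations. -/
def genI (c : SSet.{0} ⥤ NCat n) : MorphismProperty (NCat n) :=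
  .ofHoms fun m : ℕ => ((SSet.sd ⋙ SSet.sd) ⋙ c).map (SSet.boundary.{0} m).ι

/-- Generating trivial cofibrations. -/
def genJ (c : SSet.{0} ⥤ NCat n) : MorphismProperty (NCat n) :=
  .ofHoms fun p : Σ m : ℕ, Fin (m + 2) =>
    ((SSet.sd ⋙ SSet.sd) ⋙ c).map (SSet.horn.{0} (p.1 + 1) p.2).ι

lemma rlp_genJ (adj : c ⊣ nerveN n) : (genJ c).rlp = Fn n := by
  ext X Y p
  constructor
  · intro h
    refine kq_kanFib_of fun m k => ((adjT adj).hasLiftingProperty_iff _ p).1 (h _ ?_)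
    exact MorphismProperty.ofHoms.mk (f := fun p : Σ m : ℕ, Fin (m + 2) =>
      ((SSet.sd ⋙ SSet.sd) ⋙ c).map (SSet.horn.{0} (p.1 + 1) p.2).ι) ⟨m, k⟩
  · rintro h _ _ _ ⟨m, k⟩
    exact ((adjT adj).hasLiftingProperty_iff _ p).2 (kq_horn_lift h m k)

private lemma trivFib_right {X Y : NCat n} (p : X ⟶ Y) :
    trivFib ((nerveN n ⋙ SSet.ex ⋙ SSet.ex).map p) ↔ Fn n p ∧ Wn n p :=
  ⟨fun h => ⟨kanFib_of_trivFib h, (whe_ex_iff _).1 ((whe_ex_iff _).1 (whe_of_trivFib h))⟩,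
    fun h => trivFib_of_whe h.1 ((whe_ex_iff _).2 ((whe_ex_iff _).2 h.2))⟩

lemma rlp_genI (adj : c ⊣ nerveN n) : (genI c).rlp = Fn n ⊓ Wn n := by
  ext X Y p
  refine Iff.trans ?_ ((trivFib_iff _).symm.trans (trivFib_right p))
  constructor
  · intro h m
    exact ((adjT adj).hasLiftingProperty_iff _ p).1 (h _ (MorphismProperty.ofHoms.mk
      (f := fun m : ℕ => ((SSet.sd ⋙ SSet.sd) ⋙ c).map (SSet.boundary.{0} m).ι) m))
  · rintro h _ _ _ ⟨m⟩
    exact ((adjT adj).hasLiftingProperty_iff _ p).2 (h m)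

section

open MorphismProperty

attribute [local instance] Cardinal.fact_isRegular_aleph0 Cardinal.orderBotAleph0OrdToType

private lemma card_ofHoms {ι : Type} {A B : ι → NCat n} (h : ∀ p, A p ⟶ B p)
    (hA : ∀ p, IsFinitelyPresentable.{0} (A p)) :
    IsCardinalForSmallObjectArgument (ofHoms h) Cardinal.aleph0.{0} where
  isSmall := isSmall_ofHoms ..
  preservesColimit {A' B' X Y} i hi f hf := by
    have : IsFinitelyPresentable.{0} A' := by
      obtain ⟨p⟩ := hi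
      exact hA p
    infer_instance

private lemma factor_ofHoms {ι : Type} {A B : ι → NCat n} (h : ∀ p, A p ⟶ B p)
    (hA : ∀ p, IsFinitelyPresentable.{0} (A p)) {X Y : NCat n} (f : X ⟶ Y) :
    ∃ (Z : NCat n) (i : X ⟶ Z) (p : Z ⟶ Y),
      (ofHoms h).rlp.llp i ∧ (ofHoms h).rlp p ∧ i ≫ p = f := by
  have := card_ofHoms h hA
  have : HasSmallObjectArgument.{0} (ofHoms h) :=
    ⟨.aleph0, inferInstance, inferInstance, inferInstance⟩
  let d := factorizationData (ofHoms h).rlp.llp (ofHoms h).rlp f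
  exact ⟨d.Z, d.i, d.p, d.hi, d.hp, d.fac⟩

private lemma llp_rlp_ofHoms {ι : Type} {A B : ι → NCat n} (h : ∀ p, A p ⟶ B p)
    (hA : ∀ p, IsFinitelyPresentable.{0} (A p)) (W : MorphismProperty (NCat n))
    [W.IsStableUnderRetracts] [W.IsStableUnderTransfiniteCompositionOfShape ℕ]
    (hW : (coproducts.{0} (ofHoms h)).pushouts ≤ W) : (ofHoms h).rlp.llp ≤ W := by
  have := card_ofHoms h hA
  rw [SmallObject.llp_rlp_of_isCardinalForSmallObjectArgument_aleph0, retracts_le_iff]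
  exact (transfiniteCompositionsOfShape_monotone ℕ hW).trans
    (transfiniteCompositionsOfShape_le _ ℕ)

/-- A coproduct of images of anodyne maps is a pushout of the image of an anodyne map. -/
private lemma coprod_aux (F : SSet.{0} ⥤ NCat n) [PreservesColimitsOfSize.{0, 0} F] {ι : Type}
    {A B : ι → SSet.{0}} (h : ∀ p, A p ⟶ B p) (hh : ∀ p, SSet.anodyneExtensions (h p))
    {X Y : NCat n} {φ : X ⟶ Y} (hφ : coproducts.{0} (ofHoms fun p => F.map (h p)) φ) :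
    ∃ (K L : SSet.{0}) (i : K ⟶ L) (e₁ : F.obj K ⟶ X) (e₂ : F.obj L ⟶ Y),
      SSet.anodyneExtensions i ∧ IsPushout e₁ (F.map i) φ e₂ := by
  have key : ∀ {X Y : NCat n} (g : X ⟶ Y), ofHoms (fun p => F.map (h p)) g →
      ∃ (K L : SSet.{0}) (i : K ⟶ L) (e₁ : F.obj K ⟶ X) (e₂ : F.obj L ⟶ Y),
        SSet.anodyneExtensions i ∧ IsPushout e₁ (F.map i) g e₂ := by
    rintro _ _ _ ⟨p⟩
    exact ⟨_, _, h p, 𝟙 _, 𝟙 _, hh p, IsPushout.of_id_fst⟩
  rw [coproducts_iff] at hφ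
  obtain ⟨J, X₁, X₂, c₁, c₂, h₁, h₂, f, hf⟩ := hφ
  obtain ⟨φ, hφ, e⟩ : ∃ φ : c₁.pt ⟶ c₂.pt, φ = h₁.desc (Cocone.mk _ (f ≫ c₂.ι)) ∧
      ∀ j, c₁.ι.app j ≫ φ = f.app j ≫ c₂.ι.app j := ⟨_, rfl, fun j => h₁.fac _ j⟩
  refine hφ ▸ ?_
  choose K L i e₁ e₂ hi hp using fun j => key _ (hf j)
  have hK := isColimitOfHasCoproductOfPreservesColimit F K
  have hL := isColimitOfHasCoproductOfPreservesColimit F L
  obtain ⟨E₁, k₁⟩ : ∃ E : F.obj (∐ K) ⟶ c₁.pt,
      ∀ j, F.map (Sigma.ι K j) ≫ E = e₁ j ≫ c₁.ι.app j :=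
    ⟨Cofan.IsColimit.desc hK _, Cofan.IsColimit.fac hK _⟩
  obtain ⟨E₂, k₂⟩ : ∃ E : F.obj (∐ L) ⟶ c₂.pt,
      ∀ j, F.map (Sigma.ι L j) ≫ E = e₂ j ≫ c₂.ι.app j :=
    ⟨Cofan.IsColimit.desc hL _, Cofan.IsColimit.fac hL _⟩
  have xK : ∀ {T : NCat n} (s t : F.obj (∐ K) ⟶ T),
      (∀ j, F.map (Sigma.ι K j) ≫ s = F.map (Sigma.ι K j) ≫ t) → s = t :=
    fun s t => Cofan.IsColimit.hom_ext hK s t
  have xL : ∀ {T : NCat n} (s t : F.obj (∐ L) ⟶ T),
      (∀ j, F.map (Sigma.ι L j) ≫ s = F.map (Sigma.ι L j) ≫ t) → s = t :=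
    fun s t => Cofan.IsColimit.hom_ext hL s t
  have k₃ : ∀ j, F.map (Sigma.ι K j) ≫ F.map (Limits.Sigma.map i) =
      F.map (i j) ≫ F.map (Sigma.ι L j) := fun j => by
    rw [← F.map_comp, ← F.map_comp, Limits.Sigma.ι_map]
  refine ⟨∐ K, ∐ L, Limits.Sigma.map i, E₁, E₂, ?_, IsPushout.mk' (xK _ _ fun j => ?_)
    (fun T s t hs ht => h₂.hom_ext fun j => (hp j).hom_ext ?_ ?_) fun T a b hab => ?_⟩
  · exact MorphismProperty.colimMap (W := SSet.modelCategoryQuillen.J.rlp.llp) _ fun j => hi j.as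
  · rw [reassoc_of% k₁, reassoc_of% k₃, k₂, e, (hp j).w_assoc]
  · rw [← reassoc_of% e, ← reassoc_of% e, hs]
  · rw [← reassoc_of% k₂, ← reassoc_of% k₂, ht]
  · have w : ∀ j, e₁ j ≫ c₁.ι.app j ≫ a = F.map (i j) ≫ F.map (Sigma.ι L j) ≫ b := fun j => by
      rw [← reassoc_of% k₁, hab, reassoc_of% k₃]
    choose t t₁ t₂ using fun j => (hp j).exists_desc _ _ (w j)
    have k₄ : ∀ j, c₂.ι.app j ≫ h₂.desc (Cocone.mk T (Discrete.natTrans t)) = t j :=
      fun j => h₂.fac _ j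
    refine ⟨h₂.desc (Cocone.mk T (Discrete.natTrans t)), h₁.hom_ext fun j => ?_,
      xL _ _ fun j => ?_⟩
    · rw [reassoc_of% e, k₄, t₁]
    · rw [reassoc_of% k₂, k₄, t₂]

end

lemma exists_factor_I (n : ℕ∞) {X Y : NCat n} (f : X ⟶ Y) :
    ∃ (Z : NCat n) (i : X ⟶ Z) (p : Z ⟶ Y), Cn n i ∧ Fn n p ∧ Wn n p ∧ i ≫ p = f := by
  obtain ⟨c, ⟨adj⟩⟩ := exists_leftAdjoint n
  obtain ⟨Z, i, p, hi, hp, e⟩ := factor_ofHoms
    (fun m : ℕ => ((SSet.sd ⋙ SSet.sd) ⋙ c).map (SSet.boundary.{0} m).ι)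
    (fun m => fp_left adj _) f
  change (genI c).rlp.llp i at hi
  change (genI c).rlp p at hp
  rw [rlp_genI adj] at hi hp
  exact ⟨Z, i, p, hi, hp.1, hp.2, e⟩

lemma exists_factor_J (n : ℕ∞) {X Y : NCat n} (f : X ⟶ Y) :
    ∃ (Z : NCat n) (i : X ⟶ Z) (p : Z ⟶ Y), (Fn n).llp i ∧ Fn n p ∧ i ≫ p = f := by
  obtain ⟨c, ⟨adj⟩⟩ := exists_leftAdjoint n
  obtain ⟨Z, i, p, hi, hp, e⟩ := factor_ofHoms (fun p : Σ m : ℕ, Fin (m + 2) =>
    ((SSet.sd ⋙ SSet.sd) ⋙ c).map (SSet.horn.{0} (p.1 + 1) p.2).ι) (fun m => fp_left adj _) f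
  change (genJ c).rlp.llp i at hi
  change (genJ c).rlp p at hp
  rw [rlp_genJ adj] at hi hp
  exact ⟨Z, i, p, hi, hp, e⟩

lemma wn_pushout (hn : 1 ≤ n) (adj : c ⊣ nerveN n) {K L : SSet.{0}} (i : K ⟶ L) [Mono i]
    (hi : whe i) {X Y : NCat n} {g : ((SSet.sd ⋙ SSet.sd) ⋙ c).obj K ⟶ X} {a : X ⟶ Y}
    {b : ((SSet.sd ⋙ SSet.sd) ⋙ c).obj L ⟶ Y}
    (h : IsPushout g (((SSet.sd ⋙ SSet.sd) ⋙ c).map i) a b) : Wn n a := by
  have := mono_sd_map i
  have := mono_sd_map (SSet.sd.map i)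
  exact (hsq_sd_mono hn i).whe_map (whe_sd_map (whe_sd_map hi))
    ((sPush_iff adj g (SSet.sd.map (SSet.sd.map i)) a b).2 h)

private lemma wn_filt : MorphismProperty.IsStableUnderFilteredColimits.{0, 0} (Wn n) where
  isStableUnderColimitsOfShape J _ _ := ⟨fun X₁ X₂ c₁ c₂ h₁ h₂ f hf φ hφ =>
    whe_colim (Functor.whiskerRight f (nerveN n)) hf _ _ (isColimitOfPreserves (nerveN n) h₁)
      (isColimitOfPreserves (nerveN n) h₂) _ fun j =>
        ((nerveN n).map_comp _ _).symm.trans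
          ((congrArg (nerveN n).map (hφ j)).trans ((nerveN n).map_comp _ _))⟩

theorem llp_Fn_le_Wn (hn : 1 ≤ n) : (Fn n).llp ≤ Wn n := by
  obtain ⟨c, ⟨adj⟩⟩ := exists_leftAdjoint n
  have : PreservesColimitsOfSize.{0, 0} ((SSet.sd ⋙ SSet.sd) ⋙ c) :=
    (adjT adj).leftAdjoint_preservesColimits
  have := wn_filt (n := n)
  have : (Wn n).IsMultiplicative := inferInstanceAs (whe.inverseImage _).IsMultiplicative
  have : (Wn n).RespectsIso := inferInstanceAs (whe.inverseImage _).RespectsIso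
  have : (Wn n).IsStableUnderRetracts :=
    inferInstanceAs (whe.inverseImage _).IsStableUnderRetracts
  rw [← rlp_genJ adj]
  refine llp_rlp_ofHoms _ (fun m => fp_left adj _) _ ?_
  rintro X Y q ⟨A, B, p, g, g', hp, hq⟩
  obtain ⟨K, L, i, e₁, e₂, hi, he⟩ := coprod_aux ((SSet.sd ⋙ SSet.sd) ⋙ c)
    (fun p : Σ m : ℕ, Fin (m + 2) => (SSet.horn.{0} (p.1 + 1) p.2).ι)
    (fun p _ _ _ hq => kq_horn_lift hq p.1 p.2) hp
  have := mono_of_anodyne hi
  exact wn_pushout hn adj i (whe_of_anodyne hi) (he.paste_horiz hq)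

theorem exists_thomason (hn : 1 ≤ n) : ∃ M : ModelCategory (NCat n),
    M.categoryWithCofibrations.cofibrations = Cn n ∧
    M.categoryWithFibrations.fibrations = Fn n ∧
    M.categoryWithWeakEquivalences.weakEquivalences = Wn n := by
  let a : CategoryWithFibrations (NCat n) := ⟨Fn n⟩
  let b : CategoryWithCofibrations (NCat n) := ⟨Cn n⟩
  let c : CategoryWithWeakEquivalences (NCat n) := ⟨Wn n⟩
  have h2 : (Wn n).HasTwoOutOfThreeProperty :=
    inferInstanceAs (whe.inverseImage _).HasTwoOutOfThreeProperty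
  refine ⟨{
    categoryWithFibrations := a
    categoryWithCofibrations := b
    categoryWithWeakEquivalences := c
    cm2 := h2
    cm3a := (inferInstance : (whe.inverseImage (nerveN n)).IsStableUnderRetracts)
    cm3b := (inferInstance : (SSet.modelCategoryQuillen.J.rlp.inverseImage
      (nerveN n ⋙ SSet.ex ⋙ SSet.ex)).IsStableUnderRetracts)
    cm3c := (inferInstance : (Fn n ⊓ Wn n).llp.IsStableUnderRetracts)
    cm4a := fun i p hi hw hp => ?_
    cm4b := fun i p hi hp hw => ?_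
    cm5a := ⟨fun f => ?_⟩
    cm5b := ⟨fun f => ?_⟩ }, rfl, rfl, rfl⟩
  · obtain ⟨Z, j, q, hj, hq, e⟩ := exists_factor_J n i
    have hq' : Wn n q := (Wn n).of_precomp j q (llp_Fn_le_Wn hn _ hj)
      (by rw [e]; exact (weakEquivalence_iff i).1 hw)
    have : HasLiftingProperty i q := (cofibration_iff i).1 hi q ⟨hq, hq'⟩
    exact (Fn n).llp.of_retract (RetractArrow.ofLeftLiftingProperty e) hj p
      ((fibration_iff p).1 hp)
  · exact (cofibration_iff i).1 hi p ⟨(fibration_iff p).1 hp, (weakEquivalence_iff p).1 hw⟩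
  · obtain ⟨Z, j, q, hj, hq, e⟩ := exists_factor_J n f
    exact ⟨{ Z := Z, i := j, p := q, fac := e
             hi := ⟨fun _ _ r hr => hj r hr.1, llp_Fn_le_Wn hn _ hj⟩, hp := hq }⟩
  · obtain ⟨Z, j, q, hj, hq, hq', e⟩ := exists_factor_I n f
    exact ⟨{ Z := Z, i := j, p := q, fac := e, hi := hj, hp := ⟨hq, hq'⟩ }⟩

theorem cn_left (adj : c ⊣ nerveN n) {K L : SSet.{0}} (i : K ⟶ L) [Mono i] :
    Cn n (((SSet.sd ⋙ SSet.sd) ⋙ c).map i) := by
  intro X Y p hp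
  exact ((adjT adj).hasLiftingProperty_iff i p).2
    ((trivFib_right p).2 hp i (MorphismProperty.monomorphisms.infer_property i))

private lemma whe_unit (hn : 1 ≤ n) (adj : c ⊣ nerveN n) (K : SSet.{0}) :
    whe (adj.unit.app (SSet.sd.obj (SSet.sd.obj K))) :=
  uGood_sd hn K _ _ (sUniv_unit adj _)

theorem wn_left (hn : 1 ≤ n) (adj : c ⊣ nerveN n) {K L : SSet.{0}} (i : K ⟶ L) (hi : whe i) :
    Wn n (((SSet.sd ⋙ SSet.sd) ⋙ c).map i) := by
  refine whe.of_precomp _ _ (whe_unit hn adj K) ?_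
  have e := adj.unit.naturality (SSet.sd.map (SSet.sd.map i))
  exact e ▸ whe.comp_mem _ _ (whe_sd_map (whe_sd_map hi)) (whe_unit hn adj L)

theorem wn_iff (hn : 1 ≤ n) (adj : c ⊣ nerveN n) (K : SSet.{0}) (X : NCat n)
    (f : ((SSet.sd ⋙ SSet.sd) ⋙ c).obj K ⟶ X) : Wn n f ↔ whe ((adjT adj).homEquiv K X f) := by
  have e : (adjT adj).homEquiv K X f = SSet.sdExAdjunction.homEquiv K _
      (SSet.sdExAdjunction.homEquiv (SSet.sd.obj K) _
        (adj.homEquiv (SSet.sd.obj (SSet.sd.obj K)) X f)) := by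
    rw [adjT, Adjunction.comp_homEquiv, Adjunction.comp_homEquiv]
    rfl
  refine Iff.trans ?_ (iff_of_eq (congrArg (fun t => whe t) e.symm))
  refine Iff.trans ?_ ((whe_homEquiv_sd _).trans (whe_homEquiv_sd _)).symm
  rw [Adjunction.homEquiv_unit]
  exact (whe.precomp_iff _ _ (whe_unit hn adj K)).symm

end Vale.Agent.P213
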